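import Vale.Agent.P147.Quenched

noncomputable section

namespace Vale.Agent.P147

open MeasureTheory ProbabilityTheory
open scoped ENNReal

variable {d : ℕ} {μ : Measure (Row d)}

/-- Annealed weight of a finite path from the origin. -/
def W (μ : Measure (Row d)) (l : List (Dir d)) : ℝ≥0∞ := ∫⁻ ω, qw ω 0 l ∂envLaw μ

/-- Sites from which a finite path takes a step. -/
def srcs : (Fin d → ℤ) → List (Dir d) → List (Fin d → ℤ)
  | _, [] => []
  | x, e :: l => x :: srcs (x + dirVec e) l

lemma mem_srcs {x z : Fin d → ℤ} {l : List (Dir d)} :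
    z ∈ srcs x l ↔ ∃ i < l.length, z = x + endPt (l.take i) := by
  induction l generalizing x with
  | nil => simp [srcs]
  | cons e l ih =>
    simp only [srcs, List.mem_cons, ih, List.length_cons]
    constructor
    · rintro (rfl | ⟨i, hi, rfl⟩)
      · exact ⟨0, by simp⟩
      · exact ⟨i + 1, by omega, by simp [add_assoc]⟩
    · rintro ⟨_ | i, hi, rfl⟩
      · simp
      · exact Or.inr ⟨i, by omega, by simp [add_assoc]⟩

lemma qw_congr {ω η : Env d} {x : Fin d → ℤ} {l : List (Dir d)}
    (h : ∀ z ∈ srcs x l, ω z = η z) : qw ω x l = qw η x l := by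
  induction l generalizing x with
  | nil => rfl
  | cons e l ih =>
    simp only [srcs, List.mem_cons, forall_eq_or_imp] at h
    simp [qw, h.1, ih h.2]

instance [IsProbabilityMeasure μ] : IsProbabilityMeasure (envLaw μ) := by
  unfold envLaw; infer_instance

lemma annealed_apply {E : Set (Walk d)} (hE : MeasurableSet E) :
    annealed μ E = ∫⁻ ω, quenched ω E ∂envLaw μ := by
  rw [annealed, Measure.bind_apply hE measurable_quenched.aemeasurable]

theorem annealed_cyl (l : List (Dir d)) : annealed μ (cyl l) = W μ l := by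
  simp [annealed_apply (measurableSet_cyl l), quenched_cyl, W]

instance [IsProbabilityMeasure μ] : IsProbabilityMeasure (annealed μ) := by
  constructor
  rw [annealed_apply MeasurableSet.univ]
  simp

lemma measurable_tau (x : Fin d → ℤ) : Measurable (tau (d := d) x) := by
  unfold tau; fun_prop

theorem envLaw_map_tau [IsProbabilityMeasure μ] (x : Fin d → ℤ) :
    (envLaw μ).map (tau x) = envLaw μ := by
  classical
  refine Measure.eq_infinitePi _ fun s t ht => ?_
  rw [Measure.map_apply (measurable_tau x)
    (MeasurableSet.pi s.countable_toSet fun i _ => ht i)]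
  have : tau x ⁻¹' (s : Set _).pi t =
      ((s.map (addLeftEmbedding x) : Finset _) : Set _).pi (fun z => t (z - x)) := by
    ext ω
    simp only [tau, Set.mem_preimage, Set.mem_pi, Finset.coe_map, Set.forall_mem_image,
      addLeftEmbedding_apply, Finset.mem_coe, add_sub_cancel_left]
  rw [this, envLaw, Measure.infinitePi_pi _ fun z _ => ht _, Finset.prod_map]
  simp

open scoped Classical in
/-- Replace the rows in `S` of `p.2` by those of `p.1`. -/
def mix (S : Set (Fin d → ℤ)) (p : Env d × Env d) : Env d :=
  fun z => if z ∈ S then p.1 z else p.2 z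

lemma measurable_mix (S : Set (Fin d → ℤ)) : Measurable (mix (d := d) S) := by
  refine measurable_pi_lambda _ fun z => ?_
  by_cases h : z ∈ S
  · simp only [mix, h, if_true]; fun_prop
  · simp only [mix, h, if_false]; fun_prop

theorem envLaw_map_mix [IsProbabilityMeasure μ] (S : Set (Fin d → ℤ)) :
    ((envLaw μ).prod (envLaw μ)).map (mix S) = envLaw μ := by
  classical
  refine Measure.eq_infinitePi _ fun s t ht => ?_
  rw [Measure.map_apply (measurable_mix S)
    (MeasurableSet.pi s.countable_toSet fun i _ => ht i)]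
  have : mix S ⁻¹' (s : Set _).pi t =
      ((s.filter (· ∈ S) : Finset _) : Set _).pi t ×ˢ
        ((s.filter (· ∉ S) : Finset _) : Set _).pi t := by
    ext p
    simp only [Set.mem_preimage, Set.mem_pi, Finset.mem_coe, Set.mem_prod, Finset.mem_filter, mix]
    constructor
    · intro h
      exact ⟨fun z hz => by simpa [hz.2] using h z hz.1, fun z hz => by simpa [hz.2] using h z hz.1⟩
    · intro h z hz
      by_cases hS : z ∈ S
      · simpa [hS] using h.1 z ⟨hz, hS⟩
      · simpa [hS] using h.2 z ⟨hz, hS⟩
  rw [this, Measure.prod_prod, envLaw, Measure.infinitePi_pi _ fun z _ => ht _,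
    Measure.infinitePi_pi _ fun z _ => ht _, Finset.prod_filter_mul_prod_filter_not]

/-- Functions of disjoint sets of rows are independent. -/
theorem lintegral_mul_of_disjoint [IsProbabilityMeasure μ] (S : Set (Fin d → ℤ))
    {f g : Env d → ℝ≥0∞} (hf : Measurable f) (hg : Measurable g)
    (hfS : ∀ ω η : Env d, (∀ z ∈ S, ω z = η z) → f ω = f η)
    (hgS : ∀ ω η : Env d, (∀ z ∉ S, ω z = η z) → g ω = g η) :
    ∫⁻ ω, f ω * g ω ∂envLaw μ = (∫⁻ ω, f ω ∂envLaw μ) * ∫⁻ ω, g ω ∂envLaw μ := by
  conv_lhs => rw [← envLaw_map_mix (μ := μ) S]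
  rw [lintegral_map (hf.fun_mul hg) (measurable_mix S)]
  have : (fun p : Env d × Env d => f (mix S p) * g (mix S p)) = fun p => f p.1 * g p.2 := by
    funext p
    rw [hfS (mix S p) p.1 (fun z hz => by simp [mix, hz]),
      hgS (mix S p) p.2 (fun z hz => by simp [mix, hz])]
  rw [this]
  exact lintegral_prod_mul hf.aemeasurable hg.aemeasurable

/-- Trajectories that never visit `S`. -/
def Avoid (S : Set (Fin d → ℤ)) : Set (Walk d) := {s | ∀ n, pos s n ∉ S}

lemma measurable_pos (n : ℕ) : Measurable fun s : Walk d => pos s n := by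
  have : (fun s : Walk d => pos s n) = (fun g : Fin n → Dir d => ∑ i, dirVec (g i)) ∘
      (fun s (i : Fin n) => s i) := by
    funext s; simp [pos, Finset.sum_range]
  rw [this]
  exact measurable_of_countable _ |>.comp (by fun_prop)

lemma measurableSet_avoid (S : Set (Fin d → ℤ)) : MeasurableSet (Avoid S) := by
  have : Avoid S = ⋂ n, (fun s : Walk d => pos s n) ⁻¹' Sᶜ := by ext; simp [Avoid]
  rw [this]
  exact MeasurableSet.iInter fun n => measurable_pos n (Set.to_countable Sᶜ).measurableSet

lemma endPt_take_pre (s : Walk d) {i n : ℕ} (h : i ≤ n) :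
    endPt ((pre s n).take i) = pos s i := by
  rw [← endPt_pre]
  congr 1
  exact List.ext_getElem (by simp; omega) fun j h1 h2 => by simp [getElem_pre]

theorem quenched_eq_of_eq_off {ω η : Env d} {S : Set (Fin d → ℤ)} (h : ∀ z ∉ S, ω z = η z)
    {E : Set (Walk d)} (hE : MeasurableSet E) (hES : E ⊆ Avoid S) :
    quenched ω E = quenched η E := by
  classical
  have key : (quenched ω).restrict (Avoid S) = (quenched η).restrict (Avoid S) := by
    refine ext_of_cyl fun l => ?_
    rw [Measure.restrict_apply (measurableSet_cyl l), Measure.restrict_apply (measurableSet_cyl l)]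
    let A : ℕ → Set (Walk d) := fun k => {s | pre s (l.length + k) ∈
      {m : List (Dir d) | m.take l.length = l ∧ ∀ z ∈ srcs 0 m, z ∉ S}}
    have hAm : ∀ k, MeasurableSet (A k) := fun k => by
      have := @measurable_pre d (l.length + k) {m : List (Dir d) | m.take l.length = l ∧
        ∀ z ∈ srcs 0 m, z ∉ S} trivial
      exact this
    have hmem : ∀ k s, s ∈ A k ↔ s ∈ cyl l ∧ ∀ i < l.length + k, pos s i ∉ S := by
      intro k s
      simp only [A, Set.mem_ofPred_eq, mem_cyl_iff, mem_srcs, zero_add, length_pre]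
      have e : (pre s (l.length + k)).take l.length = pre s l.length :=
        List.ext_getElem (by simp) fun j h1 h2 => by simp [getElem_pre]
      rw [e]
      refine and_congr Iff.rfl ⟨fun H i hi => ?_, fun H z hz => ?_⟩
      · exact H _ ⟨i, hi, (endPt_take_pre s hi.le).symm⟩
      · obtain ⟨i, hi, rfl⟩ := hz
        rw [endPt_take_pre s hi.le]; exact H i hi
    have hinter : cyl l ∩ Avoid S = ⋂ k, A k := by
      ext s
      simp only [Set.mem_inter_iff, Set.mem_iInter, hmem, Avoid, Set.mem_ofPred_eq]
      exact ⟨fun H k => ⟨H.1, fun i _ => H.2 i⟩,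
        fun H => ⟨(H 0).1, fun n => (H (n + 1)).2 n (by omega)⟩⟩
    have anti : Antitone A := fun a b hab s hs => by
      rw [hmem] at hs ⊢
      exact ⟨hs.1, fun i hi => hs.2 i (by omega)⟩
    have t1 := tendsto_measure_iInter_atTop (μ := quenched ω)
      (fun k => (hAm k).nullMeasurableSet) anti ⟨0, measure_ne_top _ _⟩
    have t2 := tendsto_measure_iInter_atTop (μ := quenched η)
      (fun k => (hAm k).nullMeasurableSet) anti ⟨0, measure_ne_top _ _⟩
    rw [hinter]
    refine tendsto_nhds_unique t1 ?_
    convert t2 using 1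
    funext k
    simp only [Function.comp, A, measure_pre_mem]
    refine Finset.sum_congr rfl fun g _ => ?_
    simp only [Set.indicator_apply, Set.mem_ofPred_eq]
    split_ifs with hg
    · rw [quenched_cyl, quenched_cyl]
      exact qw_congr fun z hz => h z (hg.2 z hz)
    · rfl
  have := congrFun (congrArg (fun ν : Measure (Walk d) => (ν : Set (Walk d) → ℝ≥0∞)) key) E
  simpa [Measure.restrict_apply hE, Set.inter_eq_left.2 hES] using this

/-- Annealed Markov property at a fresh site. -/
theorem annealed_fresh [IsProbabilityMeasure μ] (l : List (Dir d)) {E : Set (Walk d)}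
    (hE : MeasurableSet E) (hfresh : ∀ s ∈ E, ∀ n, endPt l + pos s n ∉ srcs 0 l) :
    annealed μ (cyl l ∩ shift l.length ⁻¹' E) = W μ l * annealed μ E := by
  rw [annealed_apply ((measurableSet_cyl l).inter (measurable_shift _ hE))]
  simp only [quenched_markov _ _ hE]
  rw [lintegral_mul_of_disjoint (g := fun ω => quenched (tau (endPt l) ω) E)
    {z | z ∈ srcs 0 l} (measurable_qw 0 l)
    ((Measure.measurable_coe hE).comp (measurable_quenched.comp (measurable_tau _)))
    (fun ω η h => qw_congr h)]
  · congr 1
    rw [annealed_apply hE]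
    conv_rhs => rw [← envLaw_map_tau (μ := μ) (endPt l)]
    rw [lintegral_map (f := fun ω => quenched ω E)
      ((Measure.measurable_coe hE).comp measurable_quenched) (measurable_tau _)]
  · intro ω η h
    refine quenched_eq_of_eq_off (S := {z | endPt l + z ∈ srcs 0 l})
      (fun z hz => h _ hz) hE fun s hs n => hfresh s hs n

/-- Annealed weights multiply along paths with disjoint sources. -/
theorem W_append [IsProbabilityMeasure μ] (l m : List (Dir d))
    (h : ∀ z ∈ srcs (endPt l) m, z ∉ srcs 0 l) : W μ (l ++ m) = W μ l * W μ m := by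
  have e : ∀ ω, qw ω 0 (l ++ m) = qw ω 0 l * qw ω (endPt l) m := fun ω => by
    rw [qw_append, zero_add]
  simp only [W, e]
  rw [lintegral_mul_of_disjoint {z | z ∈ srcs 0 l} (measurable_qw 0 l) (measurable_qw _ m)
    (fun ω η hh => qw_congr hh) (fun ω η hh => qw_congr fun z hz => hh z (h z hz))]
  congr 1
  conv_rhs => rw [← envLaw_map_tau (μ := μ) (endPt l)]
  rw [lintegral_map (measurable_qw 0 m) (measurable_tau _)]
  simp only [qw_tau, add_zero]

/-- Under ellipticity every finite path has positive annealed weight. -/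
theorem W_pos [IsProbabilityMeasure μ] (he : IsElliptic μ) (l : List (Dir d)) : 0 < W μ l := by
  rw [W, lintegral_pos_iff_support (measurable_qw 0 l)]
  have h1 : ∀ᵐ ω ∂envLaw μ, ∀ z e, 0 < (ω z).1 e := by
    rw [ae_all_iff]
    intro z
    exact (measurePreserving_eval_infinitePi (fun _ : Fin d → ℤ => μ) z).quasiMeasurePreserving.ae he
  have h2 : ∀ᵐ ω ∂envLaw μ, qw ω 0 l ≠ 0 := by
    filter_upwards [h1] with ω hω
    suffices ∀ x, qw ω x l ≠ 0 from this 0
    induction l with
    | nil => simp [qw]
    | cons e l ih => intro x; simp [qw, hω x e, ih]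
  calc (0 : ℝ≥0∞) < 1 := one_pos
    _ = envLaw μ {ω | qw ω 0 l ≠ 0} := by
      rw [← (prob_compl_eq_zero_iff ((measurable_qw 0 l) (measurableSet_singleton 0)).compl).1
        (by rw [ae_iff] at h2; simpa [Set.preimage] using h2)]
      rfl
    _ = _ := rfl

lemma W_ne_top [IsProbabilityMeasure μ] (l : List (Dir d)) : W μ l ≠ ⊤ := by
  rw [← annealed_cyl]; exact measure_ne_top _ _

end Vale.Agent.P147
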