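import Vale.Agent.P147.Hit

/-!
Two independent traces avoid each other up to depth `n` with non-summable probability.
-/

noncomputable section

namespace Vale.Agent.P147

open MeasureTheory ProbabilityTheory Filter
open scoped ENNReal Topology

set_option linter.unusedSectionVars false

variable {d : ℕ} {α β : Type*} [MeasurableSpace α] [MeasurableSingletonClass α] [Countable α]
  [MeasurableSpace β] [MeasurableSingletonClass β] [Countable β]

/-- Depth after `n` blocks. -/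
def depth (L : (Fin d → ℤ) →+ ℤ) (A : Side α d) (ω : ℕ → α) (n : ℕ) : ℕ := (-L (A.S ω n)).toNat

/-- The first `n` pieces of the first walk avoid the second walk down to their depth. -/
def AvoidUpTo (L : (Fin d → ℤ) →+ ℤ) (A : Side α d) (B : Side β d) (y : Fin d → ℤ) (n : ℕ) :
    Set ((ℕ → α) × (ℕ → β)) :=
  {x | ∀ i < n, ∀ j ≤ depth L A x.1 n, x ∉ Hit A B y (i, j)}

/-- The index square of side `2 ^ k`. -/
def square (k : ℕ) : Set (ℕ × ℕ) := {p | p.1 < 2 ^ k ∧ p.2 < 2 ^ k}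

/-- No intersection in the square. -/
def AvoidBox (A : Side α d) (B : Side β d) (y : Fin d → ℤ) (k : ℕ) :
    Set ((ℕ → α) × (ℕ → β)) := (HitIn A B y (square k))ᶜ

variable {L : (Fin d → ℤ) →+ ℤ} {A : Side α d} {B : Side β d}

lemma avoidBox_anti (y : Fin d → ℤ) {k m : ℕ} (h : k ≤ m) :
    AvoidBox A B y m ⊆ AvoidBox A B y k := by
  refine Set.compl_subset_compl.2 (Set.biUnion_subset_biUnion_left fun p hp => ?_)
  have := Nat.pow_le_pow_right two_pos h
  exact ⟨hp.1.trans_le this, hp.2.trans_le this⟩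

lemma avoidBox_dep (y : Fin d → ℤ) (k : ℕ) :
    ∀ ω ω' η η', head (2 ^ k) ω = head (2 ^ k) ω' → head (2 ^ k) η = head (2 ^ k) η' →
      (ω, η) ∈ AvoidBox A B y k → (ω', η') ∈ AvoidBox A B y k := by
  intro ω ω' η η' e1 e2 h hc
  simp only [HitIn, Set.mem_iUnion] at hc
  obtain ⟨p, hp, hh⟩ := hc
  exact h (Set.mem_biUnion hp (A.hit_dep B y hp.1 hp.2 e1.symm e2.symm hh))

lemma measurableSet_avoidBox (y : Fin d → ℤ) (k : ℕ) : MeasurableSet (AvoidBox A B y k) :=
  (measurableSet_hitIn A B y _).compl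

lemma measurable_depth (L : (Fin d → ℤ) →+ ℤ) (A : Side α d) (n : ℕ) :
    Measurable fun ω => depth L A ω n :=
  (measurable_of_countable fun z : Fin d → ℤ => (-L z).toNat).comp (A.measurable_S n)

lemma measurableSet_avoidUpTo (L : (Fin d → ℤ) →+ ℤ) (A : Side α d) (B : Side β d)
    (y : Fin d → ℤ) (n : ℕ) : MeasurableSet (AvoidUpTo L A B y n) := by
  have : AvoidUpTo L A B y n = ⋂ p : ℕ × ℕ,
      ({x : (ℕ → α) × (ℕ → β) | p.1 < n → p.2 ≤ depth L A x.1 n → x ∉ Hit A B y p}) := by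
    ext x
    simp only [AvoidUpTo, Set.mem_ofPred_eq, Set.mem_iInter, Prod.forall]
    exact ⟨fun h i j hi hj => h i hi j hj, fun h i hi j hj => h i j hi hj⟩
  rw [this]
  refine MeasurableSet.iInter fun p => ?_
  by_cases hp : p.1 < n
  · simp only [hp, true_implies]
    have hm : MeasurableSet {x : (ℕ → α) × (ℕ → β) | p.2 ≤ depth L A x.1 n} :=
      ((measurable_depth L A n).comp measurable_fst) (Set.to_countable {m | p.2 ≤ m}).measurableSet
    have : {x : (ℕ → α) × (ℕ → β) | p.2 ≤ depth L A x.1 n → x ∉ Hit A B y p} =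
        {x | p.2 ≤ depth L A x.1 n}ᶜ ∪ (Hit A B y p)ᶜ := by ext x; simp [imp_iff_not_or]
    rw [this]
    exact hm.compl.union (measurableSet_hit A B y p).compl
  · simp [hp]

lemma lev_S_le_neg (hA : Good L A) (ω : ℕ → α) (i : ℕ) : L (A.S ω i) ≤ -(i : ℤ) := by
  induction i with
  | zero => simp [Side.S]
  | succ i ih =>
    simp only [Side.S, Finset.sum_range_succ, map_add] at ih ⊢
    have := hA.dsp_le (ω i)
    push_cast
    linarith

lemma le_depth (hA : Good L A) (ω : ℕ → α) (i : ℕ) : i ≤ depth L A ω i := by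
  have := lev_S_le_neg hA ω i
  unfold depth; omega

lemma depth_mono (hA : Good L A) (ω : ℕ → α) {i j : ℕ} (h : i ≤ j) :
    depth L A ω i ≤ depth L A ω j := by
  have := hA.lev_S_le ω h
  unfold depth; omega

lemma depth_add (hA : Good L A) (ω : ℕ → α) (n m : ℕ) :
    depth L A ω (n + m) = depth L A ω n + depth L A (fun t => ω (n + t)) m := by
  have h1 := lev_S_le_neg hA ω n
  have h2 := lev_S_le_neg hA (fun t => ω (n + t)) m
  have h3 : A.S ω (n + m) = A.S ω n + A.S (fun t => ω (n + t)) m := by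
    simp [Side.S, Finset.sum_range_add]
  unfold depth
  rw [h3, map_add]
  omega

/-- The mean depth of a block. -/
def meanDep (L : (Fin d → ℤ) →+ ℤ) (A : Side α d) : ℝ≥0∞ :=
  ∑' a, A.law a * ((-L (A.dsp a)).toNat : ℝ≥0∞)

lemma lintegral_depth (hA : Good L A) (n : ℕ) :
    ∫⁻ ω, (depth L A ω n : ℝ≥0∞) ∂seqLaw A.law = n * meanDep L A := by
  have h : ∀ ω, (depth L A ω n : ℝ≥0∞) =
      ∑ t ∈ Finset.range n, ((-L (A.dsp (ω t))).toNat : ℝ≥0∞) := by
    intro ω
    rw [← Nat.cast_sum]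
    congr 1
    induction n with
    | zero => simp [depth, Side.S]
    | succ n ih =>
      rw [depth_add hA ω n 1, Finset.sum_range_succ, ih]
      simp [depth, Side.S]
  simp only [h]
  rw [lintegral_finsetSum _ fun t _ =>
    (measurable_of_countable fun a => ((-L (A.dsp a)).toNat : ℝ≥0∞)).fun_comp (measurable_pi_apply t)]
  rw [Finset.sum_congr rfl fun t _ => (?_ : _ = meanDep L A)]
  · simp
  · rw [seqLaw, ← lintegral_map (f := fun a => ((-L (A.dsp a)).toNat : ℝ≥0∞))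
      (measurable_of_countable _) (measurable_pi_apply t), Measure.infinitePi_map_eval,
      lintegral_countable', meanDep]
    exact tsum_congr fun a => by
      rw [PMF.toMeasure_apply_singleton _ _ (measurableSet_singleton a), mul_comm]

lemma markov_depth (hA : Good L A) (n T : ℕ) :
    (T : ℝ≥0∞) * seqLaw A.law {ω | T ≤ depth L A ω n} ≤ n * meanDep L A := by
  rw [← lintegral_depth hA n]
  refine le_trans (le_of_eq ?_) (mul_meas_ge_le_lintegral
    ((measurable_of_countable fun m : ℕ => (m : ℝ≥0∞)).comp (measurable_depth L A n)) (T : ℝ≥0∞))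
  congr 1
  congr 1
  ext ω; simp

lemma pairLaw_fst (A : Side α d) (B : Side β d) {E : Set (ℕ → α)} :
    pairLaw A B (Prod.fst ⁻¹' E) = seqLaw A.law E := by
  rw [← Set.prod_univ, pairLaw, Measure.prod_prod, measure_univ, mul_one]

lemma pairLaw_snd (A : Side α d) (B : Side β d) {E : Set (ℕ → β)} :
    pairLaw A B (Prod.snd ⁻¹' E) = seqLaw B.law E := by
  rw [← Set.univ_prod, pairLaw, Measure.prod_prod, measure_univ, one_mul]

/-- The second walk goes deep while the square is avoided. -/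
def Bad (L : (Fin d → ℤ) →+ ℤ) (A : Side α d) (B : Side β d) (y : Fin d → ℤ) (m X : ℕ) :
    Set ((ℕ → α) × (ℕ → β)) :=
  AvoidBox A B y m ∩ {x | 2 ^ X ≤ depth L B x.2 (2 ^ m)}

/-- Bound on `Bad` in terms of the avoidance probabilities. -/
theorem bad_bound (hB : Good L B) (y : Fin d → ℤ) {s : ℝ≥0∞} (hs1 : 1 ≤ s) {c k : ℕ} (hc : 1 ≤ c)
    (hck : 4 * s ^ c ≤ 2 ^ c)
    (ha : ∀ m ≤ k, pairLaw A B (AvoidBox A B y m) ≤ 2 * s ^ (k - m) * pairLaw A B (AvoidBox A B y k))
    (h1 : 1 ≤ 2 * s ^ k * pairLaw A B (AvoidBox A B y k)) :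
    ∀ m ≤ k, ∀ X, m ≤ X → pairLaw A B (Bad L A B y m X) * 2 ^ X ≤
      8 * meanDep L B * s ^ c * 2 ^ m * s ^ (k - m) * pairLaw A B (AvoidBox A B y k) := by
  set P := pairLaw A B
  set μ₁ := meanDep L B
  set a := fun m => P (AvoidBox A B y m)
  intro m
  induction m using Nat.strong_induction_on with
  | _ m ih =>
  intro hm X hX
  rcases lt_or_ge m c with hmc | hmc
  · calc P (Bad L A B y m X) * 2 ^ X
        ≤ seqLaw B.law {η | 2 ^ X ≤ depth L B η (2 ^ m)} * 2 ^ X := by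
          rw [← pairLaw_snd A B]; gcongr; exact fun x hx => hx.2
      _ ≤ 2 ^ m * μ₁ := by
          have := markov_depth hB (2 ^ m) (2 ^ X)
          push_cast at this; rwa [mul_comm]
      _ ≤ 2 ^ m * μ₁ * (2 * s ^ k * a k) := le_mul_of_one_le_right' h1
      _ ≤ 2 ^ m * μ₁ * (8 * (s ^ c * s ^ (k - m)) * a k) := by
          gcongr
          · norm_num
          · rw [← pow_add]; exact pow_le_pow_right₀ hs1 (by omega)
      _ = _ := by ring
  · set m' := m - c with hm'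
    obtain ⟨X', rfl⟩ : ∃ X', X = X' + 1 := ⟨X - 1, by omega⟩
    set E := AvoidBox A B y m' ∩ shiftPair (2 ^ m', 2 ^ m') ⁻¹'
      (Prod.snd ⁻¹' {η | 2 ^ X' ≤ depth L B η (2 ^ m)}) with hE
    have hsub : Bad L A B y m (X' + 1) ⊆ Bad L A B y m' X' ∪ E := by
      rintro x ⟨hx1, hx2⟩
      have h1' := avoidBox_anti y (show m' ≤ m by omega) hx1
      simp only [Set.mem_ofPred_eq] at hx2
      have hle : 2 ^ m' ≤ 2 ^ m := Nat.pow_le_pow_right two_pos (by omega)
      have hadd := depth_add hB x.2 (2 ^ m') (2 ^ m - 2 ^ m')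
      rw [Nat.add_sub_cancel' hle] at hadd
      have hmono := depth_mono hB (fun t => x.2 (2 ^ m' + t)) (Nat.sub_le (2 ^ m) (2 ^ m'))
      rw [pow_succ] at hx2
      rcases le_or_gt (2 ^ X') (depth L B x.2 (2 ^ m')) with h | h
      · exact Or.inl ⟨h1', h⟩
      · refine Or.inr ⟨h1', ?_⟩
        show 2 ^ X' ≤ depth L B (fun t => x.2 (2 ^ m' + t)) (2 ^ m)
        omega
    have hEle : P E * 2 ^ X' ≤ a m' * (2 ^ m * μ₁) := by
      have hG : MeasurableSet {η : ℕ → β | 2 ^ X' ≤ depth L B η (2 ^ m)} :=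
        measurable_depth L B _ (Set.to_countable {q | 2 ^ X' ≤ q}).measurableSet
      have hps := prob_shift A B (2 ^ m', 2 ^ m') (measurableSet_avoidBox (A := A) (B := B) y m')
        (measurable_snd hG) (avoidBox_dep y m')
      show pairLaw A B E * 2 ^ X' ≤ a m' * (2 ^ m * μ₁)
      rw [hE, hps, pairLaw_snd, mul_assoc]
      refine mul_le_mul' le_rfl ?_
      have := markov_depth hB (2 ^ m) (2 ^ X')
      push_cast at this; rwa [mul_comm]
    have ih' := ih m' (by omega) (by omega) X' (by omega)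
    have hkm : k - m' = (k - m) + c := by omega
    calc P (Bad L A B y m (X' + 1)) * 2 ^ (X' + 1)
        ≤ (P (Bad L A B y m' X') + P E) * 2 ^ (X' + 1) := by
          gcongr; exact (measure_mono hsub).trans (measure_union_le _ _)
      _ = 2 * (P (Bad L A B y m' X') * 2 ^ X') + 2 * (P E * 2 ^ X') := by ring
      _ ≤ 2 * (8 * μ₁ * s ^ c * 2 ^ m' * s ^ (k - m') * a k) +
            2 * (2 * s ^ (k - m') * a k * (2 ^ m * μ₁)) := by
          refine add_le_add (mul_le_mul' le_rfl ih') (mul_le_mul' le_rfl (hEle.trans ?_))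
          gcongr
          exact ha m' (by omega)
      _ = (4 * s ^ c) * (4 * (μ₁ * s ^ c * 2 ^ m' * s ^ (k - m) * a k)) +
            4 * (μ₁ * s ^ c * 2 ^ m * s ^ (k - m) * a k) := by
          rw [hkm, pow_add]; ring
      _ ≤ 2 ^ c * (4 * (μ₁ * s ^ c * 2 ^ m' * s ^ (k - m) * a k)) +
            4 * (μ₁ * s ^ c * 2 ^ m * s ^ (k - m) * a k) := by gcongr
      _ = _ := by
          have : (2 : ℝ≥0∞) ^ m = 2 ^ c * 2 ^ m' := by
            rw [← pow_add]; congr 1; omega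
          rw [this]; ring

/-- Intersection in a window when the expected number of common skeleton points diverges. -/
theorem window_small (hA : Good L A) (hB : Good L B) (hG : cnt A B 0 Set.univ = ⊤) (R : ℕ)
    {ε : ℝ≥0∞} (hε : ε ≠ 0) :
    ∃ N₀, ∀ N ≥ N₀, ∀ y, pairLaw A B
      (HitIn A B y {p | p.1 < R * N ∧ p.2 < R * N ∧ (N ≤ p.1 ∨ N ≤ p.2)}) ≤ ε := by
  classical
  obtain ⟨C, hC, hwin⟩ := cnt_window_le hA hB
  set K := ((R + 1 : ℕ) : ℝ≥0∞) * C with hK
  have hKt : K ≠ ⊤ := ENNReal.mul_ne_top (by simp) hC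
  set w₀ := fun uv : α × β => offsets A B 0 (fun _ => (1 : ℝ≥0∞)) uv with hw₀
  have hsum : ∑' uv, w₀ uv ≠ ⊤ := by
    rw [tsum_offsets_const, one_mul]; exact kappa_ne_top hA hB
  have hconst : ∀ (y : Fin d → ℤ) (c : ℝ≥0∞) uv, offsets A B y (fun _ => c) uv = c * w₀ uv := by
    intro y c uv; simp only [hw₀, offsets, Finset.sum_const, nsmul_eq_mul]; ring
  have hK2 : ε / 2 ≠ 0 := by simp [hε]
  obtain ⟨X, hX⟩ : ∃ X : Finset (α × β), K * ∑' uv : {uv // uv ∉ X}, w₀ uv ≤ ε / 2 := by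
    have h := ENNReal.Tendsto.const_mul (ENNReal.tendsto_tsum_compl_atTop_zero hsum) (Or.inr hKt)
    rw [mul_zero] at h
    exact ((ENNReal.tendsto_nhds_zero.1 h) _ (pos_iff_ne_zero.2 hK2)).exists
  set M := ∑ uv ∈ X, ((A.pts uv.1).card * (B.pts uv.2).card : ℝ≥0∞) with hM
  have hMt : M ≠ ⊤ := ENNReal.sum_ne_top.2 fun uv _ => ENNReal.mul_ne_top (by simp) (by simp)
  obtain ⟨G₀, hG₀⟩ : ∃ N : ℕ, M * K * (2 / ε) ≤ cnt A B 0 {p | p.1 < N ∧ p.2 < N} ∧
      1 ≤ cnt A B 0 {p | p.1 < N ∧ p.2 < N} := by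
    have hlt : max (M * K * (2 / ε)) 1 < cnt A B 0 Set.univ := by
      rw [hG]
      exact max_lt ((ENNReal.mul_lt_top (ENNReal.mul_lt_top hMt.lt_top hKt.lt_top)
        (ENNReal.div_lt_top (by simp) hε))) ENNReal.one_lt_top
    rw [cnt, tsum_univ (fun p : ℕ × ℕ => pairLaw A B (Match A B 0 p)), ENNReal.tsum_eq_iSup_sum,
      lt_iSup_iff] at hlt
    obtain ⟨T, hT⟩ := hlt
    obtain ⟨N, hN⟩ : ∃ N, T ⊆ Finset.range N ×ˢ Finset.range N := by
      refine ⟨(T.sup fun p => max p.1 p.2) + 1, fun p hp => ?_⟩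
      have := Finset.le_sup (f := fun p : ℕ × ℕ => max p.1 p.2) hp
      simp only [Finset.mem_product, Finset.mem_range]
      omega
    refine ⟨N, ?_⟩
    have : ∑ p ∈ T, pairLaw A B (Match A B 0 p) ≤ cnt A B 0 {p | p.1 < N ∧ p.2 < N} := by
      rw [cnt, tsum_subtype {p : ℕ × ℕ | p.1 < N ∧ p.2 < N}
        (fun p => pairLaw A B (Match A B 0 p))]
      refine le_trans (le_of_eq (Finset.sum_congr rfl fun p hp => ?_)) (ENNReal.sum_le_tsum T)
      rw [Set.indicator_of_mem]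
      exact ⟨Finset.mem_range.1 (Finset.mem_product.1 (hN hp)).1,
        Finset.mem_range.1 (Finset.mem_product.1 (hN hp)).2⟩
    exact max_le_iff.1 (hT.le.trans this)
  refine ⟨G₀, fun N hN y => ?_⟩
  set I : Set (ℕ × ℕ) := {p | p.1 < R * N ∧ p.2 < R * N ∧ (N ≤ p.1 ∨ N ≤ p.2)} with hI
  set Kset : Set (ℕ × ℕ) := {p | p.1 < (R + 1) * N ∧ p.2 < (R + 1) * N ∧ (N ≤ p.1 ∨ N ≤ p.2)}
  set G := cnt A B 0 {p | p.1 < N ∧ p.2 < N} with hGdef
  have hG1 : M * K * (2 / ε) ≤ G ∧ 1 ≤ G := by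
    have hmono : cnt A B 0 {p | p.1 < G₀ ∧ p.2 < G₀} ≤ G :=
      cnt_mono 0 fun p hp => ⟨hp.1.trans_le hN, hp.2.trans_le hN⟩
    exact ⟨hG₀.1.trans hmono, hG₀.2.trans hmono⟩
  have hmatch : ∀ w, pairLaw A B (⋃ p ∈ I, Match A B w p) * G ≤ K := fun w => by
    refine (cnt_ge hA hB w I {p | p.1 < N ∧ p.2 < N} Kset ?_).trans (hwin w (R + 1) N)
    intro p hp q hq
    simp only [Kset, Set.mem_ofPred_eq, Prod.fst_add, Prod.snd_add]
    have h1 := hp.1; have h2 := hp.2.1; have h3 := hp.2.2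
    have h4 := hq.1; have h5 := hq.2
    rw [Nat.succ_mul]
    omega
  have hsplit : HitIn A B y I ⊆
      (⋃ uv ∈ X, ⋃ a ∈ A.pts uv.1, ⋃ b ∈ B.pts uv.2, ⋃ p ∈ I, Match A B (y + b - a) p) ∪
      ⋃ p ∈ I, (Hit A B y p ∩ {x | (x.1 p.1, x.2 p.2) ∈ {uv | uv ∉ X}}) := by
    intro x hx
    simp only [HitIn, Set.mem_iUnion] at hx
    obtain ⟨p, hp, hh⟩ := hx
    by_cases hu : (x.1 p.1, x.2 p.2) ∈ X
    · obtain ⟨a, ha, b, hb, he⟩ := hh
      refine Or.inl (Set.mem_biUnion hu (Set.mem_biUnion ha (Set.mem_biUnion hb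
        (Set.mem_biUnion hp ?_))))
      show A.S x.1 p.1 = B.S x.2 p.2 + (y + b - a)
      rw [eq_sub_of_add_eq he]; abel
    · exact Or.inr (Set.mem_biUnion hp ⟨hh, hu⟩)
  refine (measure_mono hsplit).trans ((measure_union_le _ _).trans ?_)
  rw [← ENNReal.add_halves ε]
  refine add_le_add ?_ ?_
  · have hGt : G ≠ ⊤ := by
      rw [hGdef, cnt]
      have hfin : {p : ℕ × ℕ | p.1 < N ∧ p.2 < N}.Finite :=
        ((Finset.range N ×ˢ Finset.range N).finite_toSet).subset fun p hp => by simpa using hp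
      have := hfin.fintype
      rw [tsum_fintype]
      exact ENNReal.sum_ne_top.2 fun p _ => measure_ne_top _ _
    have hG0 : G ≠ 0 := (zero_lt_one.trans_le hG1.2).ne'
    calc pairLaw A B (⋃ uv ∈ X, ⋃ a ∈ A.pts uv.1, ⋃ b ∈ B.pts uv.2, ⋃ p ∈ I,
          Match A B (y + b - a) p)
        ≤ ∑ uv ∈ X, ∑ _a ∈ A.pts uv.1, ∑ _b ∈ B.pts uv.2, K / G := by
          refine (measure_biUnion_finset_le _ _).trans (Finset.sum_le_sum fun uv _ => ?_)
          refine (measure_biUnion_finset_le _ _).trans (Finset.sum_le_sum fun a _ => ?_)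
          refine (measure_biUnion_finset_le _ _).trans (Finset.sum_le_sum fun b _ => ?_)
          exact (ENNReal.le_div_iff_mul_le (Or.inl hG0) (Or.inl hGt)).2 (hmatch _)
      _ = M * (K / G) := by
          simp only [Finset.sum_const, nsmul_eq_mul, hM, Finset.sum_mul, mul_assoc]
      _ ≤ ε / 2 := by
          rw [← mul_div_assoc, ENNReal.div_le_iff hG0 hGt]
          rcases eq_or_ne ε ⊤ with rfl | hεt
          · rw [ENNReal.top_div_of_ne_top (by simp), ENNReal.top_mul hG0]; exact le_top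
          calc M * K = ε / 2 * (M * K * (2 / ε)) := by
                have e1 : ε / 2 * (2 / ε) = 1 := by
                  rw [ENNReal.div_eq_inv_mul, ENNReal.div_eq_inv_mul,
                    show (2 : ℝ≥0∞)⁻¹ * ε * (ε⁻¹ * 2) = (2⁻¹ * 2) * (ε * ε⁻¹) by ring,
                    ENNReal.inv_mul_cancel (by simp) (by simp), ENNReal.mul_inv_cancel hε hεt,
                    one_mul]
                calc M * K = ε / 2 * (2 / ε) * (M * K) := by rw [e1, one_mul]
                  _ = _ := by ring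
            _ ≤ ε / 2 * G := by gcongr; exact hG1.1
  · refine ((measure_biUnion_le _ I.to_countable _).trans
      (sum_hit_le A B y I {uv | uv ∉ X})).trans (le_trans ?_ hX)
    rw [← ENNReal.tsum_mul_left]
    refine ENNReal.tsum_le_tsum fun uv => ?_
    rw [← hconst y K uv.1]
    refine offsets_mono y (fun w => (hwin w R N).trans ?_) _
    rw [hK]; gcongr; omega

lemma hitIn_fresh_le (y : Fin d → ℤ) (m : ℕ) (I : Set (ℕ × ℕ)) {ε : ℝ≥0∞}
    (h : ∀ v, pairLaw A B (HitIn A B v I) ≤ ε) :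
    pairLaw A B (AvoidBox A B y m ∩ HitIn A B y {p | ∃ q ∈ I, p = (2 ^ m, 2 ^ m) + q}) ≤
      ε * pairLaw A B (AvoidBox A B y m) := by
  set N := 2 ^ m
  set E : (Fin d → ℤ) → Set ((ℕ → α) × (ℕ → β)) := fun v =>
    AvoidBox A B y m ∩ {x | y + B.S x.2 N - A.S x.1 N = v} with hE
  have hdep : ∀ v, ∀ ω ω' η η', head N ω = head N ω' → head N η = head N η' →
      (ω, η) ∈ E v → (ω', η') ∈ E v := by
    intro v ω ω' η η' e1 e2 ⟨h1, h2⟩
    refine ⟨avoidBox_dep y m ω ω' η η' e1 e2 h1, ?_⟩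
    simp only [Set.mem_ofPred_eq] at h2 ⊢
    rw [← A.S_congr le_rfl e1, ← B.S_congr le_rfl e2]; exact h2
  have hsub : AvoidBox A B y m ∩ HitIn A B y {p | ∃ q ∈ I, p = (N, N) + q} ⊆
      ⋃ v, E v ∩ shiftPair (N, N) ⁻¹' HitIn A B v I := by
    rintro x ⟨hx, hh⟩
    simp only [HitIn, Set.mem_iUnion] at hh
    obtain ⟨p, ⟨q, hq, rfl⟩, a, ha, b, hb, he⟩ := hh
    refine Set.mem_iUnion.2 ⟨_, ⟨hx, rfl⟩, Set.mem_biUnion hq ⟨a, ha, b, hb, ?_⟩⟩
    simp only [Prod.fst_add, Prod.snd_add, Side.S, Finset.sum_range_add] at he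
    simp only [shiftPair, Side.S]
    have := eq_sub_of_add_eq' ((add_assoc _ _ _).symm.trans he)
    rw [this]; abel
  refine (measure_mono hsub).trans ((measure_iUnion_le _).trans ?_)
  calc ∑' v, pairLaw A B (E v ∩ shiftPair (N, N) ⁻¹' HitIn A B v I)
      ≤ ∑' v, ε * pairLaw A B (E v) := ENNReal.tsum_le_tsum fun v => by
        rw [prob_shift A B (N, N) (measurableSet_of_dep N N (hdep v))
          (measurableSet_hitIn A B v I) (hdep v), mul_comm]
        gcongr; exact h v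
    _ = ε * ∑' v, pairLaw A B (E v) := ENNReal.tsum_mul_left
    _ ≤ ε * pairLaw A B (AvoidBox A B y m) := by
        gcongr
        rw [← measure_iUnion (fun v w hvw => Set.disjoint_left.2 fun x hx hx' =>
          hvw (hx.2.symm.trans hx'.2)) (fun v => measurableSet_of_dep N N (hdep v))]
        exact measure_mono (Set.iUnion_subset fun v => Set.inter_subset_left)

lemma depth_of_hit (hA : Good L A) (hB : Good L B) {y : Fin d → ℤ} (hy : L y = 0)
    {p : ℕ × ℕ} {x : (ℕ → α) × (ℕ → β)} (h : x ∈ Hit A B y p) :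
    p.1 ≤ depth L B x.2 (p.2 + 1) := by
  obtain ⟨a, ha, b, hb, he⟩ := h
  have h1 := congrArg L he
  simp only [map_add, hy, zero_add] at h1
  have h2 := (hA.pts_le _ a ha).2
  have h3 := (hB.pts_le _ b hb).1
  have h4 := lev_S_le_neg hA x.1 p.1
  have h5 : L (B.S x.2 (p.2 + 1)) = L (B.S x.2 p.2) + L (B.dsp (x.2 p.2)) := by
    simp [Side.S, Finset.sum_range_succ]
  unfold depth
  omega

lemma hit_swap (y : Fin d → ℤ) (p : ℕ × ℕ) :
    Prod.swap ⁻¹' Hit A B y p = Hit B A (-y) (p.2, p.1) := by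
  ext x
  simp only [Hit, Set.mem_preimage, Set.mem_ofPred_eq, Prod.fst_swap, Prod.snd_swap]
  constructor
  · rintro ⟨a, ha, b, hb, he⟩
    exact ⟨b, hb, a, ha, by rw [add_assoc (-y), he]; abel⟩
  · rintro ⟨b, hb, a, ha, he⟩
    exact ⟨a, ha, b, hb, by rw [add_assoc y, he]; abel⟩

lemma pairLaw_swap (E : Set ((ℕ → α) × (ℕ → β))) (hE : MeasurableSet E) :
    pairLaw B A (Prod.swap ⁻¹' E) = pairLaw A B E := by
  rw [pairLaw, pairLaw, ← Measure.prod_swap (μ := seqLaw B.law) (ν := seqLaw A.law),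
    Measure.map_apply measurable_swap hE]

lemma avoidBox_swap (y : Fin d → ℤ) (k : ℕ) :
    Prod.swap ⁻¹' AvoidBox A B y k = AvoidBox B A (-y) k := by
  simp only [AvoidBox, HitIn, Set.preimage_compl, Set.preimage_iUnion, hit_swap]
  congr 1
  ext x
  simp only [Set.mem_iUnion, square, Set.mem_ofPred_eq]
  exact ⟨fun ⟨p, hp, h⟩ => ⟨(p.2, p.1), ⟨hp.2, hp.1⟩, h⟩,
    fun ⟨p, hp, h⟩ => ⟨(p.2, p.1), ⟨hp.2, hp.1⟩, h⟩⟩

/-- One scale of the induction. -/
theorem avoid_step (hA : Good L A) (hB : Good L B) {y : Fin d → ℤ} (hy : L y = 0) {s : ℝ≥0∞}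
    (hs1 : 1 ≤ s) {c k : ℕ} (hc : 1 ≤ c) (hck : 4 * s ^ c ≤ 2 ^ c) (hk : c ≤ k) {ε : ℝ≥0∞}
    (hwin : ∀ v, pairLaw A B (HitIn A B v {p | p.1 < 2 ^ (c + 1) * 2 ^ (k - c) ∧
      p.2 < 2 ^ (c + 1) * 2 ^ (k - c) ∧ (2 ^ (k - c) ≤ p.1 ∨ 2 ^ (k - c) ≤ p.2)}) ≤ ε)
    (ha : ∀ m ≤ k, pairLaw A B (AvoidBox A B y m) ≤ 2 * s ^ (k - m) * pairLaw A B (AvoidBox A B y k))
    (h1 : 1 ≤ 2 * s ^ k * pairLaw A B (AvoidBox A B y k)) :
    pairLaw A B (AvoidBox A B y k) ≤ pairLaw A B (AvoidBox A B y (k + 1)) +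
      (2 * ε * s ^ c + 8 * (meanDep L A + meanDep L B) * (s ^ c * s ^ c) / 2 ^ c) *
        pairLaw A B (AvoidBox A B y k) := by
  set P := pairLaw A B
  set m := k - c with hm
  set a := fun j => P (AvoidBox A B y j)
  set N := 2 ^ m with hN
  have e2 : 2 ^ (c + 1) * N = 2 * 2 ^ k := by
    rw [hN, ← pow_add, ← pow_succ']; congr 1; omega
  have eN : 2 * N ≤ 2 ^ k := by
    rw [hN, ← pow_succ']; exact Nat.pow_le_pow_right two_pos (by omega)
  have hcover : AvoidBox A B y k ⊆ AvoidBox A B y (k + 1) ∪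
      ((AvoidBox A B y m ∩ HitIn A B y {p | ∃ q ∈ {p : ℕ × ℕ | p.1 < 2 ^ (c + 1) * N ∧
        p.2 < 2 ^ (c + 1) * N ∧ (N ≤ p.1 ∨ N ≤ p.2)}, p = (N, N) + q}) ∪
      (Bad L A B y m k ∪ Prod.swap ⁻¹' Bad L B A (-y) m k)) := by
    intro x hx
    by_cases hx' : x ∈ AvoidBox A B y (k + 1)
    · exact Or.inl hx'
    right
    simp only [AvoidBox, Set.mem_compl_iff, not_not, HitIn, Set.mem_iUnion] at hx'
    obtain ⟨p, hp, hh⟩ := hx'
    have hxm := avoidBox_anti y (show m ≤ k by omega) hx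
    have hnew : 2 ^ k ≤ p.1 ∨ 2 ^ k ≤ p.2 := by
      by_contra hc'
      push Not at hc'
      exact hx (Set.mem_biUnion (show p ∈ square k from hc') hh)
    have hp1 : p.1 < 2 * 2 ^ k := by rw [← pow_succ']; exact hp.1
    have hp2 : p.2 < 2 * 2 ^ k := by rw [← pow_succ']; exact hp.2
    by_cases h1' : p.1 < N
    · refine Or.inr (Or.inr ?_)
      have hj : 2 ^ k ≤ p.2 := by omega
      have hh' : Prod.swap x ∈ Hit B A (-y) (p.2, p.1) := by
        rw [← hit_swap]; simpa using hh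
      refine ⟨by rw [← avoidBox_swap]; simpa using hxm, ?_⟩
      have h5 := depth_of_hit hB hA (by rw [map_neg, hy, neg_zero]) hh'
      have h6 := depth_mono hA x.1 (show p.1 + 1 ≤ N by omega)
      simp only [Prod.snd_swap, Set.mem_ofPred_eq] at h5 ⊢
      rw [hN] at h6
      omega
    · by_cases h2' : p.2 < N
      · refine Or.inr (Or.inl ⟨hxm, ?_⟩)
        have h5 := depth_of_hit hA hB hy hh
        have h6 := depth_mono hB x.2 (show p.2 + 1 ≤ N by omega)
        simp only [Set.mem_ofPred_eq]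
        rw [hN] at h6
        omega
      · refine Or.inl ⟨hxm, Set.mem_biUnion ⟨(p.1 - N, p.2 - N), ?_, ?_⟩ hh⟩
        · simp only [Set.mem_ofPred_eq, e2]; omega
        · ext <;> simp only [Prod.fst_add, Prod.snd_add] <;> omega
  have ham : a m ≤ 2 * s ^ c * a k := by
    have := ha m (by omega)
    rwa [show k - m = c by omega] at this
  have hbadB := bad_bound (L := L) hB y hs1 hc hck ha h1 m (by omega) k (by omega)
  have hsw : ∀ j, pairLaw B A (AvoidBox B A (-y) j) = a j := fun j => by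
    rw [← avoidBox_swap, pairLaw_swap _ (measurableSet_avoidBox y j)]
  have hbadA := bad_bound (L := L) (A := B) (B := A) hA (-y) hs1 hc hck
    (fun j hj => by rw [hsw, hsw]; exact ha j hj) (by rw [hsw]; exact h1) m (by omega) k (by omega)
  rw [hsw] at hbadA
  have hk2 : (2 : ℝ≥0∞) ^ k = 2 ^ c * 2 ^ m := by rw [← pow_add]; congr 1; omega
  have conv : ∀ (p μ₁ : ℝ≥0∞), p * 2 ^ k ≤ 8 * μ₁ * s ^ c * 2 ^ m * s ^ (k - m) * a k →
      p ≤ 8 * μ₁ * (s ^ c * s ^ c) / 2 ^ c * a k := by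
    intro p μ₁ h
    rw [show k - m = c by omega, hk2] at h
    have h' : p * 2 ^ c * 2 ^ m ≤ 8 * μ₁ * (s ^ c * s ^ c) * a k * 2 ^ m := by
      calc p * 2 ^ c * 2 ^ m = p * (2 ^ c * 2 ^ m) := by ring
        _ ≤ _ := h
        _ = _ := by ring
    rw [ENNReal.mul_le_mul_iff_left (by simp) (by simp)] at h'
    rw [← ENNReal.mul_div_right_comm, ENNReal.le_div_iff_mul_le (Or.inl (by simp))
      (Or.inl (by simp))]
    exact h'
  have hmeas : MeasurableSet (Bad L B A (-y) m k) :=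
    (measurableSet_avoidBox _ _).inter
      (measurable_snd (measurable_depth L A _ (Set.to_countable {q | 2 ^ k ≤ q}).measurableSet))
  refine (measure_mono hcover).trans ((measure_union_le _ _).trans (add_le_add le_rfl
    ((measure_union_le _ _).trans ((add_le_add (hitIn_fresh_le y m _ hwin)
      ((measure_union_le _ _).trans (add_le_add (conv _ _ hbadB)
        (le_of_eq_of_le (pairLaw_swap (A := B) (B := A) _ hmeas) (conv _ _ hbadA))))).trans ?_))))
  calc ε * a m + (8 * meanDep L B * (s ^ c * s ^ c) / 2 ^ c * a k +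
        8 * meanDep L A * (s ^ c * s ^ c) / 2 ^ c * a k)
      ≤ ε * (2 * s ^ c * a k) + (8 * meanDep L B * (s ^ c * s ^ c) / 2 ^ c * a k +
        8 * meanDep L A * (s ^ c * s ^ c) / 2 ^ c * a k) := by gcongr
    _ = _ := by simp only [div_eq_mul_inv]; ring

lemma avoidUpTo_anti (hA : Good L A) (y : Fin d → ℤ) {n m : ℕ} (h : n ≤ m) :
    AvoidUpTo L A B y m ⊆ AvoidUpTo L A B y n :=
  fun x hx i hi j hj => hx i (hi.trans_le h) j (hj.trans (depth_mono hA x.1 h))

lemma avoidBox_le_avoidUpTo (hA : Good L A) (y : Fin d → ℤ) (k : ℕ) :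
    pairLaw A B (AvoidBox A B y (2 * k)) * 2 ^ k ≤
      pairLaw A B (AvoidUpTo L A B y (2 ^ k)) * 2 ^ k + meanDep L A := by
  have hsub : AvoidBox A B y (2 * k) ⊆
      AvoidUpTo L A B y (2 ^ k) ∪ Prod.fst ⁻¹' {ω | 2 ^ (2 * k) ≤ depth L A ω (2 ^ k)} := by
    intro x hx
    by_cases h : 2 ^ (2 * k) ≤ depth L A x.1 (2 ^ k)
    · exact Or.inr h
    · refine Or.inl fun i hi j hj hh => hx (Set.mem_biUnion ⟨?_, ?_⟩ hh)
      · exact hi.trans_le (Nat.pow_le_pow_right two_pos (by omega))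
      · exact lt_of_le_of_lt hj (not_le.1 h)
  have hm := markov_depth hA (2 ^ k) (2 ^ (2 * k))
  push_cast at hm
  rw [two_mul, pow_add, mul_assoc, ENNReal.mul_le_mul_iff_right (by simp) (by simp)] at hm
  calc pairLaw A B (AvoidBox A B y (2 * k)) * 2 ^ k
      ≤ (pairLaw A B (AvoidUpTo L A B y (2 ^ k)) +
          seqLaw A.law {ω | 2 ^ (2 * k) ≤ depth L A ω (2 ^ k)}) * 2 ^ k := by
        gcongr
        rw [← pairLaw_fst A B]
        exact (measure_mono hsub).trans (measure_union_le _ _)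
    _ ≤ _ := by
        rw [add_mul]
        gcongr
        rw [two_mul, mul_comm]
        exact hm

theorem exists_avoid_recurrent (hA : Good L A) (hB : Good L B) (hG : cnt A B 0 Set.univ = ⊤)
    {κ : Fin d → ℤ} (hκ : L κ = 0) (hκ0 : κ ≠ 0) :
    ∃ r : ℤ, r ≠ 0 ∧ ∑' n, pairLaw A B (AvoidUpTo L A B (r • κ) n) = ⊤ := by
  classical
  set P := pairLaw A B
  set μs := meanDep L A + meanDep L B with hμs
  have hμt : μs ≠ ⊤ := ENNReal.add_ne_top.2 ⟨hA.meanDepth, hB.meanDepth⟩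
  set s : ℝ≥0∞ := 10 / 9 with hs
  have hs1 : 1 ≤ s := by
    rw [hs, ENNReal.le_div_iff_mul_le (by simp) (by simp)]; norm_num
  have hst : s ≠ ⊤ := ENNReal.div_ne_top (by simp) (by simp)
  have hs2 : s * s / 2 < 1 := by
    have e : s = ENNReal.ofReal (10 / 9) := by
      rw [hs, ENNReal.ofReal_div_of_pos (by norm_num)]; simp
    rw [e, ← ENNReal.ofReal_mul (by norm_num), show (2 : ℝ≥0∞) = ENNReal.ofReal 2 by simp,
      ← ENNReal.ofReal_div_of_pos (by norm_num), ← ENNReal.ofReal_one]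
    exact (ENNReal.ofReal_lt_ofReal_iff (by norm_num)).2 (by norm_num)
  have hdiv : ∀ c : ℕ, (s * s / 2) ^ c = s ^ c * s ^ c / 2 ^ c := fun c => by
    simp only [div_eq_mul_inv, mul_pow, ENNReal.inv_pow]
  obtain ⟨c, hc, hcμ, hcs⟩ : ∃ c, 1 ≤ c ∧ 8 * μs * (s ^ c * s ^ c) / 2 ^ c ≤ (20 : ℝ≥0∞)⁻¹ ∧
      4 * s ^ c ≤ 2 ^ c := by
    have h1 := ENNReal.Tendsto.const_mul (ENNReal.tendsto_pow_atTop_nhds_zero_of_lt_one hs2)
      (a := max (8 * μs) 4) (Or.inr (max_lt (ENNReal.mul_lt_top (by simp) hμt.lt_top) (by simp)).ne)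
    rw [mul_zero] at h1
    obtain ⟨c₀, hc₀⟩ := eventually_atTop.1
      ((ENNReal.tendsto_nhds_zero.1 h1) (20 : ℝ≥0∞)⁻¹ (by simp))
    refine ⟨c₀ + 1, by omega, ?_, ?_⟩
    · have := hc₀ (c₀ + 1) (by omega)
      rw [hdiv] at this
      refine le_trans ?_ this
      rw [mul_div_assoc]
      gcongr
      exact le_max_left _ _
    · have := hc₀ (c₀ + 1) (by omega)
      rw [hdiv, ← mul_div_assoc, ENNReal.div_le_iff (by simp) (by simp)] at this
      calc 4 * s ^ (c₀ + 1) ≤ max (8 * μs) 4 * (s ^ (c₀ + 1) * s ^ (c₀ + 1)) := by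
            gcongr
            · exact le_max_right _ _
            · exact le_mul_of_one_le_left' (one_le_pow₀ hs1)
        _ ≤ (20 : ℝ≥0∞)⁻¹ * 2 ^ (c₀ + 1) := this
        _ ≤ 1 * 2 ^ (c₀ + 1) := by gcongr; exact ENNReal.inv_le_one.2 (by norm_num)
        _ = _ := one_mul _
  set ε : ℝ≥0∞ := (20 : ℝ≥0∞)⁻¹ / (2 * s ^ c) with hε
  have hε0 : ε ≠ 0 := ENNReal.div_ne_zero.2
    ⟨by simp, ENNReal.mul_ne_top (by simp) (ENNReal.pow_ne_top hst)⟩
  obtain ⟨N₀, hN₀⟩ := window_small hA hB hG (2 ^ (c + 1)) hε0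
  set k₀ := N₀ + c with hk₀
  -- a distant offset avoiding the initial square
  obtain ⟨r, hr0, hr⟩ : ∃ r : ℤ, r ≠ 0 ∧ (2 : ℝ≥0∞)⁻¹ ≤ P (AvoidBox A B (r • κ) k₀) := by
    set S := Finset.range (2 ^ k₀) ×ˢ Finset.range (2 ^ k₀)
    have hfin : ∀ p : ℕ × ℕ, ∑' r : ℤ, P (Hit A B (r • κ) p) ≠ ⊤ := fun p => by
      refine ne_top_of_le_ne_top (kappa_ne_top hA hB) ?_
      calc ∑' r : ℤ, P (Hit A B (r • κ) p)
          ≤ ∑' r : ℤ, ∑' uv, offsets A B (r • κ) (fun w => P (Match A B w p)) uv :=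
            ENNReal.tsum_le_tsum fun r => by
              refine le_trans ?_ ((hit_inter_le A B (r • κ) p Set.univ).trans
                (le_of_eq (tsum_univ _)))
              exact measure_mono fun x hx => ⟨hx, trivial⟩
        _ = ∑' uv, ∑' r : ℤ, offsets A B (r • κ) (fun w => P (Match A B w p)) uv :=
            ENNReal.tsum_comm
        _ ≤ ∑' uv, offsets A B 0 (fun _ => 1) uv := by
            refine ENNReal.tsum_le_tsum fun uv => ?_
            simp only [offsets, ENNReal.tsum_mul_left]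
            gcongr
            rw [Summable.tsum_finsetSum fun _ _ => ENNReal.summable]
            refine Finset.sum_le_sum fun a _ => ?_
            rw [Summable.tsum_finsetSum fun _ _ => ENNReal.summable]
            refine Finset.sum_le_sum fun b _ => ?_
            rw [← measure_iUnion (fun r r' h => Set.disjoint_left.2 fun x hx hx' => h ?_)
              (fun r => measurableSet_match A B _ p)]
            · exact prob_le_one
            · have e := (hx : A.S x.1 p.1 = _).symm.trans (hx' : A.S x.1 p.1 = _)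
              have e' : r • κ = r' • κ := by simpa using e
              exact smul_left_injective ℤ hκ0 e'
        _ = kappa A B := by rw [tsum_offsets_const, one_mul]
    have h0 : Tendsto (fun r : ℤ => ∑ p ∈ S, P (Hit A B (r • κ) p)) cofinite (𝓝 0) := by
      have := tendsto_finsetSum S fun p _ =>
        ENNReal.tendsto_cofinite_zero_of_tsum_ne_top (hfin p)
      simpa using this
    obtain ⟨r, hr, hr0⟩ := (((ENNReal.tendsto_nhds_zero.1 h0) (2 : ℝ≥0∞)⁻¹ (by simp)).and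
      (eventually_cofinite_ne (0 : ℤ))).exists
    refine ⟨r, hr0, ?_⟩
    have hH : P (HitIn A B (r • κ) (square k₀)) ≤ (2 : ℝ≥0∞)⁻¹ := by
      refine le_trans ((measure_mono ?_).trans (measure_biUnion_finset_le S _)) hr
      exact Set.biUnion_subset_biUnion_left fun p hp => by simpa [S, square] using hp
    rw [AvoidBox, prob_compl_eq_one_sub (measurableSet_hitIn A B _ _)]
    refine le_trans (le_of_eq ?_) (tsub_le_tsub_left hH 1)
    rw [ENNReal.one_sub_inv_two]
  set y := r • κ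
  have hy : L y = 0 := (map_zsmul L r κ).trans (by rw [hκ]; simp)
  set a := fun j => P (AvoidBox A B y j) with ha
  have hhalf : 1 ≤ 2 * a k₀ := by
    calc (1 : ℝ≥0∞) = 2 * 2⁻¹ := (ENNReal.mul_inv_cancel (by simp) (by simp)).symm
      _ ≤ 2 * a k₀ := by gcongr
  have main : ∀ k, k₀ ≤ k → (∀ m ≤ k, a m ≤ 2 * s ^ (k - m) * a k) ∧ 1 ≤ 2 * s ^ k * a k := by
    suffices ∀ k, k₀ ≤ k → ∀ m, k₀ ≤ m → m ≤ k → a m ≤ s ^ (k - m) * a k by
      intro k hk
      have h2 : 1 ≤ 2 * (s ^ (k - k₀) * a k) :=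
        hhalf.trans (by gcongr; exact this k hk k₀ le_rfl hk)
      refine ⟨fun m hm => ?_, h2.trans ?_⟩
      · rcases le_or_gt k₀ m with h | h
        · calc a m ≤ 1 * (s ^ (k - m) * a k) := by rw [one_mul]; exact this k hk m h hm
            _ ≤ 2 * (s ^ (k - m) * a k) := by gcongr; norm_num
            _ = _ := by ring
        · calc a m ≤ 1 := prob_le_one
            _ ≤ 2 * (s ^ (k - k₀) * a k) := h2
            _ ≤ 2 * (s ^ (k - m) * a k) := by gcongr
            _ = _ := by ring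
      · rw [← mul_assoc]; gcongr; omega
    intro k hk
    induction k, hk using Nat.le_induction with
    | base =>
      intro m h1 h2
      obtain rfl := le_antisymm h2 h1
      simp
    | succ k hk ih =>
      intro m h1 h2
      rcases h2.eq_or_lt with rfl | h2'
      · simp
      have h2k : 1 ≤ 2 * (s ^ (k - k₀) * a k) :=
        hhalf.trans (by gcongr; exact ih k₀ le_rfl hk)
      have hA' : ∀ j ≤ k, a j ≤ 2 * s ^ (k - j) * a k := fun j hj => by
        rcases le_or_gt k₀ j with h | h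
        · calc a j ≤ 1 * (s ^ (k - j) * a k) := by rw [one_mul]; exact ih j h hj
            _ ≤ 2 * (s ^ (k - j) * a k) := by gcongr; norm_num
            _ = _ := by ring
        · calc a j ≤ 1 := prob_le_one
            _ ≤ 2 * (s ^ (k - k₀) * a k) := h2k
            _ ≤ 2 * (s ^ (k - j) * a k) := by gcongr
            _ = _ := by ring
      have h1' : 1 ≤ 2 * s ^ k * a k := h2k.trans (by rw [← mul_assoc]; gcongr; omega)
      have hNk : N₀ ≤ 2 ^ (k - c) := (show N₀ ≤ k - c by omega).trans (Nat.lt_two_pow_self.le)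
      have st := avoid_step hA hB hy hs1 hc hcs (by omega) (hN₀ _ hNk) hA' h1'
      set η : ℝ≥0∞ := 2 * ε * s ^ c + 8 * μs * (s ^ c * s ^ c) / 2 ^ c with hη
      have hη' : η ≤ (10 : ℝ≥0∞)⁻¹ := by
        have e1 : 2 * ε * s ^ c = (20 : ℝ≥0∞)⁻¹ := by
          rw [mul_comm 2 ε, mul_assoc, hε, ENNReal.div_mul_cancel
            (by simp [(zero_lt_one.trans_le hs1).ne'])
            (ENNReal.mul_ne_top (by simp) (ENNReal.pow_ne_top hst))]
        rw [hη, e1]
        refine (add_le_add le_rfl hcμ).trans (le_of_eq ?_)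
        rw [show (20 : ℝ≥0∞) = 2 * 10 by norm_num, ENNReal.mul_inv (by simp) (by simp), ← add_mul,
          ENNReal.inv_two_add_inv_two, one_mul]
      have hstep : a k ≤ s * a (k + 1) := by
        have h9 : a k ≤ a (k + 1) + (10 : ℝ≥0∞)⁻¹ * a k := st.trans (by gcongr)
        have hak : a k ≠ ⊤ := measure_ne_top _ _
        have hak' : a (k + 1) ≠ ⊤ := measure_ne_top _ _
        rw [← ENNReal.toReal_le_toReal hak (ENNReal.mul_ne_top hst hak'), ENNReal.toReal_mul]
        have h10 := ENNReal.toReal_mono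
          (ENNReal.add_ne_top.2 ⟨hak', ENNReal.mul_ne_top (by simp) hak⟩) h9
        rw [ENNReal.toReal_add hak' (ENNReal.mul_ne_top (by simp) hak), ENNReal.toReal_mul,
          ENNReal.toReal_inv] at h10
        rw [hs, ENNReal.toReal_div]
        norm_num at h10 ⊢
        linarith
      calc a m ≤ s ^ (k - m) * a k := ih m h1 (by omega)
        _ ≤ s ^ (k - m) * (s * a (k + 1)) := by gcongr
        _ = s ^ (k + 1 - m) * a (k + 1) := by
            rw [← mul_assoc, ← pow_succ]; congr 2; omega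
  refine ⟨r, hr0, ?_⟩
  by_contra hT
  set T := ∑' n, P (AvoidUpTo L A B y n) with hTdef
  have hb : ∀ k, k₀ ≤ 2 * k → ((2 : ℝ≥0∞) / (s * s)) ^ k ≤ 2 * (T + meanDep L A) := by
    intro k hk
    have hTk : P (AvoidUpTo L A B y (2 ^ k)) * 2 ^ k ≤ T := by
      calc P (AvoidUpTo L A B y (2 ^ k)) * 2 ^ k
          = ∑ _n ∈ Finset.range (2 ^ k), P (AvoidUpTo L A B y (2 ^ k)) := by
            simp [Finset.sum_const, mul_comm]
        _ ≤ ∑ n ∈ Finset.range (2 ^ k), P (AvoidUpTo L A B y n) :=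
            Finset.sum_le_sum fun n hn =>
              measure_mono (avoidUpTo_anti hA y (Finset.mem_range.1 hn).le)
        _ ≤ T := ENNReal.sum_le_tsum _
    have h1 := (main (2 * k) hk).2
    have h2 := (avoidBox_le_avoidUpTo (B := B) hA y k).trans (add_le_add hTk le_rfl)
    calc ((2 : ℝ≥0∞) / (s * s)) ^ k
        ≤ ((2 : ℝ≥0∞) / (s * s)) ^ k * (2 * s ^ (2 * k) * a (2 * k)) :=
          le_mul_of_one_le_right' h1
      _ = 2 * (a (2 * k) * (((2 : ℝ≥0∞) / (s * s)) * (s * s)) ^ k) := by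
          rw [mul_pow, pow_mul, sq]; ring
      _ = 2 * (a (2 * k) * 2 ^ k) := by
          rw [ENNReal.div_mul_cancel (by simp [(zero_lt_one.trans_le hs1).ne'])
            (ENNReal.mul_ne_top hst hst)]
      _ ≤ 2 * (T + meanDep L A) := by gcongr
  have hgt : 1 < (2 : ℝ≥0∞) / (s * s) := by
    rw [ENNReal.lt_div_iff_mul_lt (Or.inl (by simp [(zero_lt_one.trans_le hs1).ne']))
      (Or.inl (ENNReal.mul_ne_top hst hst)), one_mul]
    rw [ENNReal.div_lt_iff (Or.inl (by simp)) (Or.inl (by simp)), one_mul] at hs2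
    exact hs2
  obtain ⟨k, hk1, hk2⟩ := (((ENNReal.tendsto_pow_atTop_nhds_top_iff.2 hgt).eventually
    (eventually_gt_nhds (show 2 * (T + meanDep L A) < ⊤ from
      ENNReal.mul_lt_top (by simp) (ENNReal.add_lt_top.2 ⟨Ne.lt_top hT, hA.meanDepth.lt_top⟩)))).and
    (eventually_ge_atTop k₀)).exists
  exact absurd (hb k (by omega)) (not_le.2 hk1)

end Vale.Agent.P147
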