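import Vale.Agent.P147.Seq

/-!
Concentration bound: a walk with steps in `ℤ^d` whose step law charges four corners
`v, v + k₂, v + k₃, v + k₂ + k₃` with `k₂, k₃` independent and of level zero hits the graph of
any function of the level with probability `O(1/n)`.
-/

noncomputable section

namespace Vale.Agent.P147

open MeasureTheory ProbabilityTheory
open scoped ENNReal

variable {d : ℕ}


theorem centralBinom_sq_le (k : ℕ) : (Nat.centralBinom k) ^ 2 * (2 * k + 1) ≤ 16 ^ k := by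
  induction k with
  | zero => simp
  | succ k ih =>
    have h := Nat.succ_mul_centralBinom_succ k
    have key : (k + 1) ^ 2 * ((Nat.centralBinom (k + 1)) ^ 2 * (2 * (k + 1) + 1))
        ≤ (k + 1) ^ 2 * 16 ^ (k + 1) := by
      have e : (k + 1) ^ 2 * ((Nat.centralBinom (k + 1)) ^ 2 * (2 * (k + 1) + 1)) =
          ((k + 1) * Nat.centralBinom (k + 1)) ^ 2 * (2 * k + 3) := by ring
      rw [e, h]
      have e2 : (2 * (2 * k + 1) * Nat.centralBinom k) ^ 2 * (2 * k + 3) =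
          4 * (2 * k + 1) * (2 * k + 3) * ((Nat.centralBinom k) ^ 2 * (2 * k + 1)) := by ring
      rw [e2, pow_succ 16 k]
      calc 4 * (2 * k + 1) * (2 * k + 3) * ((Nat.centralBinom k) ^ 2 * (2 * k + 1))
          ≤ (16 * (k + 1) ^ 2) * 16 ^ k := by
            refine Nat.mul_le_mul ?_ ih
            nlinarith
        _ = (k + 1) ^ 2 * (16 ^ k * 16) := by ring
    exact Nat.le_of_mul_le_mul_left key (by positivity)

theorem choose_sq_le (m a : ℕ) : (m.choose a) ^ 2 * (m + 1) ≤ 2 * 4 ^ m := by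
  have h := Nat.choose_le_middle a m
  obtain ⟨k, rfl | rfl⟩ := Nat.even_or_odd' m
  · have e : (2 * k) / 2 = k := by omega
    rw [e] at h
    calc (2 * k).choose a ^ 2 * (2 * k + 1) ≤ (2 * k).choose k ^ 2 * (2 * k + 1) := by gcongr
      _ ≤ 16 ^ k := centralBinom_sq_le k
      _ ≤ 2 * 4 ^ (2 * k) := by rw [pow_mul]; norm_num
  · have e : (2 * k + 1) / 2 = k := by omega
    rw [e] at h
    have h2 : 2 * (2 * k + 1).choose k = Nat.centralBinom (k + 1) := by
      rw [Nat.centralBinom, show 2 * (k + 1) = (2 * k + 1) + 1 by ring, Nat.choose_succ_succ,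
        Nat.choose_symm_half]
      ring
    have h3 := centralBinom_sq_le (k + 1)
    rw [← h2] at h3
    have h4 : (2 * k + 1).choose a ^ 2 * (2 * k + 1 + 1) * 4 ≤ 16 ^ (k + 1) := by
      calc _ ≤ (2 * k + 1).choose k ^ 2 * (2 * (k + 1) + 1) * 4 := by gcongr; omega
        _ = (2 * (2 * k + 1).choose k) ^ 2 * (2 * (k + 1) + 1) := by ring
        _ ≤ _ := h3
    have h5 : 16 ^ (k + 1) = 4 * (4 ^ (2 * k + 1)) := by
      rw [show (16 : ℕ) = 4 ^ 2 by norm_num, ← pow_mul, ← pow_succ']; congr 1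
    omega

theorem choose_mul_choose_le (m a b : ℕ) : m.choose a * m.choose b * (m + 1) ≤ 2 * 4 ^ m := by
  have h1 := choose_sq_le m a
  have h2 := choose_sq_le m b
  nlinarith [two_mul_le_add_sq (m.choose a) (m.choose b)]

/-- The averaging operator of a step law. -/
def stepOp {α : Type*} (r : α → ℝ≥0∞) (dsp : α → (Fin d → ℤ)) (h : (Fin d → ℤ) → ℝ≥0∞)
    (x : Fin d → ℤ) : ℝ≥0∞ := ∑' a, r a * h (x + dsp a)

/-- The averaging operator of the four corners. -/
def cornerOp (v k₂ k₃ : Fin d → ℤ) (h : (Fin d → ℤ) → ℝ≥0∞) (x : Fin d → ℤ) : ℝ≥0∞ :=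
  4⁻¹ * (h (x + v) + h (x + v + k₂) + h (x + v + k₃) + h (x + v + k₂ + k₃))

lemma cornerOp_iter_eq (v k₂ k₃ : Fin d → ℤ) (m : ℕ) (h : (Fin d → ℤ) → ℝ≥0∞)
    (x : Fin d → ℤ) :
    (cornerOp v k₂ k₃)^[m] h x = (4⁻¹) ^ m * ∑ a ∈ Finset.range (m + 1), ∑ b ∈ Finset.range (m + 1),
      ((m.choose a * m.choose b : ℕ) : ℝ≥0∞) * h (x + m • v + a • k₂ + b • k₃) := by
  induction m generalizing x h with
  | zero => simp
  | succ m ih =>
    rw [Function.iterate_succ_apply, ih]
    set F : ℕ → ℕ → ℝ≥0∞ := fun a b => h (x + (m + 1) • v + a • k₂ + b • k₃) with hF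
    have hc : ∀ a b : ℕ, cornerOp v k₂ k₃ h (x + m • v + a • k₂ + b • k₃) =
        4⁻¹ * (F a b + F (a + 1) b + F a (b + 1) + F (a + 1) (b + 1)) := by
      intro a b
      simp only [cornerOp, hF, succ_nsmul]
      congr 1
      congr 1
      congr 1
      congr 1
      all_goals congr 1; abel
    have hsum : ∀ G : ℕ → ℝ≥0∞,
        ∑ a ∈ Finset.range (m + 1), (m.choose a : ℝ≥0∞) * (G a + G (a + 1)) =
          ∑ a ∈ Finset.range (m + 1 + 1), ((m + 1).choose a : ℝ≥0∞) * G a := by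
      intro G
      simp only [mul_add, Finset.sum_add_distrib]
      rw [Finset.sum_range_succ' (fun a => ((m + 1).choose a : ℝ≥0∞) * G a)]
      simp only [Nat.choose_succ_succ, Nat.cast_add, add_mul, Finset.sum_add_distrib]
      rw [Finset.sum_range_succ (fun a => (m.choose (a + 1) : ℝ≥0∞) * G (a + 1)),
        Finset.sum_range_succ' (fun a => (m.choose a : ℝ≥0∞) * G a)]
      simp [Nat.choose_succ_self]
      ring
    simp only [hc]
    calc (4⁻¹ : ℝ≥0∞) ^ m * ∑ a ∈ Finset.range (m + 1), ∑ b ∈ Finset.range (m + 1),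
          ((m.choose a * m.choose b : ℕ) : ℝ≥0∞) *
            (4⁻¹ * (F a b + F (a + 1) b + F a (b + 1) + F (a + 1) (b + 1)))
        = (4⁻¹ : ℝ≥0∞) ^ (m + 1) * ∑ a ∈ Finset.range (m + 1), (m.choose a : ℝ≥0∞) *
            ((∑ b ∈ Finset.range (m + 1), (m.choose b : ℝ≥0∞) * (F a b + F a (b + 1))) +
             ∑ b ∈ Finset.range (m + 1), (m.choose b : ℝ≥0∞) *
               (F (a + 1) b + F (a + 1) (b + 1))) := by
          simp only [← Finset.sum_add_distrib, Finset.mul_sum, pow_succ, Nat.cast_mul]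
          exact Finset.sum_congr rfl fun a _ => Finset.sum_congr rfl fun b _ => by ring
      _ = _ := by
          simp only [hsum, hF]
          simp only [Finset.mul_sum, Nat.cast_mul]
          exact Finset.sum_congr rfl fun a _ => Finset.sum_congr rfl fun b _ => by ring

/-- Indicator of the graph of a function of the level. -/
def graphInd (L : (Fin d → ℤ) →+ ℤ) (f : ℤ → (Fin d → ℤ)) : (Fin d → ℤ) → ℝ≥0∞ :=
  {x | x = f (L x)}.indicator 1

lemma cornerOp_iter_graph_le (L : (Fin d → ℤ) →+ ℤ) (f : ℤ → (Fin d → ℤ)) (v k₂ k₃ : Fin d → ℤ)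
    (h₂ : L k₂ = 0) (h₃ : L k₃ = 0)
    (hind : ∀ a b : ℤ, a • k₂ + b • k₃ = 0 → a = 0 ∧ b = 0) (m : ℕ) (x : Fin d → ℤ) :
    (cornerOp v k₂ k₃)^[m] (graphInd L f) x ≤ 2 / ((m + 1 : ℕ) : ℝ≥0∞) := by
  classical
  rw [cornerOp_iter_eq]
  set T := f (L (x + m • v)) with hT
  have hval : ∀ a b : ℕ, graphInd L f (x + m • v + a • k₂ + b • k₃) =
      if x + m • v + a • k₂ + b • k₃ = T then 1 else 0 := by
    intro a b
    have : L (x + m • v + a • k₂ + b • k₃) = L (x + m • v) := by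
      simp only [map_add, map_nsmul, h₂, h₃, smul_zero, add_zero]
    simp only [graphInd, Set.indicator_apply, Set.mem_ofPred_eq, this, Pi.one_apply, hT]
  simp only [hval, mul_ite, mul_one, mul_zero]
  set Z := ((Finset.range (m + 1)) ×ˢ (Finset.range (m + 1))).filter
    fun ab : ℕ × ℕ => x + m • v + ab.1 • k₂ + ab.2 • k₃ = T with hZ
  have hsum : (∑ a ∈ Finset.range (m + 1), ∑ b ∈ Finset.range (m + 1),
      if x + m • v + a • k₂ + b • k₃ = T then ((m.choose a * m.choose b : ℕ) : ℝ≥0∞) else 0) =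
      ∑ ab ∈ Z, ((m.choose ab.1 * m.choose ab.2 : ℕ) : ℝ≥0∞) := by
    rw [hZ, Finset.sum_filter, Finset.sum_product]
  rw [hsum]
  have hcard : ∀ p ∈ Z, ∀ q ∈ Z, p = q := by
    intro p hp q hq
    have h := (Finset.mem_filter.1 hp).2.trans (Finset.mem_filter.1 hq).2.symm
    have h' : ((p.1 : ℤ) - q.1) • k₂ + ((p.2 : ℤ) - q.2) • k₃ = 0 := by
      simp only [sub_smul, natCast_zsmul]
      have := sub_eq_zero.2 h
      rw [← this]; abel
    obtain ⟨u, w⟩ := hind _ _ h'
    exact Prod.ext (by omega) (by omega)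
  rcases Finset.eq_empty_or_nonempty Z with h0 | ⟨p, hp⟩
  · simp [h0]
  · have : Z = {p} := Finset.eq_singleton_iff_unique_mem.2 ⟨hp, fun q hq => hcard q hq p hp⟩
    rw [this, Finset.sum_singleton, ENNReal.le_div_iff_mul_le (Or.inl (by simp)) (Or.inl (by simp))]
    calc (4⁻¹ : ℝ≥0∞) ^ m * ((m.choose p.1 * m.choose p.2 : ℕ) : ℝ≥0∞) * ((m + 1 : ℕ) : ℝ≥0∞)
        = (4⁻¹ : ℝ≥0∞) ^ m * ((m.choose p.1 * m.choose p.2 * (m + 1) : ℕ) : ℝ≥0∞) := by
          push_cast; ring
      _ ≤ (4⁻¹ : ℝ≥0∞) ^ m * ((2 * 4 ^ m : ℕ) : ℝ≥0∞) := by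
          gcongr (4⁻¹ : ℝ≥0∞) ^ m * ?_; exact_mod_cast choose_mul_choose_le m p.1 p.2
      _ = 2 := by
          push_cast
          rw [mul_left_comm, ← mul_pow, ENNReal.inv_mul_cancel (by simp) (by simp)]
          simp

variable {α : Type*}

lemma cornerOp_stepOp (r : α → ℝ≥0∞) (dsp : α → (Fin d → ℤ)) (v k₂ k₃ : Fin d → ℤ)
    (h : (Fin d → ℤ) → ℝ≥0∞) :
    cornerOp v k₂ k₃ (stepOp r dsp h) = stepOp r dsp (cornerOp v k₂ k₃ h) := by
  funext x
  simp only [cornerOp, stepOp, ← ENNReal.tsum_add, ← ENNReal.tsum_mul_left]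
  refine tsum_congr fun a => ?_
  simp only [add_right_comm _ (dsp a)]
  ring

lemma cornerOp_iter_stepOp (r : α → ℝ≥0∞) (dsp : α → (Fin d → ℤ)) (v k₂ k₃ : Fin d → ℤ) (m : ℕ)
    (h : (Fin d → ℤ) → ℝ≥0∞) :
    (cornerOp v k₂ k₃)^[m] (stepOp r dsp h) = stepOp r dsp ((cornerOp v k₂ k₃)^[m] h) := by
  induction m generalizing h with
  | zero => rfl
  | succ m ih => rw [Function.iterate_succ_apply, cornerOp_stepOp, ih, Function.iterate_succ_apply]

lemma cornerOp_iter_add_smul (v k₂ k₃ : Fin d → ℤ) (m : ℕ) (c : ℝ≥0∞)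
    (h g : (Fin d → ℤ) → ℝ≥0∞) :
    (cornerOp v k₂ k₃)^[m] (fun x => c * h x + g x) =
      fun x => c * (cornerOp v k₂ k₃)^[m] h x + (cornerOp v k₂ k₃)^[m] g x := by
  induction m generalizing h g with
  | zero => rfl
  | succ m ih =>
    have : cornerOp v k₂ k₃ (fun x => c * h x + g x) =
        fun x => c * cornerOp v k₂ k₃ h x + cornerOp v k₂ k₃ g x := by
      funext x; simp only [cornerOp]; ring
    rw [Function.iterate_succ_apply, this, ih]
    simp only [Function.iterate_succ_apply]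

theorem stepOp_iter_graph_le (p : PMF α) (dsp : α → (Fin d → ℤ))
    (L : (Fin d → ℤ) →+ ℤ) (v k₂ k₃ : Fin d → ℤ) (h₂ : L k₂ = 0) (h₃ : L k₃ = 0)
    (hind : ∀ a b : ℤ, a • k₂ + b • k₃ = 0 → a = 0 ∧ b = 0)
    (a₀ a₁ a₂ a₃ : α) (e₀ : dsp a₀ = v) (e₁ : dsp a₁ = v + k₂) (e₂ : dsp a₂ = v + k₃)
    (e₃ : dsp a₃ = v + k₂ + k₃)
    (hp : p a₀ ≠ 0 ∧ p a₁ ≠ 0 ∧ p a₂ ≠ 0 ∧ p a₃ ≠ 0) :
    ∃ C : ℝ≥0∞, C ≠ ⊤ ∧ ∀ (n : ℕ) (f : ℤ → (Fin d → ℤ)) (x : Fin d → ℤ),
      (stepOp p dsp)^[n] (graphInd L f) x ≤ C / ((n + 1 : ℕ) : ℝ≥0∞) := by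
  classical
  have ne1 : a₀ ≠ a₁ := fun h => by
    have := hind 1 0 (by rw [h, e₁] at e₀; simpa using e₀)
    omega
  have ne2 : a₀ ≠ a₂ := fun h => by
    have := hind 0 1 (by rw [h, e₂] at e₀; simpa using e₀)
    omega
  have ne3 : a₀ ≠ a₃ := fun h => by
    have := hind 1 1 (by rw [h, e₃] at e₀; simpa [add_assoc] using e₀)
    omega
  have ne4 : a₁ ≠ a₂ := fun h => by
    have := hind 1 (-1) (by rw [h, e₂] at e₁; simp at e₁; simp [e₁])
    omega
  have ne5 : a₁ ≠ a₃ := fun h => by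
    have := hind 0 1 (by rw [h, e₃] at e₁; simpa using e₁)
    omega
  have ne6 : a₂ ≠ a₃ := fun h => by
    have := hind 1 0 (by rw [h, e₃] at e₂; simpa using e₂)
    omega
  -- a positive amount of corner mass
  set q : ℝ≥0∞ := min (min (p a₀) (p a₁)) (min (p a₂) (p a₃)) with hq
  have hq0 : q ≠ 0 := by simp [hq, hp.1, hp.2.1, hp.2.2.1, hp.2.2.2]
  set c : ℝ≥0∞ := 4 * q with hc
  set S : Finset α := {a₀, a₁, a₂, a₃} with hS
  have hqle : ∀ a ∈ S, q ≤ p a := by
    intro a ha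
    simp only [hS, Finset.mem_insert, Finset.mem_singleton] at ha
    rcases ha with rfl | rfl | rfl | rfl <;> simp [hq]
  set u : α → ℝ≥0∞ := (S : Set α).indicator fun _ => q with hu
  set r : α → ℝ≥0∞ := fun a => p a - u a with hr
  have hule : ∀ a, u a ≤ p a := fun a => by
    by_cases ha : a ∈ S
    · simpa [hu, ha] using hqle a ha
    · simp [hu, ha]
  have hru : ∀ a, p a = u a + r a := fun a => (add_tsub_cancel_of_le (hule a)).symm
  have hcard : S.card = 4 := by
    simp [hS, ne1, ne2, ne3, ne4, ne5, ne6]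
  have hu_sum : ∑' a, u a = c := by
    rw [tsum_eq_sum (s := S) (fun a ha => by simp [hu, ha])]
    rw [Finset.sum_congr rfl (g := fun _ => q) (fun a ha => by simp [hu, ha])]
    simp [hcard, hc]
  have hcr : c + ∑' a, r a = 1 := by
    rw [← hu_sum, ← ENNReal.tsum_add, ← p.tsum_coe]
    exact tsum_congr fun a => (hru a).symm
  have hsplit : ∀ h, stepOp p dsp h = fun x => c * cornerOp v k₂ k₃ h x + stepOp r dsp h x := by
    intro h; funext x
    simp only [stepOp]
    rw [show (∑' a, p a * h (x + dsp a)) = ∑' a, (u a * h (x + dsp a) + r a * h (x + dsp a)) from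
      tsum_congr fun a => by rw [hru a, add_mul], ENNReal.tsum_add]
    congr 1
    rw [tsum_eq_sum (s := S) (fun a ha => by simp [hu, ha]), hS]
    rw [Finset.sum_insert (by simp [ne1, ne2, ne3]), Finset.sum_insert (by simp [ne4, ne5]),
      Finset.sum_insert (by simp [ne6]), Finset.sum_singleton]
    simp only [hu, hS, Finset.coe_insert, Finset.coe_singleton, Set.indicator_apply,
      Set.mem_insert_iff, Set.mem_singleton_iff, true_or, or_true, if_true, e₀, e₁, e₂, e₃,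
      cornerOp, hc, ← add_assoc]
    rw [show (4 : ℝ≥0∞) * q * (4⁻¹ * (h (x + v) + h (x + v + k₂) + h (x + v + k₃) +
      h (x + v + k₂ + k₃))) = (4 * 4⁻¹) * (q * (h (x + v) + h (x + v + k₂) + h (x + v + k₃) +
      h (x + v + k₂ + k₃))) by ring, ENNReal.mul_inv_cancel (by simp) (by simp), one_mul]
    ring
  have hc1 : c ≤ 1 := hcr ▸ le_self_add
  have hct : c ≠ ⊤ := ne_top_of_le_ne_top ENNReal.one_ne_top hc1
  have hc0 : c ≠ 0 := by simp [hc, hq0]
  set cr : ℝ := c.toReal with hcr'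
  have hcr0 : 0 < cr := ENNReal.toReal_pos hc0 hct
  have hcr1 : cr ≤ 1 := by
    rw [hcr', ← ENNReal.toReal_one]; exact ENNReal.toReal_mono ENNReal.one_ne_top hc1
  have hrs : ∑' a, r a = ENNReal.ofReal (1 - cr) := by
    have : ∑' a, r a = 1 - c := ENNReal.eq_sub_of_add_eq hct (by rw [add_comm]; exact hcr)
    rw [this, ENNReal.ofReal_sub _ hcr0.le, ENNReal.ofReal_one, hcr', ENNReal.ofReal_toReal hct]
  have main : ∀ (n : ℕ) (f : ℤ → (Fin d → ℤ)) (m : ℕ) (x : Fin d → ℤ),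
      (cornerOp v k₂ k₃)^[m] ((stepOp p dsp)^[n] (graphInd L f)) x ≤
        ENNReal.ofReal (2 / ((m : ℝ) + 1 + cr * n / 2)) := by
    intro n f
    induction n with
    | zero =>
      intro m x
      refine (cornerOp_iter_graph_le L f v k₂ k₃ h₂ h₃ hind m x).trans (le_of_eq ?_)
      simp only [Nat.cast_zero, mul_zero, zero_div, add_zero]
      rw [ENNReal.ofReal_div_of_pos (by positivity)]
      congr 1
      · simp
      · rw [← Nat.cast_succ, ENNReal.ofReal_natCast]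
    | succ n ih =>
      intro m x
      rw [Function.iterate_succ_apply' (stepOp p dsp), hsplit, cornerOp_iter_add_smul]
      simp only [cornerOp_iter_stepOp, ← Function.iterate_succ_apply]
      set X : ℝ := (m : ℝ) + 1 + cr * n / 2 with hX
      have hX1 : 1 ≤ X := by
        have : 0 ≤ cr * n / 2 := by positivity
        have : (0 : ℝ) ≤ m := Nat.cast_nonneg m
        linarith
      have b2 : stepOp r dsp ((cornerOp v k₂ k₃)^[m] ((stepOp p dsp)^[n] (graphInd L f))) x ≤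
          ENNReal.ofReal (1 - cr) * ENNReal.ofReal (2 / X) := by
        rw [← hrs, ← ENNReal.tsum_mul_right]
        exact ENNReal.tsum_le_tsum fun a => by gcongr; exact ih m _
      have b1 := ih (m + 1) x
      have e : ((m + 1 : ℕ) : ℝ) + 1 + cr * n / 2 = X + 1 := by push_cast; rw [hX]; ring
      rw [e] at b1
      refine (add_le_add (mul_le_mul_right b1 c) b2).trans ?_
      rw [← ENNReal.ofReal_toReal hct, ← hcr', ← ENNReal.ofReal_mul hcr0.le,
        ← ENNReal.ofReal_mul (by linarith), ← ENNReal.ofReal_add (by positivity)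
          (mul_nonneg (by linarith) (by positivity))]
      refine ENNReal.ofReal_le_ofReal ?_
      have e' : (m : ℝ) + 1 + cr * ((n + 1 : ℕ) : ℝ) / 2 = X + cr / 2 := by
        push_cast; rw [hX]; ring
      rw [e', mul_div_assoc', mul_div_assoc', div_add_div _ _ (by linarith) (by linarith),
        div_le_div_iff₀ (by positivity) (by linarith)]
      nlinarith [mul_nonneg (mul_nonneg hcr0.le hcr0.le) (by linarith : (0 : ℝ) ≤ X),
        mul_nonneg hcr0.le (by linarith : (0 : ℝ) ≤ X - 1 + cr)]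
  refine ⟨ENNReal.ofReal (4 / cr), ENNReal.ofReal_ne_top, fun n f x => ?_⟩
  have h := main n f 0 x
  simp only [Function.iterate_zero, id_eq] at h
  refine h.trans ?_
  rw [← ENNReal.ofReal_natCast, ← ENNReal.ofReal_div_of_pos (by positivity)]
  refine ENNReal.ofReal_le_ofReal ?_
  rw [div_div, div_le_div_iff₀ (by positivity) (by positivity)]
  push_cast
  nlinarith [mul_le_mul_of_nonneg_left hcr1 (Nat.cast_nonneg n : (0:ℝ) ≤ n)]

end Vale.Agent.P147
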