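import Vale.Agent.P147.Conc

/-!
Three independent level-zero vectors: concentration of order `n ^ (-3/2)`.
-/

noncomputable section

namespace Vale.Agent.P147

open MeasureTheory ProbabilityTheory
open scoped ENNReal

variable {d : ℕ} {α : Type*}

/-- Half-half average of staying and moving by `k`. -/
def halfOp (k : Fin d → ℤ) (h : (Fin d → ℤ) → ℝ≥0∞) (x : Fin d → ℤ) : ℝ≥0∞ :=
  2⁻¹ * (h x + h (x + k))

/-- The averaging operator of eight corners. -/
def cubeOp (v k₁ k₂ k₃ : Fin d → ℤ) (h : (Fin d → ℤ) → ℝ≥0∞) (x : Fin d → ℤ) : ℝ≥0∞ :=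
  halfOp k₁ (halfOp k₂ (halfOp k₃ h)) (x + v)

lemma halfOp_iter_eq (k : Fin d → ℤ) (m : ℕ) (h : (Fin d → ℤ) → ℝ≥0∞) (x : Fin d → ℤ) :
    (halfOp k)^[m] h x = (2⁻¹) ^ m * ∑ a ∈ Finset.range (m + 1),
      (m.choose a : ℝ≥0∞) * h (x + a • k) := by
  induction m generalizing h x with
  | zero => simp
  | succ m ih =>
    rw [Function.iterate_succ_apply, ih]
    simp only [halfOp]
    rw [Finset.sum_range_succ' (fun a => ((m + 1).choose a : ℝ≥0∞) * h (x + a • k))]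
    simp only [Nat.choose_succ_succ, Nat.cast_add, add_mul, Finset.sum_add_distrib]
    rw [Finset.sum_range_succ (fun a => (m.choose (a + 1) : ℝ≥0∞) * h (x + (a + 1) • k))]
    simp only [mul_add, Finset.sum_add_distrib, pow_succ, Nat.choose_succ_self, Nat.cast_zero,
      zero_mul, add_zero, Nat.choose_zero_right, Nat.cast_one, one_mul, zero_smul,
      succ_nsmul, ← add_assoc]
    rw [Finset.sum_range_succ' (fun a => (m.choose a : ℝ≥0∞) * (2⁻¹ * h (x + a • k)))]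
    simp only [Finset.mul_sum, Nat.choose_zero_right, Nat.cast_one, one_mul, zero_smul, add_zero,
      succ_nsmul, ← add_assoc, mul_add]
    have e : ∀ i, (2⁻¹ : ℝ≥0∞) ^ m * ((m.choose (i + 1) : ℝ≥0∞) * (2⁻¹ * h (x + i • k + k))) =
        (2⁻¹ : ℝ≥0∞) ^ m * 2⁻¹ * ((m.choose (i + 1) : ℝ≥0∞) * h (x + i • k + k)) := fun i => by
      ring
    have e' : ∀ i, (2⁻¹ : ℝ≥0∞) ^ m * ((m.choose i : ℝ≥0∞) * (2⁻¹ * h (x + i • k + k))) =
        (2⁻¹ : ℝ≥0∞) ^ m * 2⁻¹ * ((m.choose i : ℝ≥0∞) * h (x + i • k + k)) := fun i => by ring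
    simp only [e, e']
    ring

lemma halfOp_comm (k l : Fin d → ℤ) : Function.Commute (halfOp k) (halfOp l) := by
  intro h
  funext x
  simp only [halfOp, add_right_comm x k l]
  ring

lemma cubeOp_iter_eq (v k₁ k₂ k₃ : Fin d → ℤ) (m : ℕ) (h : (Fin d → ℤ) → ℝ≥0∞)
    (x : Fin d → ℤ) :
    (cubeOp v k₁ k₂ k₃)^[m] h x =
      (halfOp k₁)^[m] ((halfOp k₂)^[m] ((halfOp k₃)^[m] h)) (x + m • v) := by
  set K := halfOp k₁ ∘ (halfOp k₂ ∘ halfOp k₃)
  have c1 : Function.Commute (halfOp k₁) (halfOp k₂ ∘ halfOp k₃) :=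
    (halfOp_comm k₁ k₂).comp_right (halfOp_comm k₁ k₃)
  have hK : ∀ n : ℕ, K^[n] =
      (halfOp k₁)^[n] ∘ ((halfOp k₂)^[n] ∘ (halfOp k₃)^[n]) := fun n => by
    rw [c1.comp_iterate, (halfOp_comm k₂ k₃).comp_iterate]
  have hshift : ∀ (g : (Fin d → ℤ) → ℝ≥0∞) (c : Fin d → ℤ),
      K (fun z => g (z + c)) = fun z => K g (z + c) := by
    intro g c
    funext z
    simp [K, halfOp, add_right_comm _ c]
  have hshiftn : ∀ (n : ℕ) (g : (Fin d → ℤ) → ℝ≥0∞) (c : Fin d → ℤ),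
      K^[n] (fun z => g (z + c)) = fun z => K^[n] g (z + c) := by
    intro n
    induction n with
    | zero => intro g c; rfl
    | succ n ih => intro g c; rw [Function.iterate_succ_apply, hshift, ih]; rfl
  induction m generalizing h x with
  | zero => simp
  | succ m ih =>
    rw [Function.iterate_succ_apply, ih]
    have e1 : (halfOp k₁)^[m] ((halfOp k₂)^[m] ((halfOp k₃)^[m] (cubeOp v k₁ k₂ k₃ h))) =
        K^[m] (fun z => K h (z + v)) := by rw [hK]; rfl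
    have e2 : (halfOp k₁)^[m + 1] ((halfOp k₂)^[m + 1] ((halfOp k₃)^[m + 1] h)) =
        K^[m] (K h) := by rw [← Function.iterate_succ_apply, hK]; rfl
    rw [e1, e2, hshiftn, succ_nsmul]
    simp only [add_assoc]

lemma choose_three_le (m a b c : ℕ) :
    (m.choose a * m.choose b * m.choose c) ^ 2 * (m + 1) ^ 3 ≤ (3 * 8 ^ m) ^ 2 := by
  calc (m.choose a * m.choose b * m.choose c) ^ 2 * (m + 1) ^ 3
      = (m.choose a ^ 2 * (m + 1)) * (m.choose b ^ 2 * (m + 1)) * (m.choose c ^ 2 * (m + 1)) := by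
        ring
    _ ≤ (2 * 4 ^ m) * (2 * 4 ^ m) * (2 * 4 ^ m) := by
        exact Nat.mul_le_mul (Nat.mul_le_mul (choose_sq_le m a) (choose_sq_le m b)) (choose_sq_le m c)
    _ = 8 * (4 * 4 * 4) ^ m := by rw [mul_pow, mul_pow]; ring
    _ ≤ 9 * (8 * 8) ^ m := by
        rw [show (4 * 4 * 4 : ℕ) = 8 * 8 by norm_num]
        exact Nat.mul_le_mul_right _ (by norm_num)
    _ = (3 * 8 ^ m) ^ 2 := by rw [mul_pow 8 8]; ring

/-- The bound `t ^ (-3/2)`. -/
def decay (t : ℝ) : ℝ := 1 / (t * Real.sqrt t)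

lemma decay_step {c X : ℝ} (hc : 0 ≤ c) (hX : 1 ≤ X) :
    c * decay (X + 1) + (1 - c) * decay X ≤ decay (X + c / 4) := by
  set u := Real.sqrt X with hu
  set v := Real.sqrt (X + 1) with hv
  set w := Real.sqrt (X + c / 4) with hw
  have u0 : 1 ≤ u := Real.one_le_sqrt.2 hX
  have uw : u ≤ w := Real.sqrt_le_sqrt (by linarith)
  have uv : u ≤ v := Real.sqrt_le_sqrt (by linarith)
  have u2 : u ^ 2 = X := Real.sq_sqrt (by linarith)
  have v2 : v ^ 2 = X + 1 := Real.sq_sqrt (by linarith)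
  have w2 : w ^ 2 = X + c / 4 := Real.sq_sqrt (by linarith)
  have du : decay X = 1 / u ^ 3 := by rw [decay, ← hu, ← u2]; ring
  have dv : decay (X + 1) = 1 / v ^ 3 := by rw [decay, ← hv, ← v2]; ring
  have dw : decay (X + c / 4) = 1 / w ^ 3 := by rw [decay, ← hw, ← w2]; ring
  rw [du, dv, dw]
  have h1 : 1 / u ^ 3 - 1 / v ^ 3 ≥ 3 / (8 * u ^ 5) := by
    have e : (v - u) * (v + u) = 1 := by nlinarith [u2, v2]
    have h4 : v ^ 4 ≤ 4 * u ^ 4 := by
      have : v ^ 2 ≤ 2 * u ^ 2 := by rw [u2, v2]; linarith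
      nlinarith [sq_nonneg v]
    have h5 : (v ^ 3 - u ^ 3) * (v + u) ≥ 3 * u ^ 2 := by
      have : (v ^ 3 - u ^ 3) * (v + u) = ((v - u) * (v + u)) * (v ^ 2 + v * u + u ^ 2) := by ring
      rw [this, e]; nlinarith
    rw [ge_iff_le, div_sub_div _ _ (by positivity) (by positivity),
      div_le_div_iff₀ (by positivity) (by positivity), one_mul, mul_one]
    have h6 : 3 * (u ^ 3 * v ^ 3) * (v + u) ≤ (v ^ 3 - u ^ 3) * (8 * u ^ 5) * (v + u) := by
      calc 3 * (u ^ 3 * v ^ 3) * (v + u) ≤ 3 * (u ^ 3 * v ^ 3) * (2 * v) := by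
            refine mul_le_mul_of_nonneg_left (by linarith) ?_
            positivity
        _ = 6 * u ^ 3 * v ^ 4 := by ring
        _ ≤ 6 * u ^ 3 * (4 * u ^ 4) := by gcongr
        _ = (3 * u ^ 2) * (8 * u ^ 5) := by ring
        _ ≤ ((v ^ 3 - u ^ 3) * (v + u)) * (8 * u ^ 5) := by gcongr
        _ = _ := by ring
    exact le_of_mul_le_mul_right h6 (by linarith)
  have h2 : 1 / u ^ 3 - 1 / w ^ 3 ≤ 3 * (c / 4) / (2 * u ^ 5) := by
    have e : (w - u) * (w + u) = c / 4 := by nlinarith [u2, w2]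
    have h5 : (w ^ 3 - u ^ 3) * (2 * u) ≤ 3 * w ^ 2 * (c / 4) := by
      have h0 : 0 ≤ w - u := by linarith
      have : (w ^ 3 - u ^ 3) = (w - u) * (w ^ 2 + w * u + u ^ 2) := by ring
      rw [this]
      calc (w - u) * (w ^ 2 + w * u + u ^ 2) * (2 * u)
          ≤ (w - u) * (3 * w ^ 2) * (w + u) := by
            gcongr
            · nlinarith
            · linarith
        _ = 3 * w ^ 2 * ((w - u) * (w + u)) := by ring
        _ = _ := by rw [e]
    rw [div_sub_div _ _ (by positivity) (by positivity),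
      div_le_div_iff₀ (by positivity) (by positivity), one_mul, mul_one]
    calc (w ^ 3 - u ^ 3) * (2 * u ^ 5) = ((w ^ 3 - u ^ 3) * (2 * u)) * u ^ 4 := by ring
      _ ≤ (3 * w ^ 2 * (c / 4)) * u ^ 4 := by gcongr
      _ ≤ (3 * w ^ 2 * (c / 4)) * (u ^ 3 * w) := by
          gcongr
          calc u ^ 4 = u ^ 3 * u := by ring
            _ ≤ u ^ 3 * w := by gcongr
      _ = _ := by ring
  have h3 : c * (3 / (8 * u ^ 5)) ≤ c * (1 / u ^ 3 - 1 / v ^ 3) :=
    mul_le_mul_of_nonneg_left h1 hc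
  have h4 : c * (3 / (8 * u ^ 5)) = 3 * (c / 4) / (2 * u ^ 5) := by ring
  nlinarith [h2, h3, h4]

theorem cubeOp_iter_graph_le (L : (Fin d → ℤ) →+ ℤ) (f : ℤ → (Fin d → ℤ))
    (v k₁ k₂ k₃ : Fin d → ℤ) (h₁ : L k₁ = 0) (h₂ : L k₂ = 0) (h₃ : L k₃ = 0)
    (hind : ∀ a b c : ℤ, a • k₁ + b • k₂ + c • k₃ = 0 → a = 0 ∧ b = 0 ∧ c = 0) (m : ℕ)
    (x : Fin d → ℤ) :
    (cubeOp v k₁ k₂ k₃)^[m] (graphInd L f) x ≤ ENNReal.ofReal (3 * decay ((m : ℝ) + 1)) := by
  classical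
  rw [cubeOp_iter_eq, halfOp_iter_eq]
  simp only [halfOp_iter_eq]
  set T := f (L (x + m • v)) with hT
  have hval : ∀ a b c : ℕ, graphInd L f (x + m • v + a • k₁ + b • k₂ + c • k₃) =
      if x + m • v + a • k₁ + b • k₂ + c • k₃ = T then 1 else 0 := by
    intro a b c
    have : L (x + m • v + a • k₁ + b • k₂ + c • k₃) = L (x + m • v) := by
      simp only [map_add, map_nsmul, h₁, h₂, h₃, smul_zero, add_zero]
    simp only [graphInd, Set.indicator_apply, Set.mem_ofPred_eq, this, Pi.one_apply, hT]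
  set Z := ((Finset.range (m + 1)) ×ˢ (Finset.range (m + 1)) ×ˢ (Finset.range (m + 1))).filter
    fun t : ℕ × ℕ × ℕ => x + m • v + t.1 • k₁ + t.2.1 • k₂ + t.2.2 • k₃ = T with hZ
  simp only [hval, Finset.mul_sum, mul_ite, mul_one, mul_zero]
  have hsum : (∑ a ∈ Finset.range (m + 1), ∑ b ∈ Finset.range (m + 1),
      ∑ c ∈ Finset.range (m + 1), if x + m • v + a • k₁ + b • k₂ + c • k₃ = T then
        (2⁻¹ : ℝ≥0∞) ^ m * ((m.choose a : ℝ≥0∞) * (2⁻¹ ^ m * ((m.choose b : ℝ≥0∞) *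
          (2⁻¹ ^ m * (m.choose c : ℝ≥0∞))))) else 0) =
      ∑ t ∈ Z, (2⁻¹ : ℝ≥0∞) ^ m * ((m.choose t.1 : ℝ≥0∞) * (2⁻¹ ^ m * ((m.choose t.2.1 : ℝ≥0∞) *
          (2⁻¹ ^ m * (m.choose t.2.2 : ℝ≥0∞))))) := by
    rw [hZ, Finset.sum_filter, Finset.sum_product]
    exact Finset.sum_congr rfl fun a _ => by rw [Finset.sum_product]
  rw [hsum]
  have hcard : ∀ p ∈ Z, ∀ q ∈ Z, p = q := by
    intro p hp q hq
    have h := (Finset.mem_filter.1 hp).2.trans (Finset.mem_filter.1 hq).2.symm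
    have h' : ((p.1 : ℤ) - q.1) • k₁ + ((p.2.1 : ℤ) - q.2.1) • k₂ +
        ((p.2.2 : ℤ) - q.2.2) • k₃ = 0 := by
      simp only [sub_smul, natCast_zsmul]
      have := sub_eq_zero.2 h
      rw [← this]; abel
    obtain ⟨u, w, z⟩ := hind _ _ _ h'
    exact Prod.ext (by omega) (Prod.ext (by omega) (by omega))
  rcases Finset.eq_empty_or_nonempty Z with h0 | ⟨p, hp⟩
  · simp [h0]
  · have : Z = {p} := Finset.eq_singleton_iff_unique_mem.2 ⟨hp, fun q hq => hcard q hq p hp⟩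
    rw [this, Finset.sum_singleton]
    have hX : (0 : ℝ) < (m : ℝ) + 1 := by positivity
    have key : ((m.choose p.1 * m.choose p.2.1 * m.choose p.2.2 : ℕ) : ℝ) *
        (((m : ℝ) + 1) * Real.sqrt ((m : ℝ) + 1)) ≤ 3 * 8 ^ m := by
      refine pow_le_pow_iff_left₀ (by positivity) (by positivity) (two_ne_zero) |>.1 ?_
      have := choose_three_le m p.1 p.2.1 p.2.2
      have h' : (((m.choose p.1 * m.choose p.2.1 * m.choose p.2.2) ^ 2 * (m + 1) ^ 3 : ℕ) : ℝ) ≤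
          (((3 * 8 ^ m) ^ 2 : ℕ) : ℝ) := Nat.cast_le.2 this
      push_cast at h' ⊢
      calc ((m.choose p.1 : ℝ) * m.choose p.2.1 * m.choose p.2.2 *
            (((m : ℝ) + 1) * Real.sqrt ((m : ℝ) + 1))) ^ 2
          = ((m.choose p.1 : ℝ) * m.choose p.2.1 * m.choose p.2.2) ^ 2 *
              (((m : ℝ) + 1) ^ 2 * Real.sqrt ((m : ℝ) + 1) ^ 2) := by ring
        _ = ((m.choose p.1 : ℝ) * m.choose p.2.1 * m.choose p.2.2) ^ 2 * ((m : ℝ) + 1) ^ 3 := by
              rw [Real.sq_sqrt hX.le]; ring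
        _ ≤ _ := h'
    have e2 : (2⁻¹ : ℝ≥0∞) = ENNReal.ofReal (1 / 2) := by
      rw [one_div, ENNReal.ofReal_inv_of_pos two_pos]; simp
    rw [e2, ← ENNReal.ofReal_pow (by norm_num)]
    simp only [← ENNReal.ofReal_natCast]
    rw [← ENNReal.ofReal_mul (by positivity), ← ENNReal.ofReal_mul (by positivity),
      ← ENNReal.ofReal_mul (by positivity), ← ENNReal.ofReal_mul (by positivity),
      ← ENNReal.ofReal_mul (by positivity)]
    refine ENNReal.ofReal_le_ofReal ?_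
    rw [decay, mul_one_div, le_div_iff₀ (by positivity)]
    push_cast at key
    have e3 : ((1 : ℝ) / 2) ^ m * (1 / 2) ^ m * (1 / 2) ^ m * 8 ^ m = 1 := by
      rw [← mul_pow, ← mul_pow, ← mul_pow]; norm_num
    calc (1 / 2 : ℝ) ^ m * ((m.choose p.1 : ℝ) * ((1 / 2) ^ m * ((m.choose p.2.1 : ℝ) *
          ((1 / 2) ^ m * (m.choose p.2.2 : ℝ))))) * (((m : ℝ) + 1) * Real.sqrt ((m : ℝ) + 1))
        = ((1 / 2 : ℝ) ^ m * (1 / 2) ^ m * (1 / 2) ^ m) * ((m.choose p.1 : ℝ) * m.choose p.2.1 *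
            m.choose p.2.2 * (((m : ℝ) + 1) * Real.sqrt ((m : ℝ) + 1))) := by ring
      _ ≤ ((1 / 2 : ℝ) ^ m * (1 / 2) ^ m * (1 / 2) ^ m) * (3 * 8 ^ m) := by gcongr
      _ = 3 * (((1 : ℝ) / 2) ^ m * (1 / 2) ^ m * (1 / 2) ^ m * 8 ^ m) := by ring
      _ = 3 := by rw [e3, mul_one]

lemma cubeOp_stepOp (r : α → ℝ≥0∞) (dsp : α → (Fin d → ℤ)) (v k₁ k₂ k₃ : Fin d → ℤ)
    (h : (Fin d → ℤ) → ℝ≥0∞) :
    cubeOp v k₁ k₂ k₃ (stepOp r dsp h) = stepOp r dsp (cubeOp v k₁ k₂ k₃ h) := by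
  funext x
  simp only [cubeOp, halfOp, stepOp, ← ENNReal.tsum_add, ← ENNReal.tsum_mul_left]
  refine tsum_congr fun a => ?_
  simp only [add_right_comm _ (dsp a)]
  ring

lemma cubeOp_iter_stepOp (r : α → ℝ≥0∞) (dsp : α → (Fin d → ℤ)) (v k₁ k₂ k₃ : Fin d → ℤ) (m : ℕ)
    (h : (Fin d → ℤ) → ℝ≥0∞) :
    (cubeOp v k₁ k₂ k₃)^[m] (stepOp r dsp h) = stepOp r dsp ((cubeOp v k₁ k₂ k₃)^[m] h) := by
  induction m generalizing h with
  | zero => rfl
  | succ m ih => rw [Function.iterate_succ_apply, cubeOp_stepOp, ih, Function.iterate_succ_apply]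

lemma cubeOp_iter_add_smul (v k₁ k₂ k₃ : Fin d → ℤ) (m : ℕ) (c : ℝ≥0∞)
    (h g : (Fin d → ℤ) → ℝ≥0∞) :
    (cubeOp v k₁ k₂ k₃)^[m] (fun x => c * h x + g x) =
      fun x => c * (cubeOp v k₁ k₂ k₃)^[m] h x + (cubeOp v k₁ k₂ k₃)^[m] g x := by
  induction m generalizing h g with
  | zero => rfl
  | succ m ih =>
    have : cubeOp v k₁ k₂ k₃ (fun x => c * h x + g x) =
        fun x => c * cubeOp v k₁ k₂ k₃ h x + cubeOp v k₁ k₂ k₃ g x := by
      funext x; simp only [cubeOp, halfOp]; ring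
    rw [Function.iterate_succ_apply, this, ih]
    simp only [Function.iterate_succ_apply]

lemma decay_scale {cr : ℝ} (h0 : 0 < cr) (h1 : cr ≤ 1) (n : ℕ) :
    decay (1 + cr * n / 4) ≤ decay (cr / 4) * decay ((n : ℝ) + 1) := by
  have hn : (0 : ℝ) ≤ n := Nat.cast_nonneg n
  have hκ : 0 < cr / 4 := by positivity
  have hpos : 0 < cr / 4 * ((n : ℝ) + 1) := by positivity
  have hle : cr / 4 * ((n : ℝ) + 1) ≤ 1 + cr * n / 4 := by nlinarith
  have hs : Real.sqrt (cr / 4 * ((n : ℝ) + 1)) ≤ Real.sqrt (1 + cr * n / 4) := Real.sqrt_le_sqrt hle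
  calc decay (1 + cr * n / 4) ≤ decay (cr / 4 * ((n : ℝ) + 1)) := by
        unfold decay
        exact one_div_le_one_div_of_le (by positivity)
          (mul_le_mul hle hs (Real.sqrt_nonneg _) (le_trans hpos.le hle))
    _ = decay (cr / 4) * decay ((n : ℝ) + 1) := by
        unfold decay
        rw [Real.sqrt_mul hκ.le, one_div_mul_one_div]
        ring

/-- The corner indexed by three bits. -/
def cube (k₁ k₂ k₃ : Fin d → ℤ) (b : Bool × Bool × Bool) : Fin d → ℤ :=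
  (if b.1 then k₁ else 0) + (if b.2.1 then k₂ else 0) + (if b.2.2 then k₃ else 0)

theorem stepOp_iter_graph_le3 (p : PMF α) (dsp : α → (Fin d → ℤ))
    (L : (Fin d → ℤ) →+ ℤ) (v k₁ k₂ k₃ : Fin d → ℤ) (h₁ : L k₁ = 0) (h₂ : L k₂ = 0)
    (h₃ : L k₃ = 0)
    (hind : ∀ a b c : ℤ, a • k₁ + b • k₂ + c • k₃ = 0 → a = 0 ∧ b = 0 ∧ c = 0)
    (e : Bool × Bool × Bool → α) (he : ∀ b, dsp (e b) = v + cube k₁ k₂ k₃ b)
    (hp : ∀ b, p (e b) ≠ 0) :
    ∃ C : ℝ, 0 ≤ C ∧ ∀ (n : ℕ) (f : ℤ → (Fin d → ℤ)) (x : Fin d → ℤ),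
      (stepOp p dsp)^[n] (graphInd L f) x ≤ ENNReal.ofReal (C * decay ((n : ℝ) + 1)) := by
  classical
  set coef : Bool → ℤ := fun b => if b then 1 else 0 with hcoef
  have einj : Function.Injective e := by
    intro b b' h
    have h' := congrArg dsp h
    rw [he, he, add_right_inj] at h'
    have : (coef b.1 - coef b'.1) • k₁ + (coef b.2.1 - coef b'.2.1) • k₂ +
        (coef b.2.2 - coef b'.2.2) • k₃ = 0 := by
      have hc : ∀ (u : Bool) (k : Fin d → ℤ), coef u • k = if u then k else 0 := fun u k => by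
        cases u <;> simp [coef]
      simp only [sub_smul, hc]
      have h0 := sub_eq_zero.2 h'
      simp only [cube] at h0
      refine Eq.trans ?_ h0
      abel
    obtain ⟨u, w, z⟩ := hind _ _ _ this
    have hb : ∀ a a' : Bool, coef a - coef a' = 0 → a = a' := by decide
    exact Prod.ext (hb _ _ u) (Prod.ext (hb _ _ w) (hb _ _ z))
  obtain ⟨b₀, -, hb₀⟩ := Finset.exists_min_image Finset.univ (fun b => p (e b)) Finset.univ_nonempty
  set q := p (e b₀) with hq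
  set c : ℝ≥0∞ := 8 * q with hc
  set S : Finset α := Finset.univ.image e with hS
  have hqle : ∀ a ∈ S, q ≤ p a := by
    intro a ha
    obtain ⟨b, -, rfl⟩ := Finset.mem_image.1 ha
    exact hb₀ b (Finset.mem_univ _)
  set u : α → ℝ≥0∞ := (S : Set α).indicator fun _ => q with hu
  set r : α → ℝ≥0∞ := fun a => p a - u a with hr
  have hule : ∀ a, u a ≤ p a := fun a => by
    by_cases ha : a ∈ S
    · simpa [hu, ha] using hqle a ha
    · simp [hu, ha]
  have hru : ∀ a, p a = u a + r a := fun a => (add_tsub_cancel_of_le (hule a)).symm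
  have hcard : S.card = 8 := by
    rw [hS, Finset.card_image_of_injective _ einj]; simp
  have hu_sum : ∑' a, u a = c := by
    rw [tsum_eq_sum (s := S) (fun a ha => by simp [hu, ha])]
    rw [Finset.sum_congr rfl (g := fun _ => q) (fun a ha => by simp [hu, ha])]
    simp [hcard, hc]
  have hcr : c + ∑' a, r a = 1 := by
    rw [← hu_sum, ← ENNReal.tsum_add, ← p.tsum_coe]
    exact tsum_congr fun a => (hru a).symm
  have h8 : (8 : ℝ≥0∞) * (2⁻¹ * (2⁻¹ * 2⁻¹)) = 1 := by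
    rw [show (8 : ℝ≥0∞) * (2⁻¹ * (2⁻¹ * 2⁻¹)) = (2 * 2⁻¹) * ((2 * 2⁻¹) * (2 * 2⁻¹)) by ring]
    simp [ENNReal.mul_inv_cancel]
  have hsplit : ∀ h, stepOp p dsp h = fun x => c * cubeOp v k₁ k₂ k₃ h x + stepOp r dsp h x := by
    intro h; funext x
    simp only [stepOp]
    rw [show (∑' a, p a * h (x + dsp a)) = ∑' a, (u a * h (x + dsp a) + r a * h (x + dsp a)) from
      tsum_congr fun a => by rw [hru a, add_mul], ENNReal.tsum_add]
    congr 1
    rw [tsum_eq_sum (s := S) (fun a ha => by simp [hu, ha]),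
      Finset.sum_congr rfl (g := fun a => q * h (x + dsp a)) (fun a ha => by simp [hu, ha]),
      hS, Finset.sum_image (fun a _ b _ h => einj h)]
    simp only [Fintype.sum_prod_type, Fintype.sum_bool, he, cube, cubeOp, halfOp, hc,
      Bool.false_eq_true, if_true, if_false, add_zero, zero_add, ← add_assoc]
    calc _ = (8 : ℝ≥0∞) * (2⁻¹ * (2⁻¹ * 2⁻¹)) * (q * h (x + v + k₁ + k₂ + k₃) +
          q * h (x + v + k₁ + k₂) + (q * h (x + v + k₁ + k₃) + q * h (x + v + k₁)) +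
          (q * h (x + v + k₂ + k₃) + q * h (x + v + k₂) +
            (q * h (x + v + k₃) + q * h (x + v)))) := by rw [h8, one_mul]; ring
      _ = _ := by ring
  have hc1 : c ≤ 1 := hcr ▸ le_self_add
  have hct : c ≠ ⊤ := ne_top_of_le_ne_top ENNReal.one_ne_top hc1
  have hc0 : c ≠ 0 := mul_ne_zero (by simp) (hp b₀)
  set cr : ℝ := c.toReal with hcr'
  have hcr0 : 0 < cr := ENNReal.toReal_pos hc0 hct
  have hcr1 : cr ≤ 1 := by
    rw [hcr', ← ENNReal.toReal_one]; exact ENNReal.toReal_mono ENNReal.one_ne_top hc1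
  have hrs : ∑' a, r a = ENNReal.ofReal (1 - cr) := by
    have : ∑' a, r a = 1 - c := ENNReal.eq_sub_of_add_eq hct (by rw [add_comm]; exact hcr)
    rw [this, ENNReal.ofReal_sub _ hcr0.le, ENNReal.ofReal_one, hcr', ENNReal.ofReal_toReal hct]
  have dnn : ∀ t : ℝ, 0 ≤ t → 0 ≤ decay t := fun t ht => by unfold decay; positivity
  have main : ∀ (n : ℕ) (f : ℤ → (Fin d → ℤ)) (m : ℕ) (x : Fin d → ℤ),
      (cubeOp v k₁ k₂ k₃)^[m] ((stepOp p dsp)^[n] (graphInd L f)) x ≤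
        ENNReal.ofReal (3 * decay ((m : ℝ) + 1 + cr * n / 4)) := by
    intro n f
    induction n with
    | zero =>
      intro m x
      simpa using cubeOp_iter_graph_le L f v k₁ k₂ k₃ h₁ h₂ h₃ hind m x
    | succ n ih =>
      intro m x
      rw [Function.iterate_succ_apply' (stepOp p dsp), hsplit, cubeOp_iter_add_smul]
      simp only [cubeOp_iter_stepOp, ← Function.iterate_succ_apply]
      set X : ℝ := (m : ℝ) + 1 + cr * n / 4 with hX
      have hX1 : 1 ≤ X := by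
        have : 0 ≤ cr * n / 4 := by positivity
        have : (0 : ℝ) ≤ m := Nat.cast_nonneg m
        linarith
      have b2 : stepOp r dsp ((cubeOp v k₁ k₂ k₃)^[m] ((stepOp p dsp)^[n] (graphInd L f))) x ≤
          ENNReal.ofReal (1 - cr) * ENNReal.ofReal (3 * decay X) := by
        rw [← hrs, ← ENNReal.tsum_mul_right]
        exact ENNReal.tsum_le_tsum fun a => by gcongr; exact ih m _
      have b1 := ih (m + 1) x
      have e1 : ((m + 1 : ℕ) : ℝ) + 1 + cr * n / 4 = X + 1 := by push_cast; rw [hX]; ring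
      rw [e1] at b1
      refine (add_le_add (mul_le_mul_right b1 c) b2).trans ?_
      rw [← ENNReal.ofReal_toReal hct, ← hcr', ← ENNReal.ofReal_mul hcr0.le,
        ← ENNReal.ofReal_mul (by linarith), ← ENNReal.ofReal_add
          (mul_nonneg hcr0.le (by linarith [dnn (X + 1) (by linarith)]))
          (mul_nonneg (by linarith) (by linarith [dnn X (by linarith)]))]
      refine ENNReal.ofReal_le_ofReal ?_
      have e' : (m : ℝ) + 1 + cr * ((n + 1 : ℕ) : ℝ) / 4 = X + cr / 4 := by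
        push_cast; rw [hX]; ring
      rw [e']
      linarith [decay_step hcr0.le hX1]
  set κ := cr / 4 with hκ
  have hκ0 : 0 < κ := by positivity
  refine ⟨3 * decay κ, mul_nonneg (by norm_num) (dnn κ hκ0.le), fun n f x => ?_⟩
  have h := main n f 0 x
  simp only [Function.iterate_zero, id_eq, Nat.cast_zero, zero_add] at h
  refine h.trans (ENNReal.ofReal_le_ofReal ?_)
  rw [mul_assoc]
  refine mul_le_mul_of_nonneg_left ?_ (by norm_num)
  exact decay_scale hcr0 hcr1 n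

lemma sum_decay_ne_top (C : ℝ) :
    ∑' n : ℕ, ENNReal.ofReal (C * decay ((n : ℝ) + 1)) ≠ ⊤ := by
  have h : ∀ n : ℕ, decay ((n : ℝ) + 1) = 1 / (((n + 1 : ℕ) : ℝ)) ^ (3 / 2 : ℝ) := fun n => by
    have hn : (0 : ℝ) < (n : ℝ) + 1 := by positivity
    rw [decay, Nat.cast_succ, show (3 / 2 : ℝ) = 1 + 1 / 2 by norm_num, Real.rpow_add hn,
      Real.rpow_one, Real.sqrt_eq_rpow]
  simp only [h]
  have hs : Summable fun n : ℕ => C * (1 / (((n + 1 : ℕ) : ℝ)) ^ (3 / 2 : ℝ)) :=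
    (((summable_nat_add_iff 1).2 (Real.summable_one_div_nat_rpow.2 (by norm_num))).mul_left C)
  rcases le_or_gt 0 C with hC | hC
  · rw [← ENNReal.ofReal_tsum_of_nonneg (fun n => mul_nonneg hC (by positivity)) hs]
    exact ENNReal.ofReal_ne_top
  · have : ∀ n : ℕ, ENNReal.ofReal (C * (1 / (((n + 1 : ℕ) : ℝ)) ^ (3 / 2 : ℝ))) = 0 := fun n =>
      ENNReal.ofReal_eq_zero.2 (mul_nonpos_of_nonpos_of_nonneg hC.le (by positivity))
    simp only [this, tsum_zero]
    exact ENNReal.zero_ne_top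

end Vale.Agent.P147
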