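import Mathlib

/-!
Random walk in an i.i.d. random environment on `ℤ^d`: basic definitions used in the statements.
-/

noncomputable section

namespace Vale.Agent.P147

open MeasureTheory ProbabilityTheory
open scoped ENNReal

variable {d : ℕ}

/-- A unit step: a coordinate and a sign (`true` is `+`, `false` is `-`). -/
abbrev Dir (d : ℕ) := Fin d × Bool

/-- The vector of a unit step. -/
def dirVec (e : Dir d) : Fin d → ℤ := if e.2 then Pi.single e.1 1 else -Pi.single e.1 1

/-- A row of transition probabilities: a probability vector indexed by the `2d` unit steps. -/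
abbrev Row (d : ℕ) := {p : Dir d → ℝ // (∀ e, 0 ≤ p e) ∧ ∑ e, p e = 1}

/-- An environment: one row at every site. -/
abbrev Env (d : ℕ) := (Fin d → ℤ) → Row d

/-- A trajectory, given by its sequence of steps. -/
abbrev Walk (d : ℕ) := ℕ → Dir d

/-- Position at time `n` of the trajectory started at the origin. -/
def pos (s : Walk d) (n : ℕ) : Fin d → ℤ := ∑ i ∈ Finset.range n, dirVec (s i)

/-- The law of one step with transition vector `p`. -/
def rowMeasure (p : Row d) : Measure (Dir d) := ∑ e, ENNReal.ofReal (p.1 e) • Measure.dirac e

instance (p : Row d) : IsProbabilityMeasure (rowMeasure p) := by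
  constructor
  simp only [rowMeasure, Measure.coe_finsetSum, Finset.sum_apply, Measure.smul_apply,
    measure_univ, smul_eq_mul, mul_one]
  rw [← ENNReal.ofReal_sum_of_nonneg (fun e _ => p.2.1 e), p.2.2, ENNReal.ofReal_one]

/-- Given the first `n + 1` steps, the next step is drawn from the row of the current site. -/
def stepKernel (ω : Env d) (n : ℕ) : Kernel (Π _ : Finset.Iic n, Dir d) (Dir d) where
  toFun h := rowMeasure (ω (∑ i, dirVec (h i)))
  measurable' := measurable_of_countable _

instance (ω : Env d) (n : ℕ) : IsMarkovKernel (stepKernel ω n) :=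
  ⟨fun _ => inferInstanceAs (IsProbabilityMeasure (rowMeasure _))⟩

/-- The quenched law: the step sequence of the Markov chain in `ω` started at the origin. -/
def quenched (ω : Env d) : Measure (Walk d) :=
  Kernel.trajMeasure (X := fun _ => Dir d) (rowMeasure (ω 0)) (stepKernel ω)

/-- The law of the i.i.d. environment with one-site law `μ`. -/
def envLaw (μ : Measure (Row d)) : Measure (Env d) :=
  Measure.infinitePi (fun _ : Fin d → ℤ => μ)

/-- The annealed law of the walk started at the origin. -/
def annealed (μ : Measure (Row d)) : Measure (Walk d) := (envLaw μ).bind quenched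

/-- Ellipticity: almost surely every transition probability is positive. -/
def IsElliptic (μ : Measure (Row d)) : Prop := ∀ᵐ p ∂μ, ∀ e, 0 < p.1 e

/-- The inner product `ℓ · x`. -/
def dotR (ℓ : Fin d → ℝ) (x : Fin d → ℤ) : ℝ := ∑ i, ℓ i * (x i : ℝ)

end Vale.Agent.P147
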