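import Vale.Agent.P147.Renewal

/-!
Shift invariance in the environment, and trajectories that reach high levels without escaping.
-/

noncomputable section

namespace Vale.Agent.P147

open MeasureTheory ProbabilityTheory Filter
open scoped ENNReal Topology symmDiff

variable {d : ℕ} {μ : Measure (Row d)} {ℓ : Fin d → ℤ} [IsProbabilityMeasure μ]

/-- Trajectories reaching the level `N` somewhere. -/
def High (ℓ : Fin d → ℤ) (N : ℕ) : Set (Walk d) := {s | ∃ t, (N : ℤ) < lev ℓ (pos s t)}

lemma measurableSet_high (ℓ : Fin d → ℤ) (N : ℕ) : MeasurableSet (High ℓ N) := by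
  have : High ℓ N = ⋃ t, (fun s : Walk d => lev ℓ (pos s t)) ⁻¹' {z | (N : ℤ) < z} := by
    ext; simp [High]
  rw [this]
  exact MeasurableSet.iUnion fun t => measurable_lev_pos ℓ t (Set.to_countable _).measurableSet

lemma measurableSet_Ap (ℓ : Fin d → ℤ) : MeasurableSet (Ap ℓ) := by
  have : Ap ℓ = ⋂ b : ℤ, ⋃ N : ℕ, ⋂ n : ℕ,
      {s : Walk d | N ≤ n → b ≤ lev ℓ (pos s n)} := by
    ext s; simp [Ap, Filter.tendsto_atTop_atTop]
  rw [this]
  refine MeasurableSet.iInter fun b => MeasurableSet.iUnion fun N => MeasurableSet.iInter fun n => ?_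
  exact measurable_lev_pos ℓ n (Set.to_countable {z : ℤ | N ≤ n → b ≤ z}).measurableSet

/-- No later minimum above `M`. -/
def NoRec (ℓ : Fin d → ℤ) (M : ℤ) : Set (Walk d) :=
  (⋂ N : ℕ, High ℓ N) ∩ {s | ∀ j, M ≤ lev ℓ (pos s j) → ¬RegenTime ℓ s j}

theorem annealed_noRec (hp : annealed μ (Dp ℓ) ≠ 0) (M₀ : ℤ) :
    annealed μ (NoRec ℓ M₀) = 0 := by
  classical
  set N := NoRec ℓ M₀ with hN
  set p := annealed μ (D0 ℓ) with hpdef
  have hp0 : p ≠ 0 := fun h => hp (measure_mono_null Dp_subset_D0 h)
  have main : ∀ k : ℕ, ∀ l : List (Dir d), annealed μ (cyl l ∩ N) ≤ (1 - p) ^ k * W μ l := by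
    intro k
    induction k with
    | zero =>
      intro l
      simpa [annealed_cyl] using measure_mono (μ := annealed μ) (Set.inter_subset_left (s := cyl l))
    | succ k ih =>
      intro l
      obtain ⟨M, hM0, hM⟩ : ∃ M : ℤ, M₀ ≤ M ∧ ∀ i ≤ l.length, Lt ℓ l i < M :=
        ⟨max M₀ (1 + ∑ i ∈ Finset.range (l.length + 1), |Lt ℓ l i|), le_max_left _ _, fun i hi => by
          have := Finset.single_le_sum (f := fun i => |Lt ℓ l i|) (fun j _ => abs_nonneg _)
            (Finset.mem_range.2 (Nat.lt_succ_of_le hi))
          have := le_abs_self (Lt ℓ l i)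
          have := le_max_right M₀ (1 + ∑ i ∈ Finset.range (l.length + 1), |Lt ℓ l i|)
          linarith⟩
      let S : Set (List (Dir d)) := {m | m ∈ firstPass ℓ M ∧ m.take l.length = l}
      have hS : ∀ s : Walk d, ∀ a b, pre s a ∈ S → pre s b ∈ S → a = b :=
        fun s a b ha hb => firstPass_unique M s a b ha.1 hb.1
      let F : List (Dir d) → Set (List (Dir d)) := fun m =>
        {m' | m'.take m.length = m ∧ m.length < m'.length ∧
          lev ℓ (endPt m') < lev ℓ (endPt m) ∧
          ∀ i, m.length ≤ i → i < m'.length → lev ℓ (endPt m) ≤ Lt ℓ m' i}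
      have hFu : ∀ m, ∀ s : Walk d, ∀ a b, pre s a ∈ F m → pre s b ∈ F m → a = b := by
        intro m s a b ha hb
        by_contra hne
        wlog hab : a < b generalizing a b
        · exact this b a hb ha (Ne.symm hne) (by omega)
        have h1 := hb.2.2.2 a (by have := ha.2.1; simp at this; omega) (by simpa using hab)
        rw [Lt_pre s hab.le] at h1
        have h2 := ha.2.2.1
        rw [endPt_pre] at h2
        omega
      have cover : cyl l ∩ N ⊆ ⋃ m : S, ⋃ m' : F m.1, cyl m'.1 ∩ N := by
        rintro s ⟨hsl, hsA, hsR⟩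
        obtain ⟨t, ht⟩ := Set.mem_iInter.1 hsA M.toNat
        obtain ⟨a, ha⟩ := exists_firstPass (ℓ := ℓ) (s := s) M ⟨t, by omega⟩
        have hla : l.length < a := by
          by_contra hc
          have h1 := hM a (not_lt.1 hc)
          have h2 := ha.1
          rw [endPt_pre] at h2
          have h3 : Lt ℓ l a = lev ℓ (pos s a) := by
            simp [Lt, pos_of_mem_cyl hsl (not_lt.1 hc)]
          omega
        have hmS : pre s a ∈ S := ⟨ha, by
          refine List.ext_getElem (by simp; omega) fun i h1 h2 => ?_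
          rw [List.getElem_take, getElem_pre]; exact hsl i h2⟩
        have hlev : M₀ ≤ lev ℓ (pos s a) := by
          have := ha.1
          rw [endPt_pre] at this
          exact hM0.trans this
        have hfail : ∃ b, a < b ∧ lev ℓ (pos s b) < lev ℓ (pos s a) := by
          by_contra hc
          refine hsR a hlev ⟨fun i hi => ?_, fun i hi => ?_⟩
          · have h1 := ha.2 i (by simpa using hi)
            rw [Lt_pre s hi.le] at h1
            have h2 := ha.1
            rw [endPt_pre] at h2
            omega
          · by_contra hlt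
            rcases hi.lt_or_eq with h | h
            · exact hc ⟨i, h, not_le.1 hlt⟩
            · exact hlt (by rw [h])
        refine Set.mem_iUnion.2 ⟨⟨_, hmS⟩, Set.mem_iUnion.2
          ⟨⟨pre s (Nat.find hfail), ?_⟩, by simp [mem_cyl_iff], hsA, hsR⟩⟩
        obtain ⟨h1, h2⟩ := Nat.find_spec hfail
        refine ⟨?_, by simpa using h1, by simpa [endPt_pre] using h2, fun i hi hi' => ?_⟩
        · refine List.ext_getElem (by simp; omega) fun i _ _ => ?_
          rw [List.getElem_take, getElem_pre, getElem_pre]
        · rw [length_pre] at hi hi'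
          rw [Lt_pre s hi'.le, endPt_pre]
          by_contra hlt
          rcases hi.lt_or_eq with h | h
          · exact Nat.find_min hfail hi' ⟨h, not_le.1 hlt⟩
          · exact hlt (by rw [h])
      have hF : ∀ m : S, ∑' m' : F m.1, W μ m'.1 ≤ (1 - p) * W μ m.1 := by
        intro m
        refine (tsum_W_le (hFu m.1) (E := cyl m.1 \ shift m.1.length ⁻¹' D0 ℓ) ?_).trans ?_
        · rintro m' hm' s hs
          refine ⟨cyl_subset_of_take hm'.1 hs, fun hD => ?_⟩
          have h1 : pre s m.1.length = m.1 := by
            conv_rhs => rw [← hm'.1, ← (mem_cyl_iff _ _).1 hs]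
            refine List.ext_getElem (by simp; exact hm'.2.1.le) fun i _ _ => ?_
            rw [List.getElem_take, getElem_pre, getElem_pre]
          have h2 := hD (m'.length - m.1.length)
          have h3 : lev ℓ (pos s m'.length) < lev ℓ (pos s m.1.length) := by
            have := hm'.2.2.1
            rw [← (mem_cyl_iff _ _).1 hs, endPt_pre] at this
            rwa [← h1, endPt_pre] at this
          rw [← Nat.add_sub_cancel' hm'.2.1.le, lev_pos_shift] at h3
          linarith
        · rw [← Set.sdiff_self_inter, measure_sdiff Set.inter_subset_left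
            (((measurableSet_cyl _).inter
              (measurable_shift _ (measurableSet_D0 ℓ))).nullMeasurableSet) (measure_ne_top _ _),
            annealed_fresh _ (measurableSet_D0 ℓ)
              (fun s hs n => fresh_of_last (firstPass_last m.2.1) hs n), annealed_cyl,
            ENNReal.sub_mul (fun _ _ => W_ne_top _), one_mul, mul_comm]
      calc annealed μ (cyl l ∩ N)
          ≤ ∑' m : S, ∑' m' : F m.1, annealed μ (cyl m'.1 ∩ N) :=
            ((measure_mono cover).trans (measure_iUnion_le _)).trans
              (ENNReal.tsum_le_tsum fun m => measure_iUnion_le _)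
        _ ≤ ∑' m : S, ∑' m' : F m.1, (1 - p) ^ k * W μ m'.1 :=
            ENNReal.tsum_le_tsum fun m => ENNReal.tsum_le_tsum fun m' => ih _
        _ ≤ ∑' m : S, (1 - p) ^ k * ((1 - p) * W μ m.1) :=
            ENNReal.tsum_le_tsum fun m => by rw [ENNReal.tsum_mul_left]; gcongr; exact hF m
        _ = (1 - p) ^ (k + 1) * ∑' m : S, W μ m.1 := by
            rw [ENNReal.tsum_mul_left, ENNReal.tsum_mul_left, pow_succ, mul_assoc]
        _ ≤ (1 - p) ^ (k + 1) * W μ l := by
            gcongr
            rw [← annealed_cyl]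
            exact tsum_W_le hS fun m hm => cyl_subset_of_take hm.2
  have hlim : Tendsto (fun k : ℕ => (1 - p) ^ k * W μ ([] : List (Dir d))) atTop (𝓝 0) := by
    have h1 : (1 - p) < 1 := ENNReal.sub_lt_self ENNReal.one_ne_top one_ne_zero hp0
    simpa using ENNReal.Tendsto.mul_const (ENNReal.tendsto_pow_atTop_nhds_zero_of_lt_one h1)
      (Or.inr (W_ne_top _))
  refine le_antisymm (ge_of_tendsto' hlim fun k => ?_) bot_le
  simpa using main k []

/-- Reaching high levels without escaping has small probability. -/
theorem tendsto_high_not_Ap (hp : annealed μ (Dp ℓ) ≠ 0) :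
    Tendsto (fun N => annealed μ (High ℓ N ∩ (Ap ℓ)ᶜ)) atTop (𝓝 0) := by
  have hm : ∀ N, NullMeasurableSet (High ℓ N ∩ (Ap ℓ)ᶜ) (annealed μ) := fun N =>
    ((measurableSet_high ℓ N).inter (measurableSet_Ap ℓ).compl).nullMeasurableSet
  have anti : Antitone fun N => High ℓ N ∩ (Ap ℓ)ᶜ := fun a b hab s hs => by
    obtain ⟨⟨t, ht⟩, h⟩ := hs
    exact ⟨⟨t, lt_of_le_of_lt (by exact_mod_cast hab) ht⟩, h⟩
  have h0 : annealed μ (⋂ N, High ℓ N ∩ (Ap ℓ)ᶜ) = 0 := by
    refine measure_mono_null ?_ (measure_iUnion_null fun M : ℤ => annealed_noRec (ℓ := ℓ) hp M)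
    intro s hs
    simp only [Set.mem_iInter, Set.mem_inter_iff] at hs
    by_contra hc
    simp only [Set.mem_iUnion, not_exists, NoRec, Set.mem_inter_iff, Set.mem_iInter, not_and,
      Set.mem_ofPred_eq, not_forall, not_not] at hc
    refine (hs 0).2 (tendsto_atTop.2 fun b => ?_)
    obtain ⟨j, hjb, hj⟩ := hc b fun N => (hs N).1
    exact eventually_atTop.2 ⟨j, fun n hn => hjb.trans (hj.2 n hn)⟩
  have := tendsto_measure_iInter_atTop hm anti ⟨0, measure_ne_top _ _⟩
  rwa [h0] at this

lemma shift_mem_Ap_iff (s : Walk d) (a : ℕ) : shift a s ∈ Ap ℓ ↔ s ∈ Ap ℓ :=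
  tendsto_shift_iff s a

/-- Events invariant under every translation of the environment are trivial. -/
theorem envLaw_invariant {G : Set (Env d)} (hd : 0 < d) (hG : MeasurableSet G)
    (hinv : ∀ x, tau x ⁻¹' G =ᵐ[envLaw μ] G) : envLaw μ G = 0 ∨ envLaw μ G = 1 := by
  classical
  set P := envLaw μ
  have key : ∀ ε : ℝ, 0 < ε → |P.real G - P.real G * P.real G| ≤ 4 * ε := by
    intro ε hε
    obtain ⟨C, hC, hCG⟩ := exists_measure_symmDiff_lt_of_generateFrom_isSetRing (μ := P)
      (isSetRing_measurableCylinders (α := fun _ : Fin d → ℤ => Row d))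
      ⟨{Set.univ}, Set.countable_singleton _, by
        rw [Set.singleton_subset_iff]
        exact (isSetAlgebra_measurableCylinders).univ_mem, by simp⟩
      generateFrom_measurableCylinders.symm hG (ENNReal.ofReal_pos.2 hε)
    obtain ⟨I, S, hS, rfl⟩ := (mem_measurableCylinders _).1 hC
    set C := cylinder (α := fun _ : Fin d → ℤ => Row d) I S
    have hCm : MeasurableSet C := hS.cylinder
    have hdC : P.real (C ∆ G) ≤ ε := by
      rw [measureReal_def, ← ENNReal.toReal_ofReal hε.le]
      exact ENNReal.toReal_mono ENNReal.ofReal_ne_top hCG.le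
    set R : ℤ := 2 * (∑ z ∈ I, |z ⟨0, hd⟩|) + 1
    set x : Fin d → ℤ := Pi.single ⟨0, hd⟩ R
    have hfar : ∀ z ∈ I, x + z ∉ I := by
      intro z hz hc
      have h1 := Finset.single_le_sum (f := fun z : Fin d → ℤ => |z ⟨0, hd⟩|)
        (fun j _ => abs_nonneg _) hz
      have h2 := Finset.single_le_sum (f := fun z : Fin d → ℤ => |z ⟨0, hd⟩|)
        (fun j _ => abs_nonneg _) hc
      simp only [x, Pi.add_apply, Pi.single_eq_same] at h2
      have h3 := abs_nonneg (z ⟨0, hd⟩)
      have h4 := le_abs_self (R + z ⟨0, hd⟩)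
      have h5 := neg_abs_le (z ⟨0, hd⟩)
      omega
    have hindep : P (C ∩ tau x ⁻¹' C) = P C * P C := by
      set Cs := tau x ⁻¹' C
      have hCs : MeasurableSet Cs := measurable_tau x hCm
      have hi : P (C ∩ Cs) = P C * P Cs := by
        have e : ∀ ω, (C ∩ Cs).indicator (1 : Env d → ℝ≥0∞) ω =
            C.indicator 1 ω * Cs.indicator 1 ω := fun ω => by
          simp [Set.indicator_apply, ← ite_and, and_comm]
        rw [← lintegral_indicator_one (hCm.inter hCs), ← lintegral_indicator_one hCm,
          ← lintegral_indicator_one hCs]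
        simp only [e]
        refine lintegral_mul_of_disjoint (μ := μ) (I : Set (Fin d → ℤ))
          (measurable_one.indicator hCm) (measurable_one.indicator hCs) ?_ ?_
        · intro ω η h
          have : ω ∈ C ↔ η ∈ C := by
            simp only [C, mem_cylinder]
            rw [show I.restrict ω = I.restrict η from funext fun z => h z.1 z.2]
          simp [Set.indicator_apply, this]
        · intro ω η h
          have : ω ∈ Cs ↔ η ∈ Cs := by
            simp only [Cs, Set.mem_preimage, C, mem_cylinder]
            rw [show I.restrict (tau x ω) = I.restrict (tau x η) from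
              funext fun z => h _ (hfar z.1 z.2)]
          simp [Set.indicator_apply, this]
      rw [hi, ← Measure.map_apply (measurable_tau x) hCm, envLaw_map_tau]
    have hGs : P.real (tau x ⁻¹' G ∩ G) = P.real G := by
      have : (tau x ⁻¹' G ∩ G : Set (Env d)) =ᵐ[P] G := by
        filter_upwards [hinv x] with ω hω
        change (tau x ⁻¹' G ∩ G) ω = G ω
        change (tau x ⁻¹' G) ω = G ω at hω
        exact propext ⟨fun h => h.2, fun h => ⟨hω.mpr h, h⟩⟩
      rw [measureReal_def, measureReal_def, measure_congr this]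
    have hreal : P.real (C ∩ tau x ⁻¹' C) = P.real C * P.real C := by
      rw [measureReal_def, hindep, ENNReal.toReal_mul]; rfl
    have d1 : |P.real C - P.real G| ≤ ε :=
      (abs_measureReal_sub_le_measureReal_symmDiff hCm.nullMeasurableSet hG.nullMeasurableSet
        ).trans hdC
    have d2 : |P.real (C ∩ tau x ⁻¹' C) - P.real (tau x ⁻¹' G ∩ G)| ≤ 2 * ε := by
      refine (abs_measureReal_sub_le_measureReal_symmDiff
        (hCm.inter (measurable_tau x hCm)).nullMeasurableSet
        ((measurable_tau x hG).inter hG).nullMeasurableSet).trans ?_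
      refine (measureReal_mono (s₂ := C ∆ G ∪ tau x ⁻¹' (C ∆ G)) ?_ (measure_ne_top _ _)).trans ?_
      · intro ω
        simp only [Set.mem_symmDiff, Set.mem_inter_iff, Set.mem_union, Set.mem_preimage]
        tauto
      · refine (measureReal_union_le _ _).trans ?_
        have e : P.real (tau x ⁻¹' (C ∆ G)) = P.real (C ∆ G) := by
          rw [measureReal_def, measureReal_def,
            ← Measure.map_apply (measurable_tau x) (hCm.symmDiff hG), envLaw_map_tau]
        rw [e]; linarith
    rw [hGs, hreal] at d2
    have b1 : P.real G ≤ 1 := measureReal_le_one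
    have b2 : 0 ≤ P.real G := measureReal_nonneg
    have b3 : P.real C ≤ 1 := measureReal_le_one
    have b4 : 0 ≤ P.real C := measureReal_nonneg
    rw [abs_le] at d1 d2 ⊢
    constructor <;> nlinarith
  have h0 : P.real G - P.real G * P.real G = 0 := abs_eq_zero.1 <| le_antisymm
    (le_of_forall_pos_le_add fun ε hε => by have := key (ε / 4) (by positivity); linarith)
    (abs_nonneg _)
  have h2 : P.real G * (1 - P.real G) = 0 := by linarith
  rcases mul_eq_zero.1 h2 with h | h
  · exact Or.inl ((measureReal_eq_zero_iff).1 h)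
  · refine Or.inr ?_
    have h1 : P.real G = 1 := by linarith
    rw [measureReal_def] at h1
    exact (ENNReal.toReal_eq_one_iff _).1 h1

end Vale.Agent.P147
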