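import Vale.Agent.P147.Main

/-!
Real directions, zero-one law for invariant events on `Dp`, and uniqueness of the velocity.
-/

noncomputable section

namespace Vale.Agent.P147

open MeasureTheory ProbabilityTheory Filter
open scoped ENNReal Topology

variable {d : ℕ} {μ : Measure (Row d)} {ℓ : Fin d → ℤ} [IsProbabilityMeasure μ]

/-- Two ballistic directions, integer case. -/
theorem no_two_sided_int (hd : 3 ≤ d) (he : IsElliptic μ) (h1 : annealed μ (Ballistic ℓ) ≠ 0)
    (h2 : annealed μ (Ballistic (-ℓ)) ≠ 0) : False := by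
  have g1 := annealed_Dp_inter_ne_zero (measurableSet_ballistic ℓ) ballistic_subset_Ap
    (fun s hs a => ballistic_shift s hs a) h1
  have g2 := annealed_Dp_inter_ne_zero (measurableSet_ballistic (-ℓ)) ballistic_subset_Ap
    (fun s hs a => ballistic_shift s hs a) h2
  have p1 : annealed μ (Dp ℓ) ≠ 0 := fun h => g1 (measure_mono_null Set.inter_subset_left h)
  have p2 : annealed μ (Dp (-ℓ)) ≠ 0 := fun h => g2 (measure_mono_null Set.inter_subset_left h)
  exact exclusive hd he p1 p2 (mean_length p1 g1) (mean_length p2 g2)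

/-- Zero-one law on `Dp` for shift invariant events. -/
theorem Dp_diff_invariant_null {G : Set (Walk d)} (hG : MeasurableSet G)
    (hinv : ∀ s a, shift a s ∈ G ↔ s ∈ G) (hpos : annealed μ (Dp ℓ ∩ G) ≠ 0) :
    annealed μ (Dp ℓ \ G) = 0 := by
  classical
  set p := annealed μ (Dp ℓ) with hpdef
  have hp : p ≠ 0 := fun h => hpos (measure_mono_null Set.inter_subset_left h)
  have hpt : p ≠ ⊤ := measure_ne_top _ _
  set g := annealed μ (Dp ℓ ∩ G) with hg
  have hDG : MeasurableSet (Dp ℓ ∩ G) := (measurableSet_Dp ℓ).inter hG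
  have hblk : ∀ {k : ℕ} (bs : Fin k → Blk ℓ),
      annealed μ (blkEvent bs ∩ G) * p = annealed μ (blkEvent bs) * g := by
    intro k bs
    have e : blkEvent bs ∩ G = cyl (cat bs) ∩ shift (cat bs).length ⁻¹' (Dp ℓ ∩ G) := by
      ext s
      simp only [blkEvent, Set.mem_inter_iff, Set.mem_preimage, hinv, and_assoc]
    rw [e, annealed_fresh _ hDG (fun s hs n => fresh_of_last (cat_last bs) hs.1.1 n),
      annealed_blkEvent, W_cat]
    ring
  have hcover : ∀ k, annealed μ (Dp ℓ \ ⋃ bs : Fin k → Blk ℓ, blkEvent bs) = 0 := by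
    intro k
    rw [measure_sdiff (Set.iUnion_subset fun bs => blkEvent_subset_Dp bs)
      (MeasurableSet.iUnion fun bs => measurableSet_blkEvent bs).nullMeasurableSet
      (measure_ne_top _ _), measure_iUnion (blkEvent_disjoint k) measurableSet_blkEvent]
    simp only [annealed_blkEvent]
    rw [ENNReal.tsum_mul_right]
    have := seqLaw_head_mem_one (blkPMF μ hp) k
    simp only [blkPMF_apply] at this
    rw [this, one_mul, tsub_self]
  have hcyl : ∀ l : List (Dir d),
      annealed μ (cyl l ∩ (Dp ℓ ∩ G)) * p = annealed μ (cyl l ∩ Dp ℓ) * g := by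
    intro l
    set S := {bs : Fin l.length → Blk ℓ | (cat bs).take l.length = l}
    have hlen : ∀ bs : Fin l.length → Blk ℓ, l.length ≤ (cat bs).length := by
      intro bs
      have hl : (cat bs).length = ∑ i, (bs i).1.length := by
        simp [cat, List.length_flatten, List.map_ofFn, List.sum_ofFn]
      rw [hl]
      calc l.length = ∑ _i : Fin l.length, 1 := by simp
        _ ≤ _ := Finset.sum_le_sum fun i _ => (bs i).2.length_pos
    have hdec : ∀ X : Set (Walk d), MeasurableSet X →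
        annealed μ (cyl l ∩ (Dp ℓ ∩ X)) = ∑' bs : S, annealed μ (blkEvent bs.1 ∩ X) := by
      intro X hX
      rw [← measure_iUnion (fun b b' h => ((blkEvent_disjoint l.length)
        (fun e => h (Subtype.ext e))).mono Set.inter_subset_left Set.inter_subset_left)
        (fun b => (measurableSet_blkEvent _).inter hX)]
      refine le_antisymm ?_ (measure_mono (Set.iUnion_subset fun b s hs => ?_))
      · refine le_trans (measure_mono (t := (⋃ bs : S, blkEvent bs.1 ∩ X) ∪
          (Dp ℓ \ ⋃ bs : Fin l.length → Blk ℓ, blkEvent bs)) ?_)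
          ((measure_union_le _ _).trans (by rw [hcover, add_zero]))
        rintro s ⟨hsl, hsD, hsX⟩
        by_cases h : s ∈ ⋃ bs : Fin l.length → Blk ℓ, blkEvent bs
        · obtain ⟨bs, hbs⟩ := Set.mem_iUnion.1 h
          refine Or.inl (Set.mem_iUnion.2 ⟨⟨bs, ?_⟩, hbs, hsX⟩)
          have e1 := (mem_cyl_iff _ _).1 hbs.1
          have e2 := (mem_cyl_iff _ _).1 hsl
          show (cat bs).take l.length = l
          conv_rhs => rw [← e2]
          rw [← e1]
          refine List.ext_getElem (by simp; exact hlen bs) fun i h1 h2 => ?_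
          rw [List.getElem_take, getElem_pre, getElem_pre]
        · exact Or.inr ⟨hsD, h⟩
      · exact ⟨cyl_subset_of_take b.2 hs.1.1, blkEvent_subset_Dp _ hs.1, hs.2⟩
    have h1 := hdec G hG
    have h2 := hdec Set.univ MeasurableSet.univ
    simp only [Set.inter_univ] at h2
    rw [h1, h2, ← ENNReal.tsum_mul_right, ← ENNReal.tsum_mul_right]
    exact tsum_congr fun bs => hblk bs.1
  have hν : p • (annealed μ).restrict (Dp ℓ ∩ G) = g • (annealed μ).restrict (Dp ℓ) := by
    haveI : IsFiniteMeasure (p • (annealed μ).restrict (Dp ℓ ∩ G)) :=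
      Measure.smul_finite _ hpt
    refine ext_of_cyl fun l => ?_
    rw [Measure.smul_apply, Measure.smul_apply, smul_eq_mul, smul_eq_mul,
      Measure.restrict_apply (measurableSet_cyl l), Measure.restrict_apply (measurableSet_cyl l),
      mul_comm, hcyl, mul_comm]
  have h := congrArg (fun ν : Measure (Walk d) => ν Gᶜ) hν
  simp only [Measure.smul_apply, smul_eq_mul, Measure.restrict_apply hG.compl] at h
  have e1 : Gᶜ ∩ (Dp ℓ ∩ G) = ∅ := by ext s; simp; tauto
  rw [e1, measure_empty, mul_zero] at h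
  have e2 : Gᶜ ∩ Dp ℓ = Dp ℓ \ G := by ext s; simp [and_comm]
  rw [e2] at h
  exact (mul_eq_zero.1 h.symm).resolve_left hpos

/-- At least linear growth with slope `c` in direction `ℓ`. -/
def Grows (ℓ : Fin d → ℝ) (c : ℝ) : Set (Walk d) :=
  {s | ∀ᶠ n : ℕ in atTop, c * n ≤ dotR ℓ (pos s n)}

omit [IsProbabilityMeasure μ] in
lemma sum_abs_pos_le (s : Walk d) (n : ℕ) : ∑ i, |(pos s n i : ℝ)| ≤ n := by
  induction n with
  | zero => simp [pos]
  | succ n ih =>
    have e : ∀ i, (pos s (n + 1) i : ℝ) = pos s n i + dirVec (s n) i := by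
      intro i; simp [pos, Finset.sum_range_succ]
    have h1 : ∑ i, |((dirVec (s n) i : ℤ) : ℝ)| = 1 := by
      obtain ⟨j, b⟩ := s n
      rw [Finset.sum_eq_single j]
      · cases b <;> simp [dirVec]
      · intro i _ hij
        cases b <;> simp [dirVec, hij]
      · simp
    calc ∑ i, |(pos s (n + 1) i : ℝ)|
        ≤ ∑ i, (|(pos s n i : ℝ)| + |((dirVec (s n) i : ℤ) : ℝ)|) :=
          Finset.sum_le_sum fun i _ => by rw [e]; exact abs_add_le _ _
      _ ≤ n + 1 := by rw [Finset.sum_add_distrib, h1]; linarith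
      _ = _ := by push_cast; ring

omit [IsProbabilityMeasure μ] in
lemma dotR_neg (ℓ : Fin d → ℝ) (x : Fin d → ℤ) : dotR (-ℓ) x = -dotR ℓ x := by
  simp [dotR]

omit [IsProbabilityMeasure μ] in
/-- A real direction is replaced by an integer one. -/
lemma exists_int (ℓ : Fin d → ℝ) {c : ℝ} (hc : 0 < c) :
    ∃ m : Fin d → ℤ, Grows ℓ c ⊆ Ballistic m ∧ Grows (-ℓ) c ⊆ Ballistic (-m) := by
  obtain ⟨Q, hQ⟩ := exists_nat_ge (1 / c)
  set m : Fin d → ℤ := fun i => round ((Q : ℝ) * ℓ i) with hm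
  have hQc : 1 ≤ (Q : ℝ) * c := by rwa [div_le_iff₀ hc] at hQ
  have herr : ∀ s n, |(lev m (pos s n) : ℝ) - Q * dotR ℓ (pos s n)| ≤ (n : ℝ) / 2 := by
    intro s n
    have e : (lev m (pos s n) : ℝ) - Q * dotR ℓ (pos s n) =
        ∑ i, ((m i : ℝ) - Q * ℓ i) * (pos s n i : ℝ) := by
      simp [lev, dotR, Finset.mul_sum, sub_mul, mul_assoc]
    rw [e]
    refine (Finset.abs_sum_le_sum_abs _ _).trans ?_
    calc ∑ i, |((m i : ℝ) - Q * ℓ i) * (pos s n i : ℝ)|
        ≤ ∑ i, (1 / 2) * |(pos s n i : ℝ)| := Finset.sum_le_sum fun i _ => by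
          rw [abs_mul]
          refine mul_le_mul_of_nonneg_right ?_ (abs_nonneg _)
          rw [abs_sub_comm]
          exact abs_sub_round _
      _ ≤ (n : ℝ) / 2 := by
          rw [← Finset.mul_sum]; linarith [sum_abs_pos_le s n]
  refine ⟨m, fun s hs => ?_, fun s hs => ?_⟩ <;>
  · obtain ⟨N, hN⟩ := eventually_atTop.1 hs
    refine ⟨2, N, fun n hn => ?_⟩
    have h1 := hN n hn
    have h2 := abs_le.1 (herr s n)
    have h3 : (Q : ℝ) * (c * n) ≤ Q * _ := mul_le_mul_of_nonneg_left h1 (Nat.cast_nonneg Q)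
    have h4 : (n : ℝ) ≤ Q * c * n := le_mul_of_one_le_left (Nat.cast_nonneg n) hQc
    try simp only [lev_neg_left, dotR_neg] at h3 ⊢
    refine (Int.cast_le (R := ℝ)).1 ?_
    push_cast
    nlinarith [h2.1, h2.2, h3, h4]

theorem no_two_sided (hd : 3 ≤ d) (he : IsElliptic μ) (ℓ : Fin d → ℝ) {c c' : ℝ} (hc : 0 < c)
    (hc' : 0 < c') (h1 : annealed μ (Grows ℓ c) ≠ 0) (h2 : annealed μ (Grows (-ℓ) c') ≠ 0) :
    False := by
  obtain ⟨m, hm1, hm2⟩ := exists_int ℓ (lt_min hc hc')
  have mono : ∀ (v : Fin d → ℝ) (b : ℝ), min c c' ≤ b → Grows v b ⊆ Grows v (min c c') :=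
    fun v b hb s hs => hs.mono fun n hn =>
      (mul_le_mul_of_nonneg_right hb (Nat.cast_nonneg n)).trans hn
  exact no_two_sided_int hd he
    (fun h => h1 (measure_mono_null ((mono ℓ c (min_le_left _ _)).trans hm1) h))
    (fun h => h2 (measure_mono_null ((mono (-ℓ) c' (min_le_right _ _)).trans hm2) h))

/-- The walk has velocity `v`. -/
def HasVel (v : Fin d → ℝ) : Set (Walk d) :=
  {s | ∀ i, Tendsto (fun n : ℕ => (pos s n i : ℝ) / n) atTop (𝓝 (v i))}

omit [IsProbabilityMeasure μ] in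
lemma measurableSet_hasVel (v : Fin d → ℝ) : MeasurableSet (HasVel v) := by
  have : HasVel v = ⋂ i, {s : Walk d |
      Tendsto (fun n : ℕ => (pos s n i : ℝ) / n) atTop (𝓝 (v i))} := by ext; simp [HasVel]
  rw [this]
  exact MeasurableSet.iInter fun i => measurableSet_tendsto _ fun n =>
    (measurable_of_countable fun x : Fin d → ℤ => (x i : ℝ) / n).comp (measurable_pos n)

omit [IsProbabilityMeasure μ] in
lemma hasVel_shift (v : Fin d → ℝ) (s : Walk d) (a : ℕ) :
    shift a s ∈ HasVel v ↔ s ∈ HasVel v := by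
  refine forall_congr' fun i => ?_
  have hz : Tendsto (fun n : ℕ => (pos s a i : ℝ) / n) atTop (𝓝 0) :=
    tendsto_const_div_atTop_nhds_zero_nat _
  have hr : Tendsto (fun n : ℕ => ((a + n : ℕ) : ℝ) / n) atTop (𝓝 1) := by
    have h0 : Tendsto (fun n : ℕ => (a : ℝ) / n + 1) atTop (𝓝 1) := by
      simpa using (tendsto_const_div_atTop_nhds_zero_nat (a : ℝ)).add_const 1
    refine h0.congr' (eventually_atTop.2 ⟨1, fun n hn => ?_⟩)
    have : (n : ℝ) ≠ 0 := by positivity
    field_simp
    push_cast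
    ring
  conv_rhs => rw [← tendsto_add_atTop_iff_nat a]
  have e : ∀ n : ℕ, 1 ≤ n → (pos s (n + a) i : ℝ) / ((n + a : ℕ) : ℝ) * (((a + n : ℕ) : ℝ) / n) =
      (pos s a i : ℝ) / n + (pos (shift a s) n i : ℝ) / n := by
    intro n hn
    rw [add_comm n a, pos_add, Pi.add_apply, Int.cast_add]
    have h1 : (n : ℝ) ≠ 0 := by positivity
    have h2 : ((a + n : ℕ) : ℝ) ≠ 0 := by positivity
    field_simp
  constructor
  · intro h
    have h1 := hz.add h
    rw [zero_add] at h1
    have h2 := (h1.congr' (eventually_atTop.2 ⟨1, fun n hn => (e n hn).symm⟩)).mul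
      (hr.inv₀ one_ne_zero)
    rw [inv_one, mul_one] at h2
    refine h2.congr' (eventually_atTop.2 ⟨1, fun n hn => ?_⟩)
    have h1 : (n : ℝ) ≠ 0 := by positivity
    have h3 : ((a + n : ℕ) : ℝ) / n ≠ 0 := by positivity
    exact mul_inv_cancel_right₀ h3 _
  · intro h
    have h1 := (h.mul hr).congr' (eventually_atTop.2 ⟨1, e⟩)
    rw [mul_one] at h1
    simpa using h1.sub hz

omit [IsProbabilityMeasure μ] in
lemma hasVel_subset_grows (ℓ v : Fin d → ℝ) (h : 0 < ∑ i, ℓ i * v i) :
    HasVel v ⊆ Grows ℓ ((∑ i, ℓ i * v i) / 2) := by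
  intro s hs
  set b := ∑ i, ℓ i * v i
  have ht : Tendsto (fun n : ℕ => ∑ i, ℓ i * ((pos s n i : ℝ) / n)) atTop (𝓝 b) :=
    tendsto_finsetSum _ fun i _ => (hs i).const_mul _
  filter_upwards [ht.eventually_const_lt (half_lt_self h), eventually_ge_atTop 1] with n hn hn1
  have h1 : (0 : ℝ) < n := by positivity
  have e : ∑ i, ℓ i * ((pos s n i : ℝ) / n) = dotR ℓ (pos s n) / n := by
    simp [dotR, Finset.sum_div, mul_div_assoc]
  rw [e, lt_div_iff₀ h1] at hn
  exact hn.le

omit [IsProbabilityMeasure μ] in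
lemma hasVel_unique {v v' : Fin d → ℝ} {s : Walk d} (h : s ∈ HasVel v) (h' : s ∈ HasVel v') :
    v = v' := funext fun i => tendsto_nhds_unique (h i) (h' i)

theorem velocity_unique (hd : 3 ≤ d) (he : IsElliptic μ) {v v' : Fin d → ℝ} (hv : v ≠ 0)
    (hv' : v' ≠ 0) (h1 : annealed μ (HasVel v) ≠ 0) (h2 : annealed μ (HasVel v') ≠ 0) :
    v = v' := by
  set A := ∑ i, v i * v i with hA
  set B := ∑ i, v' i * v' i with hB
  set t := ∑ i, v i * v' i with ht
  have pos_sq : ∀ w : Fin d → ℝ, w ≠ 0 → 0 < ∑ i, w i * w i := by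
    intro w hw
    obtain ⟨i, hi⟩ := Function.ne_iff.1 hw
    exact Finset.sum_pos' (fun j _ => mul_self_nonneg _) ⟨i, Finset.mem_univ i, mul_self_pos.2 hi⟩
  have hA0 : 0 < A := pos_sq v hv
  have hB0 : 0 < B := pos_sq v' hv'
  have opp : ∀ ℓ : Fin d → ℝ, 0 < ∑ i, ℓ i * v i → ∑ i, ℓ i * v' i < 0 → False := by
    intro ℓ g1 g2
    have g2' : 0 < ∑ i, (-ℓ) i * v' i := by simpa using g2
    exact no_two_sided hd he ℓ (half_pos g1) (half_pos g2')
      (fun h => h1 (measure_mono_null (hasVel_subset_grows ℓ v g1) h))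
      (fun h => h2 (measure_mono_null (hasVel_subset_grows (-ℓ) v' g2') h))
  rcases lt_or_ge t 0 with htn | htn
  · exact (opp v hA0 htn).elim
  rcases lt_or_ge (t ^ 2) (A * B) with hlt | hge
  · refine (opp (fun i => (B + t) * v i - (A + t) * v' i) ?_ ?_).elim
    · have : ∑ i, ((B + t) * v i - (A + t) * v' i) * v i = (B + t) * A - (A + t) * t := by
        simp only [hA, ht, Finset.mul_sum, ← Finset.sum_sub_distrib]
        exact Finset.sum_congr rfl fun i _ => by ring
      rw [this]; nlinarith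
    · have : ∑ i, ((B + t) * v i - (A + t) * v' i) * v' i = (B + t) * t - (A + t) * B := by
        simp only [hB, ht, Finset.mul_sum, ← Finset.sum_sub_distrib]
        exact Finset.sum_congr rfl fun i _ => by ring
      rw [this]; nlinarith
  have hpar : ∀ i, A * v' i = t * v i := by
    have hs : ∑ i, (A * v' i - t * v i) ^ 2 = A * (A * B - t ^ 2) := by
      have : ∀ i, (A * v' i - t * v i) ^ 2 =
          A ^ 2 * (v' i * v' i) - 2 * A * t * (v i * v' i) + t ^ 2 * (v i * v i) := fun i => by ring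
      simp only [this, Finset.sum_add_distrib, Finset.sum_sub_distrib, ← Finset.mul_sum,
        ← hA, ← hB, ← ht]
      ring
    have h0 : ∑ i, (A * v' i - t * v i) ^ 2 = 0 := le_antisymm
      (hs.le.trans (mul_nonpos_of_nonneg_of_nonpos hA0.le (by linarith)))
      (Finset.sum_nonneg fun i _ => sq_nonneg _)
    intro i
    have := (Finset.sum_eq_zero_iff_of_nonneg fun i _ => sq_nonneg _).1 h0 i (Finset.mem_univ i)
    exact sub_eq_zero.1 (pow_eq_zero_iff two_ne_zero |>.1 this)
  have ht0 : 0 < t := by nlinarith [mul_pos hA0 hB0]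
  obtain ⟨m, hm, -⟩ := exists_int v (lt_min (half_pos hA0) (half_pos ht0))
  have mono : ∀ b, min (A / 2) (t / 2) ≤ b → Grows v b ⊆ Ballistic m := fun b hb s hs =>
    hm (hs.mono fun n hn => (mul_le_mul_of_nonneg_right hb (Nat.cast_nonneg n)).trans hn)
  have sub1 : HasVel v ⊆ Ballistic m :=
    (hasVel_subset_grows v v hA0).trans (mono _ (min_le_left _ _))
  have sub2 : HasVel v' ⊆ Ballistic m :=
    (hasVel_subset_grows v v' ht0).trans (mono _ (min_le_right _ _))
  have g1 := annealed_Dp_inter_ne_zero (measurableSet_hasVel v) (sub1.trans ballistic_subset_Ap)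
    (fun s hs a => (hasVel_shift v s a).2 hs) h1
  have g2 := annealed_Dp_inter_ne_zero (measurableSet_hasVel v') (sub2.trans ballistic_subset_Ap)
    (fun s hs a => (hasVel_shift v' s a).2 hs) h2
  by_contra hne
  refine g2 (measure_mono_null ?_ (Dp_diff_invariant_null (measurableSet_hasVel v)
    (fun s a => hasVel_shift v s a) g1))
  exact fun s hs => ⟨hs.1, fun h => hne (hasVel_unique h hs.2)⟩

end Vale.Agent.P147
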