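import Vale.Agent.P147.Flux

/-!
Construction of escape pairs from two forward traces that avoid each other.
-/

noncomputable section

namespace Vale.Agent.P147

open MeasureTheory ProbabilityTheory Filter
open scoped ENNReal Topology

variable {d : ℕ} {μ : Measure (Row d)} {ℓ : Fin d → ℤ}

lemma cat_head_succ (η : ℕ → Blk ℓ) (k : ℕ) :
    cat (head (k + 1) η) = (η 0).1 ++ cat (head k fun t => η (t + 1)) := by
  rw [cat_succ]
  congr 2

/-- Every site of a concatenation lies in one of the blocks. -/
lemma cat_head_site (η : ℕ → Blk ℓ) (k : ℕ) (hk : 0 < k) {i : ℕ}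
    (hi : i ≤ (cat (head k η)).length) :
    ∃ j < k, ∃ b ∈ visited (η j).1,
      endPt ((cat (head k η)).take i) = (∑ u ∈ Finset.range j, endPt (η u).1) + b := by
  induction k generalizing η i with
  | zero => omega
  | succ k ih =>
    rw [cat_head_succ] at hi ⊢
    rcases le_or_gt i (η 0).1.length with h | h
    · exact ⟨0, k.succ_pos, _, mem_visited.2 ⟨i, h, rfl⟩,
        by simp [List.take_append_of_le_length h]⟩
    · obtain ⟨t, rfl⟩ := Nat.exists_eq_add_of_le h.le
      rw [List.take_length_add_append, endPt_append]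
      have ht : t ≤ (cat (head k fun t => η (t + 1))).length := by simp at hi; omega
      rcases Nat.eq_zero_or_pos k with rfl | hk'
      · simp [cat_zero] at ht; omega
      · obtain ⟨j, hj, b, hb, he⟩ := ih (fun t => η (t + 1)) hk' ht
        refine ⟨j + 1, by omega, b, hb, ?_⟩
        rw [he, Finset.sum_range_succ']
        abel

variable [IsProbabilityMeasure μ]

/-- Disjoint first passage pairs, the second shifted by `y`. -/
def PassPair (ℓ : Fin d → ℤ) (y : Fin d → ℤ) (K : ℕ) : Set (List (Dir d) × List (Dir d)) :=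
  {p | (p.1 ∈ firstPass ℓ (K : ℤ) ∧ ∀ i ≤ p.1.length, 0 ≤ Lt ℓ p.1 i) ∧
    (p.2 ∈ firstPass ℓ (K : ℤ) ∧ ∀ i ≤ p.2.length, 0 ≤ Lt ℓ p.2 i) ∧
    ∀ i ≤ p.1.length, ∀ i' ≤ p.2.length, endPt (p.1.take i) ≠ y + endPt (p.2.take i')}

lemma passPair_mass (hp : annealed μ (Dp ℓ) ≠ 0) (y : Fin d → ℤ) {K : ℕ} (hK : 0 < K) :
    annealed μ (Dp ℓ) * annealed μ (Dp ℓ) *
        pairLaw (up μ hp) (up μ hp) (HitIn (up μ hp) (up μ hp) y Set.univ)ᶜ ≤
      ∑' q : PassPair ℓ y K, W μ q.1.1 * W μ q.1.2 := by
  classical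
  set A := up μ hp with hA
  set p := annealed μ (Dp ℓ)
  let G : Set ((Fin K → Blk ℓ) × (Fin K → Blk ℓ)) :=
    {g | ∀ i ≤ (cat g.1).length, ∀ i' ≤ (cat g.2).length,
      endPt ((cat g.1).take i) ≠ y + endPt ((cat g.2).take i')}
  have h1 : pairLaw A A (HitIn A A y Set.univ)ᶜ ≤
      ∑' g : G, (∏ i, W μ (g.1.1 i).1) * ∏ i, W μ (g.1.2 i).1 := by
    refine (measure_mono (t := ⋃ g : G, {ω | head K ω = g.1.1} ×ˢ {η | head K η = g.1.2}) ?_).trans
      ((measure_iUnion_le _).trans (le_of_eq (tsum_congr fun g => ?_)))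
    · rintro ⟨ω, η⟩ h
      refine Set.mem_iUnion.2 ⟨⟨(head K ω, head K η), fun i hi i' hi' he => h ?_⟩, rfl, rfl⟩
      obtain ⟨j, -, a, ha, hea⟩ := cat_head_site ω K hK hi
      obtain ⟨j', -, b, hb, heb⟩ := cat_head_site η K hK hi'
      refine Set.mem_biUnion (x := (j, j')) (Set.mem_univ _) ⟨a, ha, b, hb, ?_⟩
      show A.S ω j + a = y + A.S η j' + b
      simp only [hea, heb] at he
      simp only [Side.S, A, up, he, add_assoc]
    · rw [pairLaw, Measure.prod_prod, seqLaw_head_eq, seqLaw_head_eq]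
      rfl
  refine (mul_le_mul' le_rfl h1).trans ?_
  rw [← ENNReal.tsum_mul_left]
  calc ∑' g : G, p * p * ((∏ i, W μ (g.1.1 i).1) * ∏ i, W μ (g.1.2 i).1)
      = ∑' g : G, ((annealed μ).prod (annealed μ)) (blkEvent g.1.1 ×ˢ blkEvent g.1.2) := by
        refine tsum_congr fun g => ?_
        rw [Measure.prod_prod, annealed_blkEvent, annealed_blkEvent]
        ring
    _ = ((annealed μ).prod (annealed μ)) (⋃ g : G, blkEvent g.1.1 ×ˢ blkEvent g.1.2) := by
        rw [measure_iUnion ?_ fun g => (measurableSet_blkEvent _).prod (measurableSet_blkEvent _)]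
        intro g g' hne
        refine Set.disjoint_left.2 fun w hw hw' => hne ?_
        have e1 : g.1.1 = g'.1.1 := by
          by_contra h
          exact Set.disjoint_left.1 (blkEvent_disjoint K h) hw.1 hw'.1
        have e2 : g.1.2 = g'.1.2 := by
          by_contra h
          exact Set.disjoint_left.1 (blkEvent_disjoint K h) hw.2 hw'.2
        exact Subtype.ext (Prod.ext e1 e2)
    _ ≤ ((annealed μ).prod (annealed μ)) (⋃ q : PassPair ℓ y K, pairCyl q.1) := by
        refine measure_mono (Set.iUnion_subset fun g w hw => ?_)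
        have hcut : ∀ (g : Fin K → Blk ℓ) (s : Walk d), s ∈ blkEvent g →
            ∃ a ≤ (cat g).length, pre s a ∈ firstPass ℓ (K : ℤ) ∧
              ∀ i ≤ (pre s a).length, 0 ≤ Lt ℓ (pre s a) i := by
          intro g s hs
          have hend : (K : ℤ) ≤ lev ℓ (pos s (cat g).length) := by
            rw [pos_of_mem_cyl hs.1 le_rfl, List.take_length, lev_cat]
            have h : ∑ _i : Fin K, (1 : ℕ) ≤ ∑ i, blkLev (g i) :=
              Finset.sum_le_sum fun i _ => by
                have h2 : 0 < lev ℓ (endPt (g i).1) := (g i).2.lev_pos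
                unfold blkLev; omega
            simp only [Finset.sum_const, Finset.card_univ, Fintype.card_fin, smul_eq_mul,
              mul_one] at h
            exact_mod_cast h
          obtain ⟨a, ha⟩ := exists_firstPass (ℓ := ℓ) (s := s) (K : ℤ) ⟨_, hend⟩
          have hal : a ≤ (cat g).length := by
            by_contra hc
            have := ha.2 (cat g).length (by simpa using not_le.1 hc)
            rw [Lt_pre s (not_le.1 hc).le] at this
            linarith
          refine ⟨a, hal, ha, fun i hi => ?_⟩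
          rw [length_pre] at hi
          rw [Lt_pre s hi]
          exact (blkEvent_subset_Dp g hs).1 i
        obtain ⟨a, hal, ha, han⟩ := hcut g.1.1 w.1 hw.1
        obtain ⟨b, hbl, hb, hbn⟩ := hcut g.1.2 w.2 hw.2
        refine Set.mem_iUnion.2 ⟨⟨(pre w.1 a, pre w.2 b), ⟨ha, han⟩, ⟨hb, hbn⟩,
          fun i hi i' hi' he => ?_⟩, by simp [mem_cyl_iff], by simp [mem_cyl_iff]⟩
        simp only [length_pre] at hi hi'
        rw [endPt_take_pre _ hi, endPt_take_pre _ hi', pos_of_mem_cyl hw.1.1 (hi.trans hal),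
          pos_of_mem_cyl hw.2.1 (hi'.trans hbl)] at he
        exact g.2 i (hi.trans hal) i' (hi'.trans hbl) he
    _ ≤ ∑' q : PassPair ℓ y K, ((annealed μ).prod (annealed μ)) (pairCyl q.1) :=
        measure_iUnion_le _
    _ = _ := tsum_congr fun q => by rw [pairCyl, Measure.prod_prod, annealed_cyl, annealed_cyl]

/-- Escape pairs with mass bounded below, for every window. -/
theorem exists_escape (hd : 4 ≤ d) (he : IsElliptic μ) (hp : annealed μ (Dp ℓ) ≠ 0)
    (hG : annealed μ (Dp ℓ ∩ LinRange ℓ) ≠ 0) :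
    ∃ (H : ℕ) (c : ℝ≥0∞), c ≠ 0 ∧ ∀ N : ℕ, ∃ EP : Set (List (Dir d) × List (Dir d)),
      IsEscape ℓ H N EP ∧ c ≤ ∑' e : EP, pw μ 0 e.1 := by
  classical
  obtain ⟨y, hy, hy2⟩ := exists_offset hd he hp hG
  have hℓ := ne_zero_of_Dp hp
  obtain ⟨q, Bq, hq0, hq, hq1, hqpos, hqB⟩ := exists_hump hℓ hy
  obtain ⟨e, e', hee, -⟩ := exists_up hℓ
  set α := lev ℓ (dirVec e) with hα
  set la := List.replicate (Bq + 1) e with hla
  set lb := q ++ List.replicate (Bq + 1) e with hlb
  set z := endPt la with hz
  set H := ((Bq + 1 : ℕ) * α).toNat with hH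
  have hHz : (H : ℤ) = lev ℓ z := by
    rw [hH, Int.toNat_of_nonneg (by positivity), hz, hla, endPt_replicate, map_nsmul,
      nsmul_eq_mul]
  have hzb : endPt lb = y + z := by rw [hlb, endPt_append, hq]
  have hHval : lev ℓ z = ((Bq : ℤ) + 1) * α := by
    rw [hz, hla, endPt_replicate, map_nsmul, nsmul_eq_mul]; push_cast; ring
  have la_lev : ∀ i ≤ la.length, 0 ≤ Lt ℓ la i ∧ Lt ℓ la i ≤ lev ℓ z ∧
      (i < la.length → Lt ℓ la i < lev ℓ z) := by
    intro i hi
    rw [hla, List.length_replicate] at hi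
    rw [hla, Lt_replicate _ _ _ hi, hHval, List.length_replicate]
    refine ⟨by positivity, mul_le_mul_of_nonneg_right (by exact_mod_cast hi) hee.le, fun h => ?_⟩
    exact mul_lt_mul_of_pos_right (by exact_mod_cast h) hee
  have lb_lev : ∀ i ≤ lb.length, 0 ≤ Lt ℓ lb i ∧ Lt ℓ lb i ≤ lev ℓ z ∧
      (i < lb.length → Lt ℓ lb i < lev ℓ z) := by
    intro i hi
    rw [hlb, List.length_append, List.length_replicate] at hi
    rw [hlb, List.length_append, List.length_replicate, hHval]
    rcases le_or_gt i q.length with h | h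
    · rw [Lt_append_left _ _ _ h]
      have h2 := hqB i h
      have h3 : (Bq : ℤ) < ((Bq : ℤ) + 1) * α := by
        nlinarith [Int.natCast_nonneg Bq, hee]
      refine ⟨?_, by linarith, fun _ => by linarith⟩
      rcases Nat.eq_zero_or_pos i with rfl | h0
      · simp
      rcases h.lt_or_eq with hl | hl
      · exact (hqpos i hl h0).le
      · rw [hl, Lt_length, hq, hy]
    · obtain ⟨t, rfl⟩ := Nat.exists_eq_add_of_le h.le
      rw [Lt_append_right, hq, hy, zero_add, Lt_replicate _ _ _ (by omega), ← hα]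
      refine ⟨by positivity,
        mul_le_mul_of_nonneg_right (by exact_mod_cast (by omega : t ≤ Bq + 1)) hee.le, fun h' => ?_⟩
      exact mul_lt_mul_of_pos_right (by exact_mod_cast (by omega : t < Bq + 1)) hee
  have hzy : lev ℓ (y + z) = lev ℓ z := by rw [map_add, hy, zero_add]
  set c0 := pw μ 0 (la, lb) with hc0def
  have hc0 : c0 ≠ 0 := by
    have hmeas := measurable_pw_aux (d := d) 0 (la, lb)
    intro h0
    rw [hc0def, pw, lintegral_eq_zero_iff hmeas] at h0
    have hW := W_pos (μ := μ) he (la ++ lb)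
    have hqq : ∀ᵐ ω ∂envLaw μ, qw ω 0 la * qw ω 0 lb ≠ 0 := by
      have h1 : ∀ᵐ ω ∂envLaw μ, ∀ (w : Fin d → ℤ) e, 0 < (ω w).1 e := by
        rw [ae_all_iff]
        intro w
        exact (measurePreserving_eval_infinitePi (fun _ : Fin d → ℤ => μ) w
          ).quasiMeasurePreserving.ae he
      filter_upwards [h1] with ω hω
      have : ∀ (l : List (Dir d)) x, qw ω x l ≠ 0 := by
        intro l
        induction l with
        | nil => intro x; simp [qw]
        | cons e l ih => intro x; simp [qw, hω x e, ih]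
      exact mul_ne_zero (this la 0) (this lb 0)
    have hfalse : ∀ᵐ _ω ∂envLaw μ, False := by
      filter_upwards [h0, hqq] with ω a b using b a
    simp only [ae_iff, not_false_eq_true, Set.setOf_true, measure_univ, one_ne_zero] at hfalse
  refine ⟨H, c0 * (annealed μ (Dp ℓ) * annealed μ (Dp ℓ) * 2⁻¹),
    mul_ne_zero hc0 (mul_ne_zero (mul_ne_zero hp hp) (by simp)), fun N => ?_⟩
  set P := PassPair ℓ y (2 * N + 1) with hP
  set f : List (Dir d) × List (Dir d) → List (Dir d) × List (Dir d) :=
    fun p => (la ++ p.1, lb ++ p.2) with hf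
  have finj : Function.Injective f := fun p p' h => by
    simp only [f, Prod.mk.injEq, List.append_cancel_left_eq] at h
    exact Prod.ext h.1 h.2
  have hshape : ∀ p ∈ P, (∀ i ≤ (la ++ p.1).length, 0 ≤ Lt ℓ (la ++ p.1) i) ∧
      ∀ i ≤ (lb ++ p.2).length, 0 ≤ Lt ℓ (lb ++ p.2) i := by
    intro p hp
    have h0 : (0 : ℤ) ≤ lev ℓ z := by rw [← hHz]; exact Int.natCast_nonneg H
    refine ⟨fun i hi => ?_, fun i hi => ?_⟩
    · rcases le_or_gt i la.length with h | h
      · rw [Lt_append_left _ _ _ h]; exact (la_lev i h).1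
      · obtain ⟨t, rfl⟩ := Nat.exists_eq_add_of_le h.le
        rw [Lt_append_right, ← hz]
        have := hp.1.2 t (by simp at hi; omega)
        linarith
    · rcases le_or_gt i lb.length with h | h
      · rw [Lt_append_left _ _ _ h]; exact (lb_lev i h).1
      · obtain ⟨t, rfl⟩ := Nat.exists_eq_add_of_le h.le
        rw [Lt_append_right, hzb, hzy]
        have := hp.2.1.2 t (by simp at hi; omega)
        linarith
  refine ⟨f '' P, ⟨?_, ?_, ?_, ?_⟩, ?_⟩
  · rintro _ ⟨p, hp, rfl⟩
    exact hshape p hp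
  · rintro _ ⟨p, hp, rfl⟩
    have h0 : (0 : ℤ) ≤ lev ℓ z := by rw [← hHz]; exact Int.natCast_nonneg H
    have h1 := hp.1.1.1
    have h2 := hp.2.1.1.1
    simp only [f, endPt_append, map_add, ← hz, hzb, hy, zero_add]
    push_cast at h1 h2
    constructor <;> linarith
  · rintro _ ⟨p, hp, rfl⟩ i hi i' hi' hlev heq
    simp only [f] at hi hi' hlev heq
    have hli : la.length ≤ i := by
      by_contra hc
      rw [Lt_append_left _ _ _ (not_le.1 hc).le] at hlev
      have := (la_lev i (not_le.1 hc).le).2.1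
      linarith
    have hli' : lb.length ≤ i' := by
      by_contra hc
      have h1 : Lt ℓ (la ++ p.1) i = Lt ℓ (lb ++ p.2) i' := congrArg (lev ℓ) heq
      rw [Lt_append_left _ _ _ (not_le.1 hc).le] at h1
      have := (lb_lev i' (not_le.1 hc).le).2.1
      linarith
    obtain ⟨t, rfl⟩ := Nat.exists_eq_add_of_le hli
    obtain ⟨t', rfl⟩ := Nat.exists_eq_add_of_le hli'
    rw [List.take_length_add_append, List.take_length_add_append, endPt_append, endPt_append,
      ← hz, hzb, add_comm y z, add_assoc, add_right_inj] at heq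
    exact hp.2.2 t (by simp at hi; omega) t' (by simp at hi'; omega) heq
  · rintro _ ⟨p, hp, rfl⟩ _ ⟨p', hp', rfl⟩ hne
    refine Set.disjoint_left.2 fun w hw hw' => hne ?_
    simp only [f, pairCyl, Set.mem_prod, cyl_append, Set.mem_inter_iff, Set.mem_preimage] at hw hw'
    have u1 : p.1 = p'.1 := by
      have e1 := (mem_cyl_iff _ _).1 hw.1.2
      have e2 := (mem_cyl_iff _ _).1 hw'.1.2
      have := firstPass_unique (((2 * N + 1 : ℕ) : ℤ)) (shift la.length w.1) p.1.length p'.1.length
        (by rw [e1]; exact hp.1.1) (by rw [e2]; exact hp'.1.1)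
      rw [← e1, ← e2, this]
    have u2 : p.2 = p'.2 := by
      have e1 := (mem_cyl_iff _ _).1 hw.2.2
      have e2 := (mem_cyl_iff _ _).1 hw'.2.2
      have := firstPass_unique (((2 * N + 1 : ℕ) : ℤ)) (shift lb.length w.2) p.2.length p'.2.length
        (by rw [e1]; exact hp.2.1.1) (by rw [e2]; exact hp'.2.1.1)
      rw [← e1, ← e2, this]
    simp only [f, u1, u2]
  · rw [tsum_image (fun e => pw μ 0 e) finj.injOn]
    have hfac : ∀ p : P, pw μ 0 (f p.1) = c0 * (W μ p.1.1 * W μ p.1.2) := by
      rintro ⟨⟨u, v⟩, hu, hv, huv⟩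
      have e : ∀ ω, qw ω 0 (la ++ u) * qw ω 0 (lb ++ v) =
          (qw ω 0 la * qw ω 0 lb) * (qw ω z u * qw ω (z + y) v) := fun ω => by
        rw [qw_append, qw_append, zero_add, zero_add, ← hz, hzb, add_comm y z]; ring
      simp only [pw, f, e]
      rw [lintegral_mul_of_disjoint {w | lev ℓ w < lev ℓ z}
        (measurable_pw_aux 0 (la, lb)) ((measurable_qw z u).fun_mul (measurable_qw (z + y) v))]
      · congr 1
        calc ∫⁻ ω, qw ω z u * qw ω (z + y) v ∂envLaw μ
            = ∫⁻ ω, qw ω 0 u * qw ω y v ∂envLaw μ := by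
              conv_rhs => rw [← envLaw_map_tau (μ := μ) z]
              rw [lintegral_map (measurable_pw_aux y (u, v)) (measurable_tau _)]
              simp only [qw_tau, add_zero]
          _ = W μ u * W μ v := by
              rw [lintegral_mul_of_disjoint {w | w ∈ srcs 0 u} (measurable_qw 0 u)
                (measurable_qw y v) (fun ω η h => qw_congr h)
                (fun ω η h => qw_congr fun w hw => h w ?_)]
              · congr 1
                rw [W]
                conv_rhs => rw [← envLaw_map_tau (μ := μ) y]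
                rw [lintegral_map (measurable_qw 0 v) (measurable_tau _)]
                simp only [qw_tau, add_zero]
              · intro hw'
                obtain ⟨i', hi', rfl⟩ := mem_srcs.1 hw
                obtain ⟨i, hi, he2⟩ := mem_srcs.1 (show y + endPt (v.take i') ∈ srcs 0 u from hw')
                rw [zero_add] at he2
                exact huv i hi.le i' hi'.le he2.symm
      · intro ω η h
        rw [qw_congr (l := la) (ω := ω) (η := η) fun w hw => h w ?_,
          qw_congr (l := lb) (ω := ω) (η := η) fun w hw => h w ?_]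
        · obtain ⟨i, hi, rfl⟩ := mem_srcs.1 hw
          simp only [Set.mem_ofPred_eq, zero_add]
          exact (lb_lev i hi.le).2.2 hi
        · obtain ⟨i, hi, rfl⟩ := mem_srcs.1 hw
          simp only [Set.mem_ofPred_eq, zero_add]
          exact (la_lev i hi.le).2.2 hi
      · intro ω η h
        rw [qw_congr (l := u) (ω := ω) (η := η) fun w hw => h w ?_,
          qw_congr (l := v) (ω := ω) (η := η) fun w hw => h w ?_]
        · obtain ⟨i, hi, rfl⟩ := mem_srcs.1 hw
          have := hv.2 i hi.le
          simp only [Set.mem_ofPred_eq, not_lt, map_add, hy, Lt] at this ⊢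
          linarith
        · obtain ⟨i, hi, rfl⟩ := mem_srcs.1 hw
          have := hu.2 i hi.le
          simp only [Set.mem_ofPred_eq, not_lt, map_add, Lt] at this ⊢
          linarith
    simp only [hfac]
    rw [ENNReal.tsum_mul_left]
    gcongr
    exact (mul_le_mul' le_rfl hy2).trans (passPair_mass hp y (Nat.succ_pos _))

end Vale.Agent.P147
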