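import Vale.Agent.P147.Range
import Vale.Agent.P147.Ergodic

/-!
Second moment of the flux of record points, and the one-sided zero-one law.
-/

noncomputable section

namespace Vale.Agent.P147

open MeasureTheory ProbabilityTheory Filter
open scoped ENNReal Topology

variable {d : ℕ} {μ : Measure (Row d)} {ℓ : Fin d → ℤ}

/-- Pairs of paths, the second one started at `δ`: annealed weight. -/
def pw (μ : Measure (Row d)) (δ : Fin d → ℤ) (p : List (Dir d) × List (Dir d)) : ℝ≥0∞ :=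
  ∫⁻ ω, qw ω 0 p.1 * qw ω δ p.2 ∂envLaw μ

/-- Pairs of trajectories with given beginnings. -/
def pairCyl (p : List (Dir d) × List (Dir d)) : Set (Walk d × Walk d) := cyl p.1 ×ˢ cyl p.2

lemma measurableSet_pairCyl (p : List (Dir d) × List (Dir d)) : MeasurableSet (pairCyl p) :=
  (measurableSet_cyl _).prod (measurableSet_cyl _)

/-- Two walks in the same environment. -/
def sameEnv (ω : Env d) (δ : Fin d → ℤ) : Measure (Walk d × Walk d) :=
  (quenched ω).prod (quenched (tau δ ω))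

lemma sameEnv_pairCyl (ω : Env d) (δ : Fin d → ℤ) (p : List (Dir d) × List (Dir d)) :
    sameEnv ω δ (pairCyl p) = qw ω 0 p.1 * qw ω δ p.2 := by
  rw [sameEnv, pairCyl, Measure.prod_prod, quenched_cyl, quenched_cyl, qw_tau, add_zero]

lemma measurable_pw_aux (δ : Fin d → ℤ) (p : List (Dir d) × List (Dir d)) :
    Measurable fun ω : Env d => qw ω 0 p.1 * qw ω δ p.2 :=
  (measurable_qw 0 p.1).fun_mul (measurable_qw δ p.2)

section paths

/-- A path staying at nonnegative levels and ending at a strict maximum, in a window of levels,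
with a bounded number of sites. -/
def Win (ℓ : Fin d → ℤ) (N M : ℕ) : Set (List (Dir d)) :=
  {l | (∀ i ≤ l.length, 0 ≤ Lt ℓ l i) ∧ (∀ i < l.length, Lt ℓ l i < lev ℓ (endPt l)) ∧
    (N : ℤ) < lev ℓ (endPt l) ∧ lev ℓ (endPt l) ≤ 2 * N ∧ (visited l).card ≤ M}

/-- Paths ending at a new site, with at most `M` sites. -/
def NewSite (d M : ℕ) : Set (List (Dir d)) :=
  {l | (∀ i < l.length, endPt (l.take i) ≠ endPt l) ∧ (visited l).card ≤ M}

lemma take_pre (s : Walk d) {i n : ℕ} (h : i ≤ n) : (pre s n).take i = pre s i :=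
  List.ext_getElem (by simp; omega) fun j h1 h2 => by simp [getElem_pre]

lemma visited_pre_mono (s : Walk d) {a b : ℕ} (h : a ≤ b) :
    visited (pre s a) ⊆ visited (pre s b) := by
  intro x hx
  obtain ⟨i, hi, rfl⟩ := mem_visited.1 hx
  rw [length_pre] at hi
  exact mem_visited.2 ⟨i, by simpa using hi.trans h,
    by rw [take_pre s (hi.trans h), take_pre s hi]⟩

lemma newSite_unique {M : ℕ} (s : Walk d) (a b : ℕ) (ha : pre s a ∈ NewSite d M)
    (hb : pre s b ∈ NewSite d M) (he : (visited (pre s a)).card = (visited (pre s b)).card) :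
    a = b := by
  by_contra hne
  wlog hab : a < b generalizing a b
  · exact this b a hb ha he.symm (Ne.symm hne) (by omega)
  have hsub := visited_pre_mono s hab.le
  have hmem : pos s b ∈ visited (pre s b) :=
    mem_visited.2 ⟨b, by simp, by rw [take_pre s le_rfl, endPt_pre]⟩
  rw [← Finset.eq_of_subset_of_card_le hsub he.ge] at hmem
  obtain ⟨i, hi, hie⟩ := mem_visited.1 hmem
  rw [length_pre] at hi
  rw [take_pre s hi, endPt_pre] at hie
  have h := hb.1 i (by simp; omega)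
  rw [endPt_take_pre s (by omega : i ≤ b), endPt_pre] at h
  exact h hie

lemma cyl_nonempty (hd : 0 < d) (l : List (Dir d)) : (cyl l).Nonempty :=
  ⟨fun i => if h : i < l.length then l[i] else (⟨0, hd⟩, true), fun i h => by simp [h]⟩

variable [IsProbabilityMeasure μ]

theorem sum_newSite_le (M : ℕ) : ∑' l : NewSite d M, W μ l.1 ≤ M := by
  classical
  set S := fun j : ℕ => {l : List (Dir d) | l ∈ NewSite d M ∧ (visited l).card = j}
  have hcov : NewSite d M ⊆ ⋃ j ∈ Finset.Icc 1 M, S j := by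
    intro l hl
    refine Set.mem_biUnion (x := (visited l).card) ?_ ⟨hl, rfl⟩
    exact Finset.mem_Icc.2 ⟨Finset.card_pos.2 ⟨_, mem_visited.2 ⟨0, Nat.zero_le _, rfl⟩⟩, hl.2⟩
  calc ∑' l : NewSite d M, W μ l.1
      ≤ ∑' l : ↥(⋃ j ∈ Finset.Icc 1 M, S j), W μ l.1 := ENNReal.tsum_mono_subtype (W μ) hcov
    _ ≤ ∑ j ∈ Finset.Icc 1 M, ∑' l : S j, W μ l.1 := ENNReal.tsum_biUnion_le (W μ) _ S
    _ ≤ ∑ _j ∈ Finset.Icc 1 M, (1 : ℝ≥0∞) := by
        refine Finset.sum_le_sum fun j _ => ?_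
        refine (tsum_W_le (E := Set.univ) ?_ fun l _ => Set.subset_univ _).trans prob_le_one
        exact fun s a b ha hb => newSite_unique s a b ha.1 hb.1 (ha.2.trans hb.2.symm)
    _ = M := by simp

/-- Escape pairs from a common record: no common site above `H` and both leave the window. -/
structure IsEscape (ℓ : Fin d → ℤ) (H N : ℕ) (EP : Set (List (Dir d) × List (Dir d))) :
    Prop where
  nonneg : ∀ p ∈ EP, (∀ i ≤ p.1.length, 0 ≤ Lt ℓ p.1 i) ∧ ∀ i ≤ p.2.length, 0 ≤ Lt ℓ p.2 i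
  high : ∀ p ∈ EP, (2 * N : ℤ) < lev ℓ (endPt p.1) ∧ (2 * N : ℤ) < lev ℓ (endPt p.2)
  apart : ∀ p ∈ EP, ∀ i ≤ p.1.length, ∀ i' ≤ p.2.length, (H : ℤ) < Lt ℓ p.1 i →
    endPt (p.1.take i) ≠ endPt (p.2.take i')
  free : EP.PairwiseDisjoint pairCyl

/-- Window pairs with common end point. -/
def Common (ℓ : Fin d → ℤ) (N M : ℕ) (δ : Fin d → ℤ) : Set (List (Dir d) × List (Dir d)) :=
  {p | p.1 ∈ Win ℓ N M ∧ p.2 ∈ Win ℓ N M ∧ endPt p.1 - endPt p.2 = δ}

/-- First meetings of two traces. -/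
def Meets (d M : ℕ) (δ : Fin d → ℤ) : Set (List (Dir d) × List (Dir d)) :=
  {p | p.1 ∈ NewSite d M ∧ p.2 ∈ NewSite d M ∧ endPt p.1 - endPt p.2 = δ ∧
    ∀ z ∈ srcs δ p.2, z ∉ srcs 0 p.1}

lemma pw_meets {M : ℕ} {δ : Fin d → ℤ} {p : List (Dir d) × List (Dir d)} (hp : p ∈ Meets d M δ) :
    pw μ δ p = W μ p.1 * W μ p.2 := by
  rw [pw, lintegral_mul_of_disjoint {z | z ∈ srcs 0 p.1} (measurable_qw 0 p.1)
    (measurable_qw δ p.2) (fun ω η h => qw_congr h)
    (fun ω η h => qw_congr fun z hz => h z (hp.2.2.2 z hz))]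
  congr 1
  rw [W]
  conv_rhs => rw [← envLaw_map_tau (μ := μ) δ]
  rw [lintegral_map (measurable_qw 0 p.2) (measurable_tau _)]
  simp only [qw_tau, add_zero]

lemma sum_meets_le (M : ℕ) :
    ∑' δ, ∑' p : Meets d M δ, W μ p.1.1 * W μ p.1.2 ≤ (M : ℝ≥0∞) * M := by
  rw [← ENNReal.tsum_sigma' (fun x : Σ δ, Meets d M δ => W μ x.2.1.1 * W μ x.2.1.2)]
  let f : (Σ δ, Meets d M δ) → NewSite d M × NewSite d M := fun x =>
    (⟨x.2.1.1, x.2.2.1⟩, ⟨x.2.1.2, x.2.2.2.1⟩)
  have hf : Function.Injective f := by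
    rintro ⟨δ, ⟨⟨a, b⟩, h⟩⟩ ⟨δ', ⟨⟨a', b'⟩, h'⟩⟩ he
    simp only [f, Prod.mk.injEq, Subtype.mk.injEq] at he
    obtain ⟨rfl, rfl⟩ := he
    obtain rfl : δ = δ' := h.2.2.1.symm.trans h'.2.2.1
    rfl
  refine (ENNReal.tsum_comp_le_tsum_of_injective hf
    fun q : NewSite d M × NewSite d M => W μ q.1.1 * W μ q.2.1).trans ?_
  rw [ENNReal.tsum_prod (f := fun (a b : NewSite d M) => W μ a.1 * W μ b.1)]
  simp only [ENNReal.tsum_mul_left, ENNReal.tsum_mul_right]
  exact mul_le_mul' (sum_newSite_le M) (sum_newSite_le M)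

lemma exists_meet {N M : ℕ} {δ : Fin d → ℤ} {p : List (Dir d) × List (Dir d)}
    (hp : p ∈ Common ℓ N M δ) {x : Walk d × Walk d} (hx : x ∈ pairCyl p) :
    ∃ q ∈ Meets d M δ, x ∈ pairCyl q := by
  classical
  obtain ⟨⟨-, -, -, -, hM1⟩, ⟨-, -, -, -, hM2⟩, hδ⟩ := hp
  obtain ⟨hx1, hx2⟩ := hx
  have e1 := (mem_cyl_iff _ _).1 hx1
  have e2 := (mem_cyl_iff _ _).1 hx2
  set T := p.1.length
  set T' := p.2.length
  have hex : ∃ i', i' ≤ T' ∧ ∃ i, i ≤ T ∧ pos x.1 i = δ + pos x.2 i' :=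
    ⟨T', le_rfl, T, le_rfl, by rw [← endPt_pre, ← endPt_pre, e1, e2, ← hδ, sub_add_cancel]⟩
  obtain ⟨ht', hex2⟩ := Nat.find_spec hex
  set t' := Nat.find hex
  obtain ⟨ht, hte⟩ := Nat.find_spec hex2
  set t := Nat.find hex2
  refine ⟨(pre x.1 t, pre x.2 t'), ⟨⟨fun i hi => ?_, ?_⟩, ⟨fun i hi => ?_, ?_⟩, ?_, ?_⟩,
    by simp [mem_cyl_iff], by simp [mem_cyl_iff]⟩
  · simp only [length_pre] at hi
    rw [endPt_take_pre _ hi.le, endPt_pre]
    exact fun he => Nat.find_min hex2 hi ⟨hi.le.trans ht, he.trans hte⟩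
  · rw [← e1] at hM1
    exact (Finset.card_le_card (visited_pre_mono _ ht)).trans hM1
  · simp only [length_pre] at hi
    rw [endPt_take_pre _ hi.le, endPt_pre]
    exact fun he => Nat.find_min hex hi ⟨hi.le.trans ht', t, ht, by rw [he]; exact hte⟩
  · rw [← e2] at hM2
    exact (Finset.card_le_card (visited_pre_mono _ ht')).trans hM2
  · show endPt (pre x.1 t) - endPt (pre x.2 t') = δ
    rw [endPt_pre, endPt_pre, hte, add_sub_cancel_right]
  · intro z hz hz'
    obtain ⟨i', hi', rfl⟩ := mem_srcs.1 hz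
    obtain ⟨i, hi, he⟩ := mem_srcs.1 hz'
    simp only [length_pre] at hi hi'
    rw [endPt_take_pre _ hi'.le, endPt_take_pre _ hi.le, zero_add] at he
    exact Nat.find_min hex hi' ⟨hi'.le.trans ht', i, hi.le.trans ht, he.symm⟩

/-- Within a residue class of levels, escapes after different common records are exclusive. -/
theorem common_class_le (hd : 0 < d) {H N M : ℕ} {EP : Set (List (Dir d) × List (Dir d))}
    (hEP : IsEscape ℓ H N EP) (δ : Fin d → ℤ) (r : Fin (H + 1)) :
    (∑' e : EP, pw μ 0 e.1) * ∑' p : {p ∈ Common ℓ N M δ |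
        lev ℓ (endPt p.1) % ((H + 1 : ℕ) : ℤ) = (r : ℕ)}, pw μ δ p.1 ≤
      ∑' q : Meets d M δ, W μ q.1.1 * W μ q.1.2 := by
  classical
  set P := {p ∈ Common ℓ N M δ | lev ℓ (endPt p.1) % ((H + 1 : ℕ) : ℤ) = (r : ℕ)}
  set C : P × EP → Set (Walk d × Walk d) := fun x =>
    pairCyl (x.1.1.1 ++ x.2.1.1, x.1.1.2 ++ x.2.1.2) with hC
  have hprod : ∀ x : P × EP, pw μ δ x.1.1 * pw μ 0 x.2.1 =
      pw μ δ (x.1.1.1 ++ x.2.1.1, x.1.1.2 ++ x.2.1.2) := by
    rintro ⟨⟨⟨l, l'⟩, ⟨⟨hl, hl', hδ⟩, -⟩⟩, ⟨⟨m, m'⟩, hm⟩⟩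
    dsimp only at hδ ⊢
    obtain ⟨hn1, hn2⟩ := hEP.nonneg _ hm
    set z := endPt l with hz
    have hz' : δ + endPt l' = z := by rw [← hδ, sub_add_cancel]
    have e : ∀ ω, qw ω 0 (l ++ m) * qw ω δ (l' ++ m') =
        (qw ω 0 l * qw ω δ l') * (qw ω z m * qw ω z m') := fun ω => by
      rw [qw_append, qw_append, zero_add, hz']; ring
    simp only [pw, e]
    rw [lintegral_mul_of_disjoint {w | lev ℓ w < lev ℓ z}
      (measurable_pw_aux δ (l, l')) ((measurable_qw z m).fun_mul (measurable_qw z m'))]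
    · congr 1
      conv_lhs => rw [← envLaw_map_tau (μ := μ) z]
      rw [lintegral_map ((measurable_qw 0 m).fun_mul (measurable_qw 0 m')) (measurable_tau _)]
      simp only [qw_tau, add_zero]
    · intro ω η h
      rw [qw_congr (l := l) (ω := ω) (η := η) fun w hw => h w ?_,
        qw_congr (l := l') (ω := ω) (η := η) fun w hw => h w ?_]
      · obtain ⟨i, hi, rfl⟩ := mem_srcs.1 hw
        have := hl'.2.1 i hi
        simp only [Set.mem_ofPred_eq, map_add, ← hz', Lt] at this ⊢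
        linarith
      · obtain ⟨i, hi, rfl⟩ := mem_srcs.1 hw
        simp only [Set.mem_ofPred_eq, zero_add]
        exact hl.2.1 i hi
    · intro ω η h
      rw [qw_congr (l := m) (ω := ω) (η := η) fun w hw => h w ?_,
        qw_congr (l := m') (ω := ω) (η := η) fun w hw => h w ?_]
      · obtain ⟨i, hi, rfl⟩ := mem_srcs.1 hw
        have := hn2 i hi.le
        simp only [Set.mem_ofPred_eq, not_lt, map_add, Lt] at this ⊢
        linarith
      · obtain ⟨i, hi, rfl⟩ := mem_srcs.1 hw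
        have := hn1 i hi.le
        simp only [Set.mem_ofPred_eq, not_lt, map_add, Lt] at this ⊢
        linarith
  have hdis : Pairwise (Function.onFun Disjoint C) := by
    intro x x' hne
    refine Set.disjoint_left.2 fun w hw hw' => hne ?_
    obtain ⟨⟨⟨l, l'⟩, hp⟩, ⟨⟨m, m'⟩, hm⟩⟩ := x
    obtain ⟨⟨⟨k, k'⟩, hp'⟩, ⟨⟨n, n'⟩, hn⟩⟩ := x'
    simp only [C, pairCyl, Set.mem_prod, cyl_append, Set.mem_inter_iff, Set.mem_preimage] at hw hw'
    have key : ∀ {l l' m m' k k' : List (Dir d)}, (l, l') ∈ P → (k, k') ∈ P → (m, m') ∈ EP →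
        w.1 ∈ cyl l → shift l.length w.1 ∈ cyl m → w.2 ∈ cyl l' →
        shift l'.length w.2 ∈ cyl m' → w.1 ∈ cyl k → w.2 ∈ cyl k' → ¬ l.length < k.length := by
      intro l l' m m' k k' hp hp' hm a1 a2 b1 b2 c1 c2 hlt
      obtain ⟨⟨hl, hl', hδ⟩, hr⟩ := hp
      obtain ⟨⟨hk, hk', hδ'⟩, hr'⟩ := hp'
      dsimp only at hδ hδ' hr hr' hl hl' hk hk'
      obtain ⟨hh1, hh2⟩ := hEP.high _ hm
      dsimp only at hh1 hh2
      have p1 : ∀ i ≤ k.length, pos w.1 i = endPt (k.take i) := fun i hi => pos_of_mem_cyl c1 hi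
      have p2 : ∀ i ≤ k'.length, pos w.2 i = endPt (k'.take i) := fun i hi => pos_of_mem_cyl c2 hi
      have q1 : pos w.1 l.length = endPt l := by rw [pos_of_mem_cyl a1 le_rfl, List.take_length]
      have q2 : pos w.2 l'.length = endPt l' := by rw [pos_of_mem_cyl b1 le_rfl, List.take_length]
      have hlev : lev ℓ (endPt l) < lev ℓ (endPt k) := by
        have h := hk.2.1 _ hlt
        simp only [Lt, ← p1 _ hlt.le, q1] at h
        exact h
      have hlev' : lev ℓ (endPt l') < lev ℓ (endPt k') := by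
        have h1 := congrArg (lev ℓ) (hδ.trans hδ'.symm)
        rw [map_sub, map_sub] at h1
        linarith
      have hlt' : l'.length < k'.length := by
        by_contra hc
        have h := pos_of_mem_cyl b1 (not_lt.1 hc)
        have e : pos w.2 k'.length = endPt k' := by rw [p2 _ le_rfl, List.take_length]
        rcases (not_lt.1 hc).lt_or_eq with hh | hh
        · have := hl'.2.1 _ hh
          simp only [Lt, ← h, e] at this
          linarith
        · rw [e] at h
          rw [h, hh, List.take_length] at hlev'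
          exact lt_irrefl _ hlev'
      obtain ⟨i, hi⟩ := Nat.exists_eq_add_of_le hlt.le
      obtain ⟨i', hi'⟩ := Nat.exists_eq_add_of_le hlt'.le
      have s1 : ∀ j, j ≤ m.length →
          lev ℓ (pos w.1 (l.length + j)) = lev ℓ (endPt l) + Lt ℓ m j := by
        intro j hj
        rw [lev_pos_shift, q1, pos_of_mem_cyl a2 hj]; rfl
      have s2 : ∀ j, j ≤ m'.length →
          lev ℓ (pos w.2 (l'.length + j)) = lev ℓ (endPt l') + Lt ℓ m' j := by
        intro j hj
        rw [lev_pos_shift, q2, pos_of_mem_cyl b2 hj]; rfl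
      have him : i ≤ m.length := by
        by_contra hc
        have h := hk.2.1 (l.length + m.length) (by omega)
        have h2 := s1 m.length le_rfl
        rw [Lt_length, p1 _ (by omega)] at h2
        simp only [Lt] at h
        have := hk.2.2.2.1
        have := hl.2.2.1
        have : (0 : ℤ) ≤ N := Int.natCast_nonneg N
        linarith
      have him' : i' ≤ m'.length := by
        by_contra hc
        have h := hk'.2.1 (l'.length + m'.length) (by omega)
        have h2 := s2 m'.length le_rfl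
        rw [Lt_length, p2 _ (by omega)] at h2
        simp only [Lt] at h
        have := hk'.2.2.2.1
        have := hl'.2.2.1
        have : (0 : ℤ) ≤ N := Int.natCast_nonneg N
        linarith
      have r1 : endPt k = endPt l + endPt (m.take i) := by
        have h := p1 k.length le_rfl
        rw [List.take_length, hi, pos_add, q1, pos_of_mem_cyl a2 him] at h
        exact h.symm
      have r2 : endPt k' = endPt l' + endPt (m'.take i') := by
        have h := p2 k'.length le_rfl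
        rw [List.take_length, hi', pos_add, q2, pos_of_mem_cyl b2 him'] at h
        exact h.symm
      refine hEP.apart _ hm i him i' him' ?_ ?_
      · have h1 : lev ℓ (endPt k) - lev ℓ (endPt l) = Lt ℓ m i := by
          rw [r1, map_add]; simp [Lt]
        have hdvd : ((H + 1 : ℕ) : ℤ) ∣ lev ℓ (endPt k) - lev ℓ (endPt l) :=
          Int.ModEq.dvd (hr.trans hr'.symm)
        have := Int.le_of_dvd (by linarith) hdvd
        push_cast at this
        linarith
      · have h := hδ'.trans hδ.symm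
        rw [r1, r2] at h
        show endPt (m.take i) = endPt (m'.take i')
        rw [show endPt l + endPt (List.take i m) - (endPt l' + endPt (List.take i' m')) =
          (endPt l - endPt l') + (endPt (List.take i m) - endPt (List.take i' m')) by abel] at h
        exact sub_eq_zero.1 (add_eq_left.1 h)
    obtain ⟨⟨a1, a2⟩, ⟨b1, b2⟩⟩ := hw
    obtain ⟨⟨c1, c2⟩, ⟨e1, e2⟩⟩ := hw'
    have hlen : l.length = k.length := le_antisymm
      (not_lt.1 (key hp' hp hn c1 c2 e1 e2 a1 b1)) (not_lt.1 (key hp hp' hm a1 a2 b1 b2 c1 e1))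
    have hlk : l = k := ((mem_cyl_iff _ _).1 a1).symm.trans (hlen ▸ (mem_cyl_iff _ _).1 c1)
    have hlk' : l' = k' := by
      have hlev : lev ℓ (endPt l') = lev ℓ (endPt k') := by
        have h1 := congrArg (lev ℓ) (hp.1.2.2.trans hp'.1.2.2.symm)
        simp only [map_sub, hlk] at h1
        linarith
      rcases lt_trichotomy l'.length k'.length with hh | hh | hh
      · have := hp'.1.2.1.2.1 _ hh
        simp only [Lt, ← pos_of_mem_cyl e1 hh.le, pos_of_mem_cyl b1 le_rfl, List.take_length] at this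
        linarith
      · exact ((mem_cyl_iff _ _).1 b1).symm.trans (hh ▸ (mem_cyl_iff _ _).1 e1)
      · have := hp.1.2.1.2.1 _ hh
        simp only [Lt, ← pos_of_mem_cyl b1 hh.le, pos_of_mem_cyl e1 le_rfl, List.take_length] at this
        linarith
    subst hlk hlk'
    have hmn : (m, m') = (n, n') := by
      by_contra h
      exact Set.disjoint_left.1 (hEP.free hm hn h)
        (show (shift l.length w.1, shift l'.length w.2) ∈ pairCyl (m, m') from ⟨a2, b2⟩) ⟨c2, e2⟩
    cases hmn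
    rfl
  have hsub : (⋃ x, C x) ⊆ ⋃ q : Meets d M δ, pairCyl q.1 := by
    intro w hw
    obtain ⟨⟨p, e⟩, hwp⟩ := Set.mem_iUnion.1 hw
    simp only [C, pairCyl, Set.mem_prod, cyl_append, Set.mem_inter_iff] at hwp
    obtain ⟨q, hq, hwq⟩ := exists_meet p.2.1 (show w ∈ pairCyl p.1 from ⟨hwp.1.1, hwp.2.1⟩)
    exact Set.mem_iUnion.2 ⟨⟨q, hq⟩, hwq⟩
  calc (∑' e : EP, pw μ 0 e.1) * ∑' p : P, pw μ δ p.1
      = ∑' x : P × EP, pw μ δ x.1.1 * pw μ 0 x.2.1 := by
        rw [ENNReal.tsum_prod (f := fun (p : P) (e : EP) => pw μ δ p.1 * pw μ 0 e.1), mul_comm,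
          ← ENNReal.tsum_mul_right]
        exact tsum_congr fun p => ENNReal.tsum_mul_left.symm
    _ = ∫⁻ ω, ∑' x : P × EP, sameEnv ω δ (C x) ∂envLaw μ := by
        rw [lintegral_tsum fun x => (by
          simp only [C, sameEnv_pairCyl]
          exact (measurable_pw_aux δ (x.1.1.1 ++ x.2.1.1, x.1.1.2 ++ x.2.1.2)).aemeasurable)]
        exact tsum_congr fun x => by rw [hprod]; simp only [pw, C, sameEnv_pairCyl]
    _ ≤ ∫⁻ ω, ∑' q : Meets d M δ, sameEnv ω δ (pairCyl q.1) ∂envLaw μ := by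
        refine lintegral_mono fun ω => ?_
        rw [← measure_iUnion hdis fun x => measurableSet_pairCyl _]
        exact (measure_mono hsub).trans (measure_iUnion_le _)
    _ = ∑' q : Meets d M δ, W μ q.1.1 * W μ q.1.2 := by
        rw [lintegral_tsum fun q => (by
          simp only [sameEnv_pairCyl]; exact (measurable_pw_aux δ q.1).aemeasurable)]
        exact tsum_congr fun q => by rw [← pw_meets q.2]; simp only [pw, sameEnv_pairCyl]

/-- The expected number of walks having a record at the origin within the window. -/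
def flux (ℓ : Fin d → ℤ) (N M : ℕ) (ω : Env d) : ℝ≥0∞ :=
  ∑' l : Win ℓ N M, qw ω (-endPt l.1) l.1

lemma measurable_flux (N M : ℕ) : Measurable (flux ℓ N M) :=
  Measurable.ennreal_tsum fun l => measurable_qw _ _

theorem lintegral_flux_sq_le (hd : 0 < d) {H N M : ℕ}
    {EP : Set (List (Dir d) × List (Dir d))} (hEP : IsEscape ℓ H N EP) :
    (∑' e : EP, pw μ 0 e.1) * ∫⁻ ω, flux ℓ N M ω * flux ℓ N M ω ∂envLaw μ ≤
      ((H + 1 : ℕ) : ℝ≥0∞) * ((M : ℝ≥0∞) * M) := by
  classical
  set c := ∑' e : EP, pw μ 0 e.1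
  set S := Win ℓ N M
  have key : ∫⁻ ω, flux ℓ N M ω * flux ℓ N M ω ∂envLaw μ =
      ∑' x : S × S, pw μ (endPt x.1.1 - endPt x.2.1) (x.1.1, x.2.1) := by
    have e : ∀ ω, flux ℓ N M ω * flux ℓ N M ω =
        ∑' x : S × S, qw ω (-endPt x.1.1) x.1.1 * qw ω (-endPt x.2.1) x.2.1 := fun ω => by
      rw [ENNReal.tsum_prod (f := fun (a b : S) => qw ω (-endPt a.1) a.1 * qw ω (-endPt b.1) b.1)]
      simp only [flux, ENNReal.tsum_mul_left, ENNReal.tsum_mul_right]
      rfl
    simp only [e]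
    rw [lintegral_tsum fun x =>
      ((measurable_qw _ _).fun_mul (measurable_qw _ _)).aemeasurable]
    refine tsum_congr fun x => ?_
    rw [pw]
    conv_rhs => rw [← envLaw_map_tau (μ := μ) (-endPt x.1.1)]
    rw [lintegral_map (measurable_pw_aux _ (x.1.1, x.2.1)) (measurable_tau _)]
    refine lintegral_congr fun ω => ?_
    simp only [qw_tau, add_zero]
    congr 2
    abel
  rw [key]
  let cls : S × S → (Fin d → ℤ) × Fin (H + 1) := fun x =>
    (endPt x.1.1 - endPt x.2.1, ⟨(lev ℓ (endPt x.1.1) % ((H + 1 : ℕ) : ℤ)).toNat, by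
      have h1 := Int.emod_lt_of_pos (lev ℓ (endPt x.1.1))
        (show (0 : ℤ) < ((H + 1 : ℕ) : ℤ) by positivity)
      have h2 := Int.emod_nonneg (lev ℓ (endPt x.1.1))
        (show ((H + 1 : ℕ) : ℤ) ≠ 0 by positivity)
      omega⟩)
  rw [← (Equiv.sigmaFiberEquiv cls).tsum_eq, ENNReal.tsum_sigma', ← ENNReal.tsum_mul_left]
  calc ∑' y : (Fin d → ℤ) × Fin (H + 1), c * ∑' x : {x // cls x = y},
        pw μ (endPt x.1.1.1 - endPt x.1.2.1) (x.1.1.1, x.1.2.1)
      ≤ ∑' y : (Fin d → ℤ) × Fin (H + 1), ∑' q : Meets d M y.1, W μ q.1.1 * W μ q.1.2 := by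
        refine ENNReal.tsum_le_tsum fun y => le_trans (mul_le_mul' le_rfl ?_)
          (common_class_le hd hEP y.1 y.2)
        let f : {x // cls x = y} → {p ∈ Common ℓ N M y.1 |
            lev ℓ (endPt p.1) % ((H + 1 : ℕ) : ℤ) = (y.2 : ℕ)} := fun x =>
          ⟨(x.1.1.1, x.1.2.1), ⟨x.1.1.2, x.1.2.2, congrArg Prod.fst x.2⟩, by
            have h := congrArg (fun v : Fin (H + 1) => (v : ℕ)) (congrArg Prod.snd x.2)
            simp only [cls] at h
            have h2 := Int.emod_nonneg (lev ℓ (endPt x.1.1.1))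
              (show ((H + 1 : ℕ) : ℤ) ≠ 0 by positivity)
            show lev ℓ (endPt x.1.1.1) % ((H + 1 : ℕ) : ℤ) = (y.2 : ℕ)
            rw [← h, Int.toNat_of_nonneg h2]⟩
        have hf : Function.Injective f := by
          rintro ⟨⟨a, b⟩, ha⟩ ⟨⟨a', b'⟩, hb⟩ he
          simp only [f, Subtype.mk.injEq, Prod.mk.injEq] at he
          exact Subtype.ext (Prod.ext (Subtype.ext he.1) (Subtype.ext he.2))
        refine le_trans (le_of_eq (tsum_congr fun x => ?_))
          (ENNReal.tsum_comp_le_tsum_of_injective hf fun p => pw μ y.1 p.1)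
        show pw μ _ _ = pw μ y.1 (x.1.1.1, x.1.2.1)
        rw [show endPt x.1.1.1 - endPt x.1.2.1 = y.1 from congrArg Prod.fst x.2]
    _ = ((H + 1 : ℕ) : ℝ≥0∞) * ∑' δ, ∑' q : Meets d M δ, W μ q.1.1 * W μ q.1.2 := by
        rw [ENNReal.tsum_prod', ← ENNReal.tsum_mul_left]
        exact tsum_congr fun δ => by simp
    _ ≤ _ := mul_le_mul' le_rfl (sum_meets_le M)

end paths

end Vale.Agent.P147
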