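import Vale.Agent.P147.Escape

/-!
The one-sided zero-one law for transience with linearly growing range, in dimension at least four.
-/

noncomputable section

namespace Vale.Agent.P147

open MeasureTheory ProbabilityTheory Filter
open scoped ENNReal Topology

variable {d : ℕ} {μ : Measure (Row d)} {ℓ : Fin d → ℤ} [IsProbabilityMeasure μ]

/-- Quenched probability of failing to escape in direction `ℓ`. -/
def fm (ℓ : Fin d → ℤ) (ω : Env d) : ℝ≥0∞ := quenched ω (Ap ℓ)ᶜ

omit [IsProbabilityMeasure μ] in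
lemma measurable_fm (ℓ : Fin d → ℤ) : Measurable (fm ℓ) :=
  (Measure.measurable_coe (measurableSet_Ap ℓ).compl).comp measurable_quenched

lemma lintegral_qw_shift (l : List (Dir d)) {f : Env d → ℝ≥0∞} (hf : Measurable f) :
    ∫⁻ ω, qw ω (-endPt l) l * f ω ∂envLaw μ =
      ∫⁻ ω, qw ω 0 l * f (tau (endPt l) ω) ∂envLaw μ := by
  conv_lhs => rw [← envLaw_map_tau (μ := μ) (endPt l)]
  rw [lintegral_map ((measurable_qw _ l).fun_mul hf) (measurable_tau _)]
  simp only [qw_tau, add_neg_cancel]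

/-- The mean flux is at least proportional to the number of levels. -/
theorem lintegral_flux_ge {C n : ℕ} (hℓ : 0 < stepBound ℓ) :
    (n : ℝ≥0∞) * annealed μ (Dp ℓ ∩ LinRangeC ℓ C) ≤
      ∫⁻ ω, flux ℓ (stepBound ℓ * n) (C * (2 * (stepBound ℓ * n) + 1)) ω ∂envLaw μ := by
  classical
  set a := stepBound ℓ with ha
  set N := a * n with hN
  set M := C * (2 * N + 1) with hM
  have e : ∫⁻ ω, flux ℓ N M ω ∂envLaw μ = ∑' l : Win ℓ N M, W μ l.1 := by
    simp only [flux]
    rw [lintegral_tsum fun l => (measurable_qw _ _).aemeasurable]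
    refine tsum_congr fun l => ?_
    have h := lintegral_qw_shift (μ := μ) l.1 (f := fun _ => 1) measurable_const
    simp only [mul_one] at h
    exact h
  rw [e]
  let m : Fin n → ℤ := fun t => (N : ℤ) + 1 + (t : ℕ) * a
  let S : Fin n → Set (List (Dir d)) := fun t => firstPass ℓ (m t) ∩ Win ℓ N M
  have hm0 : ∀ t, 0 < m t := fun t => by simp only [m]; positivity
  have hdis : Pairwise (Function.onFun Disjoint S) := by
    intro t t' hne
    refine Set.disjoint_left.2 fun l hl hl' => hne ?_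
    have h1 := hl.1.1
    have h2 := hl'.1.1
    have h3 := firstPass_lt (hm0 t) hl.1
    have h4 := firstPass_lt (hm0 t') hl'.1
    simp only [m, ← ha] at h1 h2 h3 h4
    have key : ∀ x y : ℕ, x < y → (x : ℤ) * a + a ≤ (y : ℤ) * a := fun x y hxy => by
      have h : (x : ℤ) + 1 ≤ y := by exact_mod_cast hxy
      nlinarith [Int.natCast_nonneg a]
    rcases lt_trichotomy (t : ℕ) t' with h | h | h
    · have := key _ _ h; linarith
    · exact Fin.ext h
    · have := key _ _ h; linarith
  have hS : ∀ t, annealed μ (Dp ℓ ∩ LinRangeC ℓ C) ≤ ∑' l : S t, W μ l.1 := by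
    intro t
    simp only [← annealed_cyl]
    refine le_trans (measure_mono ?_) (measure_iUnion_le _)
    rintro s ⟨hs, hC⟩
    obtain ⟨b, hb⟩ := exists_firstPass (ℓ := ℓ) (s := s) (m t)
      ((Filter.tendsto_atTop.1 hs.2 (m t)).exists)
    have hlt := firstPass_lt (hm0 t) hb
    have hlow := hb.1
    have hmt : m t + a ≤ 2 * N + 1 := by
      have h : ((t : ℕ) : ℤ) + 1 ≤ n := by exact_mod_cast t.2
      have h2 : (N : ℤ) = a * n := by exact_mod_cast hN
      simp only [m]
      nlinarith [Int.natCast_nonneg a]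
    have hlow2 : (N : ℤ) + 1 ≤ m t := by
      simp only [m]; exact le_add_of_nonneg_right (by positivity)
    refine Set.mem_iUnion.2 ⟨⟨pre s b, hb, fun i hi => ?_, ?_, by linarith, by linarith, ?_⟩,
      by simp [mem_cyl_iff]⟩
    · rw [length_pre] at hi
      rw [Lt_pre s hi]; exact hs.1 i
    · exact firstPass_last hb
    · refine (hC b (2 * N) fun i hi => ?_).trans_eq rfl
      rw [endPt_pre] at hlt
      rcases hi.lt_or_eq with h | h
      · have h1 := hb.2 i (by simpa using h)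
        rw [Lt_pre s hi] at h1
        push_cast
        linarith
      · subst h; push_cast; linarith
  calc (n : ℝ≥0∞) * annealed μ (Dp ℓ ∩ LinRangeC ℓ C)
      = ∑ _t : Fin n, annealed μ (Dp ℓ ∩ LinRangeC ℓ C) := by simp
    _ ≤ ∑ t : Fin n, ∑' l : S t, W μ l.1 := Finset.sum_le_sum fun t _ => hS t
    _ = ∑' x : (t : Fin n) × S t, W μ x.2.1 := by rw [ENNReal.tsum_sigma', tsum_fintype]
    _ ≤ ∑' l : Win ℓ N M, W μ l.1 := by
      refine ENNReal.tsum_comp_le_tsum_of_injective
        (f := fun x : (t : Fin n) × S t => (⟨x.2.1, x.2.2.2⟩ : Win ℓ N M)) ?_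
        (fun l : Win ℓ N M => W μ l.1)
      rintro ⟨t, l, hl⟩ ⟨t', l', hl'⟩ h
      simp only [Subtype.mk.injEq] at h
      subst h
      obtain rfl : t = t' := by
        by_contra hne
        exact Set.disjoint_left.1 (hdis hne) hl hl'
      rfl

/-- Environments where the end point does not escape carry little flux. -/
theorem lintegral_flux_bad_le (N M : ℕ) (η : ℝ≥0∞) :
    η * ∫⁻ ω, flux ℓ N M ω * {w | η < fm ℓ w}.indicator 1 ω ∂envLaw μ ≤
      (N : ℝ≥0∞) * annealed μ (High ℓ N ∩ (Ap ℓ)ᶜ) := by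
  classical
  set F := {w : Env d | η < fm ℓ w} with hF
  have hFm : MeasurableSet F := measurableSet_lt measurable_const (measurable_fm ℓ)
  have hind : Measurable (F.indicator (1 : Env d → ℝ≥0∞)) := measurable_one.indicator hFm
  set E := High ℓ N ∩ (Ap ℓ)ᶜ
  have hE : MeasurableSet E := (measurableSet_high ℓ N).inter (measurableSet_Ap ℓ).compl
  have hterm : ∀ l : List (Dir d), Measurable fun ω : Env d =>
      qw ω 0 l * F.indicator 1 (tau (endPt l) ω) := fun l =>
    (measurable_qw _ _).fun_mul (hind.comp (measurable_tau _))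
  have e : ∫⁻ ω, flux ℓ N M ω * F.indicator 1 ω ∂envLaw μ =
      ∫⁻ ω, ∑' l : Win ℓ N M, qw ω 0 l.1 * F.indicator 1 (tau (endPt l.1) ω) ∂envLaw μ := by
    simp only [flux, ← ENNReal.tsum_mul_right]
    rw [lintegral_tsum fun l => ((measurable_qw _ _).fun_mul hind).aemeasurable,
      lintegral_tsum fun l : Win ℓ N M => (hterm l.1).aemeasurable]
    exact tsum_congr fun l => lintegral_qw_shift l.1 hind
  rw [e, ← lintegral_const_mul η (Measurable.tsum fun l : Win ℓ N M => hterm l.1), annealed_apply hE,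
    ← lintegral_const_mul _ (by exact (Measure.measurable_coe hE).comp measurable_quenched)]
  refine lintegral_mono fun ω => ?_
  let Q : List (Dir d) → Prop := fun l => (N : ℤ) < lev ℓ (endPt l) ∧ tau (endPt l) ω ∈ F
  let S : Set (List (Dir d)) := {l | Q l ∧ ∀ i < l.length, ¬Q (l.take i)}
  have hSu : ∀ s : Walk d, ∀ a b, pre s a ∈ S → pre s b ∈ S → a = b := by
    intro s a b ha hb
    by_contra hne
    wlog hab : a < b generalizing a b
    · exact this b a hb ha (Ne.symm hne) (by omega)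
    have h := hb.2 a (by simpa using hab)
    rw [take_pre s hab.le] at h
    exact h ha.1
  have key : η * ∑' l : S, qw ω 0 l.1 ≤ quenched ω E := by
    rw [← ENNReal.tsum_mul_left]
    calc ∑' l : S, η * qw ω 0 l.1
        ≤ ∑' l : S, quenched ω (cyl l.1 ∩ shift l.1.length ⁻¹' (Ap ℓ)ᶜ) := by
          refine ENNReal.tsum_le_tsum fun l => ?_
          rw [quenched_markov _ _ (measurableSet_Ap ℓ).compl, mul_comm η]
          have h : η < fm ℓ (tau (endPt l.1) ω) := l.2.1.2
          exact mul_le_mul' le_rfl h.le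
      _ = quenched ω (⋃ l : S, cyl l.1 ∩ shift l.1.length ⁻¹' (Ap ℓ)ᶜ) :=
          (measure_iUnion (fun l l' h => (cyl_pairwise_disjoint hSu h).mono Set.inter_subset_left
            Set.inter_subset_left) fun l => (measurableSet_cyl _).inter
            (measurable_shift _ (measurableSet_Ap ℓ).compl)).symm
      _ ≤ quenched ω E := by
          refine measure_mono (Set.iUnion_subset fun l s hs => ⟨⟨l.1.length, ?_⟩, ?_⟩)
          · rw [pos_of_mem_cyl hs.1 le_rfl, List.take_length]
            exact l.2.1.1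
          · exact fun hA => hs.2 ((shift_mem_Ap_iff s _).2 hA)
  let T : ℤ → Set (List (Dir d)) := fun j =>
    {l | l ∈ Win ℓ N M ∧ lev ℓ (endPt l) = j ∧ tau (endPt l) ω ∈ F}
  have hT : ∀ j, ∑' l : T j, qw ω 0 l.1 ≤ ∑' l : S, qw ω 0 l.1 := by
    intro j
    have hTu : ∀ s : Walk d, ∀ a b, pre s a ∈ T j → pre s b ∈ T j → a = b := by
      intro s a b ha hb
      by_contra hne
      wlog hab : a < b generalizing a b
      · exact this b a hb ha (Ne.symm hne) (by omega)
      have h1 := hb.1.2.1 a (by simpa using hab)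
      rw [Lt_pre s hab.le, hb.2.1] at h1
      have h2 := ha.2.1
      rw [endPt_pre] at h2
      omega
    simp only [← quenched_cyl]
    rw [← measure_iUnion (cyl_pairwise_disjoint hTu) fun l => measurableSet_cyl _]
    refine le_trans (measure_mono ?_) (measure_iUnion_le _)
    intro s hs
    obtain ⟨⟨l, hl⟩, hsl⟩ := Set.mem_iUnion.1 hs
    have hQ : Q (pre s l.length) := by
      rw [(mem_cyl_iff _ _).1 hsl]; exact ⟨hl.1.2.2.1, hl.2.2⟩
    have hex : ∃ t, Q (pre s t) := ⟨_, hQ⟩
    refine Set.mem_iUnion.2 ⟨⟨pre s (Nat.find hex), Nat.find_spec hex, fun i hi => ?_⟩,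
      by simp [mem_cyl_iff]⟩
    rw [length_pre] at hi
    rw [take_pre s hi.le]
    exact Nat.find_min hex hi
  have hsum : ∑' l : Win ℓ N M, qw ω 0 l.1 * F.indicator 1 (tau (endPt l.1) ω) ≤
      (N : ℝ≥0∞) * ∑' l : S, qw ω 0 l.1 := by
    have h1 : ∑' l : Win ℓ N M, qw ω 0 l.1 * F.indicator 1 (tau (endPt l.1) ω) ≤
        ∑' l : ↥(⋃ j ∈ Finset.Icc ((N : ℤ) + 1) (2 * N), T j), qw ω 0 l.1 := by
      rw [tsum_subtype (Win ℓ N M) (fun l => qw ω 0 l * F.indicator 1 (tau (endPt l) ω)),
        tsum_subtype (⋃ j ∈ Finset.Icc ((N : ℤ) + 1) (2 * N), T j) (fun l => qw ω 0 l)]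
      refine ENNReal.tsum_le_tsum fun l => ?_
      by_cases hl : l ∈ Win ℓ N M
      · rw [Set.indicator_of_mem hl]
        by_cases hf : tau (endPt l) ω ∈ F
        · rw [Set.indicator_of_mem hf, Pi.one_apply, mul_one, Set.indicator_of_mem]
          exact Set.mem_biUnion (x := lev ℓ (endPt l))
            (Finset.mem_Icc.2 ⟨hl.2.2.1, hl.2.2.2.1⟩) ⟨hl, rfl, hf⟩
        · rw [Set.indicator_of_notMem hf, mul_zero]; exact zero_le
      · rw [Set.indicator_of_notMem hl]; exact zero_le
    refine (h1.trans (ENNReal.tsum_biUnion_le (fun l => qw ω 0 l) _ T)).trans ?_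
    refine (Finset.sum_le_sum fun j _ => hT j).trans ?_
    rw [Finset.sum_const, nsmul_eq_mul]
    gcongr
    rw [Int.card_Icc]
    omega
  calc η * ∑' l : Win ℓ N M, qw ω 0 l.1 * F.indicator 1 (tau (endPt l.1) ω)
      ≤ η * ((N : ℝ≥0∞) * ∑' l : S, qw ω 0 l.1) := mul_le_mul' le_rfl hsum
    _ = (N : ℝ≥0∞) * (η * ∑' l : S, qw ω 0 l.1) := by ring
    _ ≤ _ := mul_le_mul' le_rfl key

lemma ae_qw_ne_zero (he : IsElliptic μ) (l : List (Dir d)) :
    ∀ᵐ ω ∂envLaw μ, qw ω 0 l ≠ 0 := by
  have h1 : ∀ᵐ ω ∂envLaw μ, ∀ (z : Fin d → ℤ) e, 0 < (ω z).1 e := by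
    rw [ae_all_iff]
    intro z
    exact (measurePreserving_eval_infinitePi (fun _ : Fin d → ℤ => μ) z
      ).quasiMeasurePreserving.ae he
  filter_upwards [h1] with ω hω
  suffices ∀ x, qw ω x l ≠ 0 from this 0
  induction l with
  | nil => simp [qw]
  | cons e l ih => intro x; simp [qw, hω x e, ih]

/-- The set of environments where escape is certain is translation invariant. -/
lemma fm_zero_invariant (he : IsElliptic μ) (x : Fin d → ℤ) :
    tau x ⁻¹' {w | fm ℓ w = 0} =ᵐ[envLaw μ] {w | fm ℓ w = 0} := by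
  obtain ⟨l, rfl⟩ := exists_path x
  set G := {w : Env d | fm ℓ w = 0}
  have hG : MeasurableSet G := measurable_fm ℓ (measurableSet_singleton 0)
  have hle : G ≤ᵐ[envLaw μ] tau (endPt l) ⁻¹' G := by
    filter_upwards [ae_qw_ne_zero he l] with ω hω hGω
    have h : quenched ω (cyl l ∩ shift l.length ⁻¹' (Ap ℓ)ᶜ) = 0 :=
      measure_mono_null (fun s hs => fun hA => hs.2 ((shift_mem_Ap_iff s _).2 hA)) hGω
    rw [quenched_markov _ _ (measurableSet_Ap ℓ).compl] at h
    exact (mul_eq_zero.1 h).resolve_left hω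
  refine (ae_eq_of_ae_subset_of_measure_ge hle ?_ hG.nullMeasurableSet (measure_ne_top _ _)).symm
  rw [← Measure.map_apply (measurable_tau _) hG, envLaw_map_tau]

/-- Certain escape has positive environment probability. -/
theorem fm_zero_pos (hd : 4 ≤ d) (he : IsElliptic μ) (hp : annealed μ (Dp ℓ) ≠ 0)
    (hG : annealed μ (Dp ℓ ∩ LinRange ℓ) ≠ 0) : envLaw μ {w | fm ℓ w = 0} ≠ 0 := by
  classical
  intro hzero
  obtain ⟨C, hC⟩ : ∃ C, annealed μ (Dp ℓ ∩ LinRangeC ℓ C) ≠ 0 := by
    by_contra hc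
    push Not at hc
    refine hG (measure_mono_null (t := ⋃ C : ℕ, Dp ℓ ∩ LinRangeC ℓ C) ?_
      (measure_iUnion_null hc))
    rw [linRange_eq, Set.inter_iUnion]
  obtain ⟨H, c', hc', hEP⟩ := exists_escape hd he hp hG
  have ha : 0 < stepBound ℓ := by
    obtain ⟨e, -, hee, -⟩ := exists_up (ne_zero_of_Dp hp)
    have h := (le_abs_self _).trans (abs_lev_dirVec_le ℓ e)
    omega
  set a := stepBound ℓ
  set δ := annealed μ (Dp ℓ ∩ LinRangeC ℓ C) with hδdef
  set c := min c' 1 with hcdef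
  have hc : c ≠ 0 := (lt_min (pos_iff_ne_zero.2 hc') one_pos).ne'
  have hct : c ≠ ⊤ := ne_top_of_le_ne_top ENNReal.one_ne_top (min_le_right _ _)
  set K : ℕ := (H + 1) * ((3 * C * a) * (3 * C * a)) with hK
  set A : ℝ≥0∞ → Set (Env d) := fun η => {w | fm ℓ w ≤ η}
  have main : ∀ (Y n : ℕ) (η : ℝ≥0∞), 1 ≤ n →
      η * (c * Y * δ) ≤ c * Y * a * annealed μ (High ℓ (a * n) ∩ (Ap ℓ)ᶜ) +
        η * (K + c * (Y * Y) * envLaw μ (A η)) := by
    intro Y n η hn
    set N := a * n with hN
    set M := C * (2 * N + 1) with hM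
    set U := flux ℓ N M
    set P := envLaw μ
    obtain ⟨EP, hesc, hEPc⟩ := hEP N
    set B := {w : Env d | η < fm ℓ w}
    have hB : MeasurableSet B := measurableSet_lt measurable_const (measurable_fm ℓ)
    have hA : MeasurableSet (A η) := measurableSet_le (measurable_fm ℓ) measurable_const
    have h1 : (n : ℝ≥0∞) * δ ≤
        ∫⁻ ω, U ω * B.indicator 1 ω ∂P + ∫⁻ ω, U ω * (A η).indicator 1 ω ∂P := by
      rw [← lintegral_add_left ((measurable_flux N M).fun_mul (measurable_one.indicator hB))]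
      refine (lintegral_flux_ge ha).trans (lintegral_mono fun ω => ?_)
      by_cases h : ω ∈ B
      · rw [Set.indicator_of_mem h, Pi.one_apply, mul_one]; exact le_self_add
      · have h' : ω ∈ A η := le_of_not_gt (show ¬η < fm ℓ ω from h)
        rw [Set.indicator_of_notMem h, Set.indicator_of_mem h', Pi.one_apply, mul_one]
        exact le_add_self
    have h2 : η * ∫⁻ ω, U ω * B.indicator 1 ω ∂P ≤ (N : ℝ≥0∞) * annealed μ (High ℓ N ∩ (Ap ℓ)ᶜ) :=
      lintegral_flux_bad_le N M η
    set X : ℝ≥0∞ := ((n * Y : ℕ) : ℝ≥0∞)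
    have h3 : X * ∫⁻ ω, U ω * (A η).indicator 1 ω ∂P ≤
        ∫⁻ ω, U ω * U ω ∂P + X * X * P (A η) := by
      rw [← lintegral_indicator_one hA, ← lintegral_const_mul _ (measurable_one.indicator hA),
        ← lintegral_add_left ((measurable_flux N M).fun_mul (measurable_flux N M)),
        ← lintegral_const_mul _ ((measurable_flux N M).fun_mul (measurable_one.indicator hA))]
      refine lintegral_mono fun ω => ?_
      by_cases h : ω ∈ A η
      · simp only [Set.indicator_of_mem h, Pi.one_apply, mul_one]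
        rcases le_total (U ω) X with h' | h'
        · exact (mul_le_mul' le_rfl h').trans le_add_self
        · exact (mul_le_mul' h' le_rfl).trans le_self_add
      · simp [Set.indicator_of_notMem h]
    have h4 : c * ∫⁻ ω, U ω * U ω ∂P ≤ (n : ℝ≥0∞) * n * K := by
      refine (mul_le_mul' ((min_le_left _ _).trans hEPc) le_rfl).trans
        ((lintegral_flux_sq_le (by omega) hesc).trans ?_)
      have hMn : M ≤ 3 * C * a * n := by
        have : 1 ≤ N := Nat.one_le_iff_ne_zero.2 (Nat.mul_ne_zero (by omega) (by omega))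
        calc M ≤ C * (3 * N) := Nat.mul_le_mul_left _ (by omega)
          _ = 3 * C * a * n := by rw [hN]; ring
      have : (H + 1) * (M * M) ≤ n * n * K := by
        calc (H + 1) * (M * M) ≤ (H + 1) * ((3 * C * a * n) * (3 * C * a * n)) := by gcongr
          _ = n * n * K := by rw [hK]; ring
      exact_mod_cast this
    have hn0 : (n : ℝ≥0∞) * n ≠ 0 := by simp; omega
    refine (ENNReal.mul_le_mul_iff_right hn0 (by simp [ENNReal.mul_ne_top])).1 ?_
    have hX : X = n * Y := Nat.cast_mul n Y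
    have hN' : (N : ℝ≥0∞) = a * n := Nat.cast_mul a n
    calc (n : ℝ≥0∞) * n * (η * (c * Y * δ))
        = η * c * X * (n * δ) := by rw [hX]; ring
      _ ≤ η * c * X *
          (∫⁻ ω, U ω * B.indicator 1 ω ∂P + ∫⁻ ω, U ω * (A η).indicator 1 ω ∂P) :=
          mul_le_mul' le_rfl h1
      _ = c * X * (η * ∫⁻ ω, U ω * B.indicator 1 ω ∂P) +
          η * (c * (X * ∫⁻ ω, U ω * (A η).indicator 1 ω ∂P)) := by ring
      _ ≤ c * X * ((N : ℝ≥0∞) * annealed μ (High ℓ N ∩ (Ap ℓ)ᶜ)) +
          η * (c * (∫⁻ ω, U ω * U ω ∂P + X * X * P (A η))) := by gcongr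
      _ ≤ c * X * ((N : ℝ≥0∞) * annealed μ (High ℓ N ∩ (Ap ℓ)ᶜ)) +
          η * ((n : ℝ≥0∞) * n * K + c * (X * X * P (A η))) := by
          rw [mul_add c]; gcongr
      _ = _ := by rw [hX, hN']; ring
  have hstep : ∀ (Y : ℕ) (η : ℝ≥0∞), η ≠ 0 → η ≠ ⊤ →
      c * Y * δ ≤ K + c * (Y * Y) * envLaw μ (A η) := by
    intro Y η hη hηt
    refine (ENNReal.mul_le_mul_iff_right hη hηt).1 ?_
    have hlim : Tendsto (fun n => c * Y * a * annealed μ (High ℓ (a * n) ∩ (Ap ℓ)ᶜ) +
        η * (K + c * (Y * Y) * envLaw μ (A η))) atTop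
        (𝓝 (c * Y * a * 0 + η * (K + c * (Y * Y) * envLaw μ (A η)))) := by
      refine Tendsto.add (ENNReal.Tendsto.const_mul ?_ (Or.inr (by simp [ENNReal.mul_ne_top, hct])))
        tendsto_const_nhds
      exact (tendsto_high_not_Ap hp).comp
        (tendsto_atTop_mono (fun n => Nat.le_mul_of_pos_left n ha) tendsto_id)
    rw [mul_zero, zero_add] at hlim
    exact ge_of_tendsto hlim (eventually_atTop.2 ⟨1, fun n hn => main Y n η hn⟩)
  set ηk : ℕ → ℝ≥0∞ := fun k => ((k + 1 : ℕ) : ℝ≥0∞)⁻¹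
  have hAlim : Tendsto (fun k => envLaw μ (A (ηk k))) atTop (𝓝 0) := by
    have anti : Antitone fun k => A (ηk k) := fun i j hij w hw =>
      le_trans (show fm ℓ w ≤ ηk j from hw) (ENNReal.inv_le_inv.2 (Nat.cast_le.2 (by omega)))
    have h0 : ⋂ k, A (ηk k) = {w | fm ℓ w = 0} := by
      ext w
      simp only [Set.mem_iInter, A, Set.mem_ofPred_eq]
      have ht : Tendsto ηk atTop (𝓝 0) :=
        ENNReal.tendsto_inv_nat_nhds_zero.comp (tendsto_add_atTop_nat 1)
      exact ⟨fun h => le_antisymm (ge_of_tendsto' ht h) bot_le, fun h k => by simp [h]⟩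
    have := tendsto_measure_iInter_atTop (μ := envLaw μ) (fun k =>
      (measurableSet_le (measurable_fm ℓ) measurable_const).nullMeasurableSet) anti
      ⟨0, measure_ne_top _ _⟩
    rwa [h0, hzero] at this
  have hY : ∀ Y : ℕ, c * Y * δ ≤ K := by
    intro Y
    have h : Tendsto (fun k => (K : ℝ≥0∞) + c * (Y * Y) * envLaw μ (A (ηk k))) atTop
        (𝓝 (K + c * (Y * Y) * 0)) :=
      tendsto_const_nhds.add
        (ENNReal.Tendsto.const_mul hAlim (Or.inr (by simp [ENNReal.mul_ne_top, hct])))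
    rw [mul_zero, add_zero] at h
    exact ge_of_tendsto' h fun k => hstep Y _ (by simp [ηk]) (by simp [ηk])
  obtain ⟨Y, hY'⟩ := ENNReal.exists_nat_mul_gt (mul_ne_zero hc hC) (ENNReal.natCast_ne_top K)
  refine absurd (hY Y) (not_le.2 (hY'.trans_eq ?_))
  ring

/-- Transience with linearly growing range of positive probability is almost sure. -/
theorem Ap_one (hd : 4 ≤ d) (he : IsElliptic μ)
    (h : annealed μ (Ap ℓ ∩ LinRange ℓ) ≠ 0) : annealed μ (Ap ℓ) = 1 := by
  have hg := annealed_Dp_inter_ne_zero ((measurableSet_Ap ℓ).inter (measurableSet_linRange ℓ))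
    Set.inter_subset_left
    (fun s hs a => ⟨(shift_mem_Ap_iff s a).2 hs.1, linRange_shift s hs.2 a⟩) h
  have hp : annealed μ (Dp ℓ) ≠ 0 := fun h' => hg (measure_mono_null Set.inter_subset_left h')
  have hG : annealed μ (Dp ℓ ∩ LinRange ℓ) ≠ 0 := fun h' =>
    hg (measure_mono_null (fun s hs => by exact ⟨hs.1, hs.2.2⟩) h')
  have hGm : MeasurableSet {w : Env d | fm ℓ w = 0} :=
    measurable_fm ℓ (measurableSet_singleton 0)
  have h1 := (envLaw_invariant (by omega) hGm (fm_zero_invariant he)).resolve_left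
    (fm_zero_pos hd he hp hG)
  rw [← prob_compl_eq_zero_iff (measurableSet_Ap ℓ), annealed_apply (measurableSet_Ap ℓ).compl]
  refine (lintegral_eq_zero_iff (measurable_fm ℓ)).2 ?_
  exact (ae_iff_measure_eq hGm.nullMeasurableSet).2 (h1.trans measure_univ.symm)

end Vale.Agent.P147
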