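import Vale.Agent.P147.TwoWalk

/-!
Intersections of the traces of two walks: first moment bounds.
-/

noncomputable section

namespace Vale.Agent.P147

open MeasureTheory ProbabilityTheory Filter
open scoped ENNReal Topology

set_option linter.unusedSectionVars false

variable {d : ℕ} {α β : Type*} [MeasurableSpace α] [MeasurableSingletonClass α] [Countable α]
  [MeasurableSpace β] [MeasurableSingletonClass β] [Countable β]

/-- The pieces `i` and `j` of the two walks, the second one started at `y`, intersect. -/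
def Hit (A : Side α d) (B : Side β d) (y : Fin d → ℤ) (p : ℕ × ℕ) :
    Set ((ℕ → α) × (ℕ → β)) :=
  {x | ∃ a ∈ A.pts (x.1 p.1), ∃ b ∈ B.pts (x.2 p.2), A.S x.1 p.1 + a = y + B.S x.2 p.2 + b}

/-- Some pair of pieces with indices in `I` intersects. -/
def HitIn (A : Side α d) (B : Side β d) (y : Fin d → ℤ) (I : Set (ℕ × ℕ)) :
    Set ((ℕ → α) × (ℕ → β)) := ⋃ p ∈ I, Hit A B y p

lemma Side.hit_dep (A : Side α d) (B : Side β d) (y : Fin d → ℤ) {p : ℕ × ℕ} {N M : ℕ}
    (hN : p.1 < N) (hM : p.2 < M) {ω ω' : ℕ → α} {η η' : ℕ → β} (e1 : head N ω = head N ω')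
    (e2 : head M η = head M η') (h : (ω, η) ∈ Hit A B y p) : (ω', η') ∈ Hit A B y p := by
  obtain ⟨a, ha, b, hb, he⟩ := h
  have h1 : ω p.1 = ω' p.1 := congrFun e1 ⟨p.1, hN⟩
  have h2 : η p.2 = η' p.2 := congrFun e2 ⟨p.2, hM⟩
  refine ⟨a, ?_, b, ?_, ?_⟩
  · simpa [← h1] using ha
  · simpa [← h2] using hb
  · simp only at he ⊢
    rwa [← A.S_congr hN.le e1, ← B.S_congr hM.le e2]

lemma measurableSet_of_dep {E : Set ((ℕ → α) × (ℕ → β))} (N M : ℕ)
    (h : ∀ ω ω' η η', head N ω = head N ω' → head M η = head M η' → (ω, η) ∈ E → (ω', η') ∈ E) :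
    MeasurableSet E := by
  have : E = (fun x => (head N x.1, head M x.2)) ⁻¹'
      ((fun x : (ℕ → α) × (ℕ → β) => (head N x.1, head M x.2)) '' E) := by
    ext x
    refine ⟨fun hx => ⟨x, hx, rfl⟩, ?_⟩
    rintro ⟨z, hz, he⟩
    simp only [Prod.mk.injEq] at he
    exact h z.1 x.1 z.2 x.2 he.1 he.2 hz
  rw [this]
  exact (((measurable_head N).comp measurable_fst).prodMk ((measurable_head M).comp measurable_snd))
    (Set.to_countable _).measurableSet

lemma measurableSet_hit (A : Side α d) (B : Side β d) (y : Fin d → ℤ) (p : ℕ × ℕ) :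
    MeasurableSet (Hit A B y p) :=
  measurableSet_of_dep (p.1 + 1) (p.2 + 1) fun _ _ _ _ e1 e2 h =>
    A.hit_dep B y (by omega) (by omega) e1 e2 h

lemma measurableSet_hitIn (A : Side α d) (B : Side β d) (y : Fin d → ℤ) (I : Set (ℕ × ℕ)) :
    MeasurableSet (HitIn A B y I) :=
  MeasurableSet.biUnion I.to_countable fun p _ => measurableSet_hit A B y p

lemma match_dep (A : Side α d) (B : Side β d) (w : Fin d → ℤ) (p : ℕ × ℕ) :
    ∀ ω ω' η η', head p.1 ω = head p.1 ω' → head p.2 η = head p.2 η' →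
      (ω, η) ∈ Match A B w p → (ω', η') ∈ Match A B w p := by
  intro ω ω' η η' e1 e2 h
  show A.S ω' p.1 = B.S η' p.2 + w
  rw [← A.S_congr le_rfl e1, ← B.S_congr le_rfl e2]; exact h

lemma prob_values (A : Side α d) (B : Side β d) (u : α) (v : β) :
    pairLaw A B {x | x.1 0 = u ∧ x.2 0 = v} = A.law u * B.law v := by
  have : {x : (ℕ → α) × (ℕ → β) | x.1 0 = u ∧ x.2 0 = v} =
      {ω : ℕ → α | ω 0 = u} ×ˢ {η : ℕ → β | η 0 = v} := by ext; simp
  rw [this, pairLaw, Measure.prod_prod]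
  have hA := seqLaw_head_eq A.law 1 (fun _ => u)
  have hB := seqLaw_head_eq B.law 1 (fun _ => v)
  have eA : {ω : ℕ → α | ω 0 = u} = {ω | head 1 ω = fun _ => u} := by
    ext ω; simp [head, funext_iff]
  have eB : {η : ℕ → β | η 0 = v} = {η | head 1 η = fun _ => v} := by
    ext ω; simp [head, funext_iff]
  rw [eA, eB, hA, hB]; simp

/-- The weight of a pair of blocks, paired with a function of the offsets of their sites. -/
def offsets (A : Side α d) (B : Side β d) (y : Fin d → ℤ) (F : (Fin d → ℤ) → ℝ≥0∞)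
    (uv : α × β) : ℝ≥0∞ :=
  A.law uv.1 * B.law uv.2 * ∑ a ∈ A.pts uv.1, ∑ b ∈ B.pts uv.2, F (y + b - a)

lemma hit_inter_le (A : Side α d) (B : Side β d) (y : Fin d → ℤ) (p : ℕ × ℕ) (S : Set (α × β)) :
    pairLaw A B (Hit A B y p ∩ {x | (x.1 p.1, x.2 p.2) ∈ S}) ≤
      ∑' uv : S, offsets A B y (fun w => pairLaw A B (Match A B w p)) uv.1 := by
  set G : α × β → Set ((ℕ → α) × (ℕ → β)) := fun uv => {x | x.1 0 = uv.1 ∧ x.2 0 = uv.2} with hG
  have hGm : ∀ uv, MeasurableSet (G uv) := fun uv =>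
    measurableSet_of_dep 1 1 fun ω ω' η η' e1 e2 h => by
      have h1 : ω 0 = ω' 0 := congrFun e1 ⟨0, one_pos⟩
      have h2 : η 0 = η' 0 := congrFun e2 ⟨0, one_pos⟩
      exact ⟨h1.symm.trans h.1, h2.symm.trans h.2⟩
  have cover : Hit A B y p ∩ {x | (x.1 p.1, x.2 p.2) ∈ S} ⊆ ⋃ uv : S,
      ⋃ a ∈ A.pts uv.1.1, ⋃ b ∈ B.pts uv.1.2,
        Match A B (y + b - a) p ∩ shiftPair p ⁻¹' G uv.1 := by
    rintro x ⟨⟨a, ha, b, hb, he⟩, hS⟩
    simp only [Set.mem_iUnion]
    refine ⟨⟨_, hS⟩, a, ha, b, hb, ?_, ?_⟩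
    · show A.S x.1 p.1 = B.S x.2 p.2 + (y + b - a)
      rw [eq_sub_of_add_eq he]; abel
    · simp [G, shiftPair]
  refine (measure_mono cover).trans ((measure_iUnion_le _).trans (ENNReal.tsum_le_tsum fun uv => ?_))
  refine (measure_biUnion_finset_le _ _).trans ?_
  rw [offsets, Finset.mul_sum]
  refine Finset.sum_le_sum fun a _ => (measure_biUnion_finset_le _ _).trans ?_
  rw [Finset.mul_sum]
  refine Finset.sum_le_sum fun b _ => le_of_eq ?_
  rw [prob_shift A B p (measurableSet_match A B _ p) (hGm _) (match_dep A B _ p), prob_values,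
    mul_comm]

lemma sum_offsets (A : Side α d) (B : Side β d) (y : Fin d → ℤ) (I : Set (ℕ × ℕ)) (uv : α × β) :
    ∑' p : I, offsets A B y (fun w => pairLaw A B (Match A B w p.1)) uv =
      offsets A B y (fun w => cnt A B w I) uv := by
  simp only [offsets, cnt, ENNReal.tsum_mul_left]
  congr 1
  rw [Summable.tsum_finsetSum fun _ _ => ENNReal.summable]
  exact Finset.sum_congr rfl fun a _ => Summable.tsum_finsetSum fun _ _ => ENNReal.summable

/-- First moment bound for intersections. -/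
theorem sum_hit_le (A : Side α d) (B : Side β d) (y : Fin d → ℤ) (I : Set (ℕ × ℕ))
    (S : Set (α × β)) :
    ∑' p : I, pairLaw A B (Hit A B y p.1 ∩ {x | (x.1 p.1.1, x.2 p.1.2) ∈ S}) ≤
      ∑' uv : S, offsets A B y (fun w => cnt A B w I) uv.1 := by
  calc _ ≤ ∑' p : I, ∑' uv : S, offsets A B y (fun w => pairLaw A B (Match A B w p.1)) uv.1 :=
        ENNReal.tsum_le_tsum fun p => hit_inter_le A B y p.1 S
    _ = _ := by
        rw [ENNReal.tsum_comm]
        exact tsum_congr fun uv => sum_offsets A B y I uv.1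

theorem measure_hitIn_le (A : Side α d) (B : Side β d) (y : Fin d → ℤ) (I : Set (ℕ × ℕ)) :
    pairLaw A B (HitIn A B y I) ≤ ∑' uv, offsets A B y (fun w => cnt A B w I) uv := by
  refine le_trans ?_ ((sum_hit_le A B y I Set.univ).trans (le_of_eq (tsum_univ _)))
  refine (measure_biUnion_le _ I.to_countable _).trans (ENNReal.tsum_le_tsum fun p => ?_)
  exact measure_mono fun x hx => ⟨hx, trivial⟩

/-- Product of the mean numbers of sites. -/
def kappa (A : Side α d) (B : Side β d) : ℝ≥0∞ :=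
  (∑' u, A.law u * ((A.pts u).card : ℝ≥0∞)) * ∑' v, B.law v * ((B.pts v).card : ℝ≥0∞)

variable {L : (Fin d → ℤ) →+ ℤ} {A : Side α d} {B : Side β d}

lemma kappa_ne_top (hA : Good L A) (hB : Good L B) : kappa A B ≠ ⊤ :=
  ENNReal.mul_ne_top hA.meanCard hB.meanCard

lemma tsum_offsets_const (y : Fin d → ℤ) (c : ℝ≥0∞) :
    ∑' uv, offsets A B y (fun _ => c) uv = c * kappa A B := by
  simp only [offsets, Finset.sum_const, nsmul_eq_mul]
  rw [ENNReal.tsum_prod', kappa, ← ENNReal.tsum_mul_right, ← ENNReal.tsum_mul_left]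
  refine tsum_congr fun u => ?_
  rw [← ENNReal.tsum_mul_left, ← ENNReal.tsum_mul_left]
  exact tsum_congr fun v => by ring

lemma offsets_mono (y : Fin d → ℤ) {F G : (Fin d → ℤ) → ℝ≥0∞} (h : ∀ w, F w ≤ G w) (uv : α × β) :
    offsets A B y F uv ≤ offsets A B y G uv := by
  unfold offsets; gcongr; exact h _

lemma cnt_mono (w : Fin d → ℤ) {I J : Set (ℕ × ℕ)} (h : I ⊆ J) :
    cnt A B w I ≤ cnt A B w J :=
  ENNReal.tsum_mono_subtype (fun p => pairLaw A B (Match A B w p)) h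

lemma cnt_union_le (w : Fin d → ℤ) (I J : Set (ℕ × ℕ)) :
    cnt A B w (I ∪ J) ≤ cnt A B w I + cnt A B w J :=
  ENNReal.tsum_union_le (fun p => pairLaw A B (Match A B w p)) I J

lemma cnt_strip (w : Fin d → ℤ) (T : Finset ℕ) :
    cnt A B w {p | p.1 ∈ T} = ∑ i ∈ T, ∑' j, pairLaw A B (Match A B w (i, j)) := by
  rw [cnt, tsum_subtype {p : ℕ × ℕ | p.1 ∈ T} (fun p => pairLaw A B (Match A B w p)),
    ENNReal.tsum_prod']
  rw [tsum_eq_sum (s := T)]
  · refine Finset.sum_congr rfl fun i hi => tsum_congr fun j => ?_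
    rw [Set.indicator_of_mem (by exact hi)]
  · intro i hi
    exact ENNReal.tsum_eq_zero.2 fun j => Set.indicator_of_notMem (by exact hi) _

/-- Meetings in a window with an index in `[N, R N)` have bounded expected number. -/
theorem cnt_window_le (hA : Good L A) (hB : Good L B) :
    ∃ C : ℝ≥0∞, C ≠ ⊤ ∧ ∀ (w : Fin d → ℤ) (R N : ℕ),
      cnt A B w {p | p.1 < R * N ∧ p.2 < R * N ∧ (N ≤ p.1 ∨ N ≤ p.2)} ≤ (R : ℝ≥0∞) * C := by
  obtain ⟨CA, hCA, hbA⟩ := sum_match_le hA hB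
  obtain ⟨CB, hCB, hbB⟩ := sum_match_le hB hA
  refine ⟨CA + CB, ENNReal.add_ne_top.2 ⟨hCA, hCB⟩, fun w R N => ?_⟩
  set T := Finset.Ico N (R * N) with hT
  have key : ∀ (f : ℕ → ℝ≥0∞) (C : ℝ≥0∞), (∀ i, f i ≤ C / ((i + 1 : ℕ) : ℝ≥0∞)) →
      ∑ i ∈ T, f i ≤ (R : ℝ≥0∞) * C := by
    intro f C hf
    calc ∑ i ∈ T, f i ≤ ∑ _i ∈ T, C / ((N + 1 : ℕ) : ℝ≥0∞) := by
          refine Finset.sum_le_sum fun i hi => (hf i).trans (ENNReal.div_le_div_left ?_ C)
          exact_mod_cast Nat.succ_le_succ (Finset.mem_Ico.1 hi).1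
      _ = (T.card : ℝ≥0∞) * (C / ((N + 1 : ℕ) : ℝ≥0∞)) := by rw [Finset.sum_const, nsmul_eq_mul]
      _ ≤ ((R * (N + 1) : ℕ) : ℝ≥0∞) * (C / ((N + 1 : ℕ) : ℝ≥0∞)) := by
          gcongr
          exact_mod_cast (by rw [hT, Nat.card_Ico]; nlinarith [Nat.sub_le (R * N) N] :
            T.card ≤ R * (N + 1))
      _ = (R : ℝ≥0∞) * C := by
          rw [Nat.cast_mul, mul_assoc, ENNReal.mul_div_cancel (by simp) (by simp)]
  have hsub : {p : ℕ × ℕ | p.1 < R * N ∧ p.2 < R * N ∧ (N ≤ p.1 ∨ N ≤ p.2)} ⊆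
      {p | p.1 ∈ T} ∪ {p | p.2 ∈ T} := by
    rintro p ⟨h1, h2, h | h⟩
    · exact Or.inl (Finset.mem_Ico.2 ⟨h, h1⟩)
    · exact Or.inr (Finset.mem_Ico.2 ⟨h, h2⟩)
  refine (cnt_mono w hsub).trans ((cnt_union_le w _ _).trans ?_)
  rw [mul_add]
  refine add_le_add ?_ ?_
  · rw [cnt_strip]; exact key _ _ (hbA w)
  · have : cnt A B w {p | p.2 ∈ T} = cnt B A (-w) {p | p.1 ∈ T} := by
      rw [cnt, cnt, tsum_subtype {p : ℕ × ℕ | p.2 ∈ T} (fun p => pairLaw A B (Match A B w p)),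
        tsum_subtype {p : ℕ × ℕ | p.1 ∈ T} (fun p => pairLaw B A (Match B A (-w) p)),
        ← (Equiv.prodComm ℕ ℕ).tsum_eq]
      refine tsum_congr fun p => ?_
      simp only [Equiv.prodComm_apply, Set.indicator_apply, Set.mem_ofPred_eq, Prod.snd_swap]
      split_ifs with h
      · exact match_swap w p.2 p.1
      · rfl
    rw [this, cnt_strip]; exact key _ _ (hbB (-w))

end Vale.Agent.P147
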