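import Vale.Agent.P147.Sides

/-!
The two directions exclude each other.
-/

noncomputable section

namespace Vale.Agent.P147

open MeasureTheory ProbabilityTheory Filter
open scoped ENNReal Topology

variable {d : ℕ} {μ : Measure (Row d)} {ℓ : Fin d → ℤ}

/-- The first `n` terms of a sequence of blocks, last one first. -/
def revBlks (ω : ℕ → Blk ℓ) (n : ℕ) : Fin n → Blk ℓ := fun t => ω (n - 1 - t)

lemma revBlks_succ (ω : ℕ → Blk ℓ) (n : ℕ) :
    cat (revBlks ω (n + 1)) = (ω n).1 ++ cat (revBlks ω n) := by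
  rw [cat_succ]
  congr 1
  congr 1
  funext t
  simp only [Fin.tail, revBlks, Fin.val_succ]
  congr 1
  omega

lemma endPt_revBlks (ω : ℕ → Blk ℓ) (n : ℕ) :
    endPt (cat (revBlks ω n)) = ∑ u ∈ Finset.range n, endPt (ω u).1 := by
  induction n with
  | zero => simp [cat_zero]
  | succ n ih => rw [revBlks_succ, endPt_append, ih, Finset.sum_range_succ, add_comm]

lemma srcs_revBlks (ω : ℕ → Blk ℓ) (n : ℕ) {z : Fin d → ℤ}
    (hz : z ∈ srcs 0 (cat (revBlks ω n))) :
    ∃ i < n, ∃ a ∈ visited (ω i).1,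
      z + ∑ u ∈ Finset.range (i + 1), endPt (ω u).1 =
        endPt (cat (revBlks ω n)) + a := by
  induction n generalizing z with
  | zero => simp [cat_zero, srcs] at hz
  | succ n ih =>
    rw [revBlks_succ, srcs_append, List.mem_append] at hz
    rw [revBlks_succ, endPt_append, endPt_revBlks]
    rcases hz with hz | hz
    · obtain ⟨t, ht, rfl⟩ := mem_srcs.1 hz
      refine ⟨n, n.lt_succ_self, _, mem_visited.2 ⟨t, ht.le, rfl⟩, ?_⟩
      rw [Finset.sum_range_succ]; abel
    · obtain ⟨t, ht, rfl⟩ := mem_srcs.1 hz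
      obtain ⟨i, hi, a, ha, he⟩ := ih (mem_srcs.2 ⟨t, ht, (zero_add _).symm⟩)
      refine ⟨i, hi.trans n.lt_succ_self, a, ha, ?_⟩
      rw [endPt_revBlks] at he
      rw [zero_add, add_assoc, he]; abel

lemma srcs_cat_head (η : ℕ → Blk ℓ) (k : ℕ) {z : Fin d → ℤ}
    (hz : z ∈ srcs 0 (cat (head k η))) :
    ∃ j < k, ∃ b ∈ visited (η j).1, z = (∑ u ∈ Finset.range j, endPt (η u).1) + b := by
  induction k generalizing η z with
  | zero => simp [cat_zero, srcs] at hz
  | succ k ih =>
    have e : Fin.tail (head (k + 1) η) = head k (fun t => η (t + 1)) := by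
      funext t; simp [Fin.tail, head]
    rw [cat_succ, e, srcs_append, List.mem_append] at hz
    rcases hz with hz | hz
    · obtain ⟨t, ht, rfl⟩ := mem_srcs.1 hz
      exact ⟨0, k.succ_pos, _, mem_visited.2 ⟨t, ht.le, rfl⟩, by simp [head]⟩
    · obtain ⟨t, ht, rfl⟩ := mem_srcs.1 hz
      obtain ⟨j, hj, b, hb, he⟩ :=
        ih (fun t => η (t + 1)) (mem_srcs.2 ⟨t, ht, (zero_add _).symm⟩)
      refine ⟨j + 1, by omega, b, hb, ?_⟩
      rw [he, Finset.sum_range_succ']
      simp [head]; abel

lemma endPt_cat_head (η : ℕ → Blk ℓ) (k : ℕ) :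
    endPt (cat (head k η)) = ∑ u ∈ Finset.range k, endPt (η u).1 := by
  rw [endPt_cat, Finset.sum_range fun u => endPt (η u).1]
  rfl

lemma lev_sum_ge (η : ℕ → Blk ℓ) (k : ℕ) :
    (k : ℤ) ≤ lev ℓ (∑ u ∈ Finset.range k, endPt (η u).1) := by
  rw [map_sum]
  calc (k : ℤ) = ∑ _u ∈ Finset.range k, (1 : ℤ) := by simp
    _ ≤ _ := Finset.sum_le_sum fun u _ => (η u).2.lev_pos

variable [IsProbabilityMeasure μ]

lemma W_nil : W μ ([] : List (Dir d)) = 1 := by simp [W, qw]

lemma W_cat {k : ℕ} (bs : Fin k → Blk ℓ) : W μ (cat bs) = ∏ i, W μ (bs i).1 := by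
  induction k with
  | zero => simp [cat_zero, W_nil]
  | succ k ih =>
    rw [cat_succ, W_append, ih, Fin.prod_univ_succ]
    · rfl
    · intro z hz hz'
      obtain ⟨i, hi, rfl⟩ := mem_srcs.1 hz
      obtain ⟨i', hi', he⟩ := mem_srcs.1 hz'
      rw [zero_add] at he
      have h1 := congrArg (lev ℓ) he
      rw [map_add] at h1
      have h2 := (bs 0).2.last i' hi'
      rw [Lt_length] at h2
      have h3 := cat_nonneg (Fin.tail bs) i hi.le
      simp only [Lt] at h2 h3
      linarith

/-- The path climbing with `ω`, detouring by `con` and descending with `η`. -/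
def turnPath (ω : ℕ → Blk ℓ) (η : ℕ → Blk (-ℓ)) (con : List (Dir d)) (n k : ℕ) : List (Dir d) :=
  cat (revBlks ω n) ++ (con ++ cat (head k η))

/-- Never above the starting level afterwards. -/
def turnEvent (ω : ℕ → Blk ℓ) (η : ℕ → Blk (-ℓ)) (con : List (Dir d)) (n k : ℕ) :
    Set (Walk d) :=
  cyl (turnPath ω η con n k) ∩ shift (turnPath ω η con n k).length ⁻¹' Dp (-ℓ)

/-- Two positive escape directions are incompatible once the traces can avoid each other. -/
theorem exclusive_of_avoid (he : IsElliptic μ) (hp : annealed μ (Dp ℓ) ≠ 0)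
    (hm : annealed μ (Dp (-ℓ)) ≠ 0) (y : Fin d → ℤ) (hy0 : lev ℓ y = 0)
    (hsum : ∑' n, pairLaw (fwd μ hp) (bwd μ hm)
      (AvoidUpTo (lev ℓ) (fwd μ hp) (bwd μ hm) y n) = ⊤) : False := by
  classical
  set A := fwd μ hp with hA
  set B := bwd μ hm with hBd
  obtain ⟨q, Bq, hq0, hqend, hq1, hqpos, hqB⟩ := exists_hump (ne_zero_of_Dp hp) hy0
  -- first maximum of the detour
  obtain ⟨m₀, hm₀, hmax, hfirst⟩ : ∃ m₀ ≤ q.length, (∀ i ≤ q.length, Lt ℓ q i ≤ Lt ℓ q m₀) ∧
      ∀ i < m₀, Lt ℓ q i < Lt ℓ q m₀ := by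
    obtain ⟨a, ha, hamax⟩ := Finset.exists_max_image (Finset.range (q.length + 1)) (Lt ℓ q)
      ⟨0, by simp⟩
    have hex : ∃ i, i ≤ q.length ∧ Lt ℓ q a ≤ Lt ℓ q i :=
      ⟨a, Nat.le_of_lt_succ (Finset.mem_range.1 ha), le_rfl⟩
    refine ⟨Nat.find hex, (Nat.find_spec hex).1, fun i hi =>
      (hamax i (Finset.mem_range.2 (Nat.lt_succ_of_le hi))).trans (Nat.find_spec hex).2,
      fun i hi => ?_⟩
    by_contra hc
    exact Nat.find_min hex hi ⟨hi.le.trans (Nat.find_spec hex).1,
      (Nat.find_spec hex).2.trans (not_lt.1 hc)⟩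
  have htop : 0 < Lt ℓ q m₀ := hq1.trans_le (hmax 1 (List.length_pos_iff.2 hq0))
  set c := W μ q * annealed μ (Dp (-ℓ)) with hc
  have hc0 : c ≠ 0 := mul_ne_zero (W_pos he q).ne' hm
  -- representatives
  set dep := fun (ω : ℕ → Blk ℓ) (n : ℕ) => depth (lev ℓ) A ω n with hdep
  let Idx := Σ n : ℕ, Σ g : Fin n → Blk ℓ, Σ k : ℕ, (Fin k → Blk (-ℓ))
  let S : Set Idx := {x | 0 < x.1 ∧ ∃ ω η, (ω, η) ∈ AvoidUpTo (lev ℓ) A B y x.1 ∧
    head x.1 ω = x.2.1 ∧ dep ω x.1 + 1 = x.2.2.1 ∧ head x.2.2.1 η = x.2.2.2}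
  have hrep : ∀ x : S, ∃ ω η, (ω, η) ∈ AvoidUpTo (lev ℓ) A B y x.1.1 ∧ head x.1.1 ω = x.1.2.1 ∧
      dep ω x.1.1 + 1 = x.1.2.2.1 ∧ head x.1.2.2.1 η = x.1.2.2.2 := fun x => x.2.2
  choose om et hav hhead hk hhead' using hrep
  set path := fun x : S => turnPath (om x) (et x) q x.1.1 x.1.2.2.1 with hpath
  set E := fun x : S => turnEvent (om x) (et x) q x.1.1 x.1.2.2.1 with hE
  set as := fun x : S => cat (revBlks (om x) x.1.1) with has
  -- the level at the top of the ascent
  have hD : ∀ x : S, lev ℓ (endPt (as x)) = ((dep (om x) x.1.1 : ℕ) : ℤ) := by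
    intro x
    have h1 : A.S (om x) x.1.1 = -endPt (as x) := by
      simp [as, endPt_revBlks, Side.S, A, fwd, Finset.sum_neg_distrib]
    have h2 := cat_nonneg (revBlks (om x) x.1.1) _ le_rfl
    rw [Lt_length] at h2
    simp only [dep, depth, h1, map_neg, neg_neg]
    exact (Int.toNat_of_nonneg h2).symm
  -- levels of the descent
  have hdesc : ∀ x : S, ∀ i ≤ (cat (head x.1.2.2.1 (et x))).length,
      Lt ℓ (cat (head x.1.2.2.1 (et x))) i ≤ 0 := by
    intro x i hi
    have := cat_nonneg (head x.1.2.2.1 (et x)) i hi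
    simp only [Lt, lev_neg_left] at this ⊢
    linarith
  have hdepth : ∀ x : S, lev ℓ (endPt (as x)) +
      lev ℓ (endPt (cat (head x.1.2.2.1 (et x)))) ≤ -1 := by
    intro x
    have h1 := lev_sum_ge (et x) x.1.2.2.1
    rw [← endPt_cat_head, lev_neg_left] at h1
    have h2 := hk x
    rw [hD x]
    omega
  have hlast : ∀ x : S, ∀ i < (as x).length, Lt ℓ (as x) i < lev ℓ (endPt (as x)) :=
    fun x i hi => cat_last _ i hi
  -- weights
  have hW : ∀ x : S, annealed μ (E x) =
      (∏ i, W μ (x.1.2.1 i).1) * (∏ i, W μ (x.1.2.2.2 i).1) * c := by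
    intro x
    have hfresh : ∀ s ∈ Dp (-ℓ), ∀ m,
        endPt (path x) + pos s m ∉ srcs 0 (path x) := by
      intro s hs m hmem
      have h1 : lev ℓ (endPt (path x) + pos s m) ≤ -1 := by
        have := hs.1 m
        rw [lev_neg_left] at this
        simp only [path, turnPath, map_add, endPt_append, hqend, hy0]
        have := hdepth x
        simp only [as] at this
        linarith
      simp only [path, turnPath, srcs_append, List.mem_append, zero_add] at hmem
      rcases hmem with h | h | h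
      · obtain ⟨i, hi, he2⟩ := mem_srcs.1 h
        rw [zero_add] at he2
        have h2 := cat_nonneg (revBlks (om x) x.1.1) i hi.le
        simp only [Lt] at h2
        simp only [path, turnPath] at h1
        rw [he2] at h1
        omega
      · obtain ⟨i, hi, he2⟩ := mem_srcs.1 h
        simp only [path, turnPath] at h1
        rw [he2, map_add] at h1
        have h2 : 0 ≤ Lt ℓ q i := by
          rcases Nat.eq_zero_or_pos i with rfl | h0
          · simp
          · exact (hqpos i hi h0).le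
        have h3 := hD x
        simp only [Lt] at h2
        simp only [as] at h3
        omega
      · obtain ⟨i, hi, he2⟩ := mem_srcs.1 h
        rw [add_assoc] at he2
        simp only [turnPath, endPt_append, add_assoc, add_right_inj] at he2
        have h2 := congrArg (lev (-ℓ)) he2
        rw [map_add] at h2
        have h3 := cat_last _ i hi
        have h4 := hs.1 m
        simp only [Lt] at h3
        linarith
    have hdisj₂ : ∀ z ∈ srcs (endPt q) (cat (head x.1.2.2.1 (et x))), z ∉ srcs 0 q ∨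
        (z = 0) := by
      intro z hz
      by_cases hz0 : z = 0
      · exact Or.inr hz0
      refine Or.inl fun hzq => ?_
      obtain ⟨i, hi, rfl⟩ := mem_srcs.1 hz
      obtain ⟨i', hi', he2⟩ := mem_srcs.1 hzq
      rw [zero_add] at he2
      rcases Nat.eq_zero_or_pos i' with rfl | h0
      · exact hz0 (by rw [he2]; simp)
      have h2 := hqpos i' hi' h0
      have h3 := hdesc x i hi.le
      have h4 := congrArg (lev ℓ) he2
      rw [map_add, hqend, hy0, zero_add] at h4
      simp only [Lt] at h2 h3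
      omega
    have havoid : ∀ j < x.1.2.2.1, ∀ b ∈ visited (et x j).1, ∀ z, z ∈ srcs 0 (cat (revBlks (om x) x.1.1)) ∨
        z = endPt (cat (revBlks (om x) x.1.1)) →
        z ≠ endPt (cat (revBlks (om x) x.1.1)) + (y + ((∑ u ∈ Finset.range j, endPt (et x u).1) + b)) := by
      intro j hj b hb z hz heq
      have hjd : j ≤ depth (lev ℓ) A (om x) x.1.1 := by
        have := hk x
        simp only [dep] at this
        omega
      obtain ⟨i, hi, a, ha, hza⟩ : ∃ i < x.1.1, ∃ a ∈ visited (om x i).1,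
          z + ∑ u ∈ Finset.range (i + 1), endPt (om x u).1 =
            endPt (cat (revBlks (om x) x.1.1)) + a := by
        rcases hz with h | h
        · exact srcs_revBlks _ _ h
        · refine ⟨0, x.2.1, endPt (om x 0).1, mem_visited.2 ⟨_, le_rfl, by simp⟩, ?_⟩
          rw [h]; simp
      refine hav x i hi j hjd ⟨a - endPt (om x i).1, ?_, b, hb, ?_⟩
      · exact Finset.mem_image.2 ⟨a, ha, rfl⟩
      · show A.S (om x) i + (a - endPt (om x i).1) = y + B.S (et x) j + b
        simp only [Side.S, A, B, fwd, bwd, Finset.sum_neg_distrib]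
        rw [Finset.sum_range_succ] at hza
        rw [heq] at hza
        have : a = (y + ((∑ u ∈ Finset.range j, endPt (et x u).1) + b)) +
            ((∑ u ∈ Finset.range i, endPt (om x u).1) + endPt (om x i).1) := by
          refine add_left_cancel (a := endPt (cat (revBlks (om x) x.1.1))) ?_
          rw [← hza]; abel
        rw [this]; abel
    have hW2 : W μ (q ++ cat (head x.1.2.2.1 (et x))) = W μ q * ∏ i, W μ (x.1.2.2.2 i).1 := by
      rw [W_append, W_cat, hhead' x]
      intro z hz
      rcases hdisj₂ z hz with h | h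
      · exact h
      · exfalso
        obtain ⟨t, ht, rfl⟩ := mem_srcs.1 hz
        obtain ⟨j, hj, b, hb, he2⟩ :=
          srcs_cat_head (et x) x.1.2.2.1 (mem_srcs.2 ⟨t, ht, (zero_add _).symm⟩)
        rw [hqend, he2] at h
        exact havoid j hj b hb _ (Or.inr rfl) (by rw [h, add_zero])
    have hW1 : W μ (path x) = W μ (as x) * W μ (q ++ cat (head x.1.2.2.1 (et x))) := by
      refine W_append _ _ fun z hz hz' => ?_
      simp only [srcs_append, List.mem_append] at hz
      rcases hz with h | h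
      · obtain ⟨i, hi, rfl⟩ := mem_srcs.1 h
        obtain ⟨i', hi', he2⟩ := mem_srcs.1 hz'
        have h2 := hlast x i' hi'
        have h3 : 0 ≤ Lt ℓ q i := by
          rcases Nat.eq_zero_or_pos i with rfl | h0
          · simp
          · exact (hqpos i hi h0).le
        have h4 := congrArg (lev ℓ) he2
        rw [zero_add, map_add] at h4
        simp only [Lt, as] at h2 h3
        omega
      · obtain ⟨t, ht, rfl⟩ := mem_srcs.1 h
        obtain ⟨j, hj, b, hb, he2⟩ :=
          srcs_cat_head (et x) x.1.2.2.1 (mem_srcs.2 ⟨t, ht, (zero_add _).symm⟩)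
        rw [hqend, he2, add_assoc] at hz'
        exact havoid j hj b hb _ (Or.inl hz') rfl
    rw [show E x = cyl (path x) ∩ shift (path x).length ⁻¹' Dp (-ℓ) from rfl,
      annealed_fresh _ (measurableSet_Dp _) hfresh, hW1, hW2]
    have hW3 : W μ (as x) = ∏ i, W μ (x.1.2.1 i).1 := by
      rw [show as x = cat (revBlks (om x) x.1.1) from rfl, W_cat, ← hhead x]
      refine Fintype.prod_equiv Fin.revPerm _ _ fun t => ?_
      simp only [revBlks, head, Fin.revPerm_apply, Fin.val_rev]
      congr 3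
      omega
    rw [hW3, hc]; ring
  -- decoding
  have hdis : Pairwise fun x x' : S => Disjoint (E x) (E x') := by
    intro x x' hne
    refine Set.disjoint_left.2 fun s hs hs' => hne ?_
    have hmaxs : ∀ z : S, s ∈ E z →
        (∀ i, lev ℓ (pos s i) ≤ lev ℓ (endPt (as z)) + Lt ℓ q m₀) ∧
        lev ℓ (pos s ((as z).length + m₀)) = lev ℓ (endPt (as z)) + Lt ℓ q m₀ ∧
        ∀ i < (as z).length + m₀, lev ℓ (pos s i) < lev ℓ (endPt (as z)) + Lt ℓ q m₀ := by
      intro z hz
      have hT := htop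
      set n := z.1.1
      set k := z.1.2.2.1
      have hcy : s ∈ cyl (as z ++ (q ++ cat (head k (et z)))) := hz.1
      have hpos : ∀ i ≤ (as z ++ (q ++ cat (head k (et z)))).length,
          lev ℓ (pos s i) = Lt ℓ (as z ++ (q ++ cat (head k (et z)))) i := fun i hi => by
        rw [pos_of_mem_cyl hcy hi]; rfl
      have htopv : lev ℓ (pos s ((as z).length + m₀)) = lev ℓ (endPt (as z)) + Lt ℓ q m₀ := by
        rw [hpos _ (by simp; omega), Lt_append_right, Lt_append_left _ _ _ hm₀]
      have hlow : ∀ i < (as z).length + m₀,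
          lev ℓ (pos s i) < lev ℓ (endPt (as z)) + Lt ℓ q m₀ := by
        intro i hi
        rw [hpos i (by simp; omega)]
        rcases lt_or_ge i (as z).length with h | h
        · rw [Lt_append_left _ _ _ h.le]
          have := hlast z i h
          linarith
        · obtain ⟨t, rfl⟩ := Nat.exists_eq_add_of_le h
          rw [Lt_append_right, Lt_append_left _ _ _ (by omega)]
          have := hfirst t (by omega)
          linarith
      refine ⟨fun i => ?_, htopv, hlow⟩
      rcases lt_or_ge i ((as z).length + m₀) with h | h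
      · exact (hlow i h).le
      rcases le_or_gt i (as z ++ (q ++ cat (head k (et z)))).length with h2 | h2
      · rw [hpos i h2]
        obtain ⟨t, rfl⟩ := Nat.exists_eq_add_of_le (Nat.le_of_add_right_le h)
        rw [Lt_append_right]
        rcases le_or_gt t q.length with h3 | h3
        · rw [Lt_append_left _ _ _ h3]; have := hmax t h3; linarith
        · obtain ⟨u, rfl⟩ := Nat.exists_eq_add_of_le h3.le
          rw [Lt_append_right, hqend, hy0]
          have := hdesc z u (by simp at h2; omega)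
          linarith
      · obtain ⟨t, rfl⟩ := Nat.exists_eq_add_of_le h2.le
        rw [lev_pos_shift, pos_of_mem_cyl hcy le_rfl, List.take_length]
        have hD2 : shift (as z ++ (q ++ cat (head k (et z)))).length s ∈ Dp (-ℓ) := hz.2
        have h5 := hD2.1 t
        rw [lev_neg_left] at h5
        simp only [endPt_append, map_add, hqend, hy0]
        have := hdesc z _ le_rfl
        rw [Lt_length] at this
        linarith
    obtain ⟨m1, t1, f1⟩ := hmaxs x hs
    obtain ⟨m2, t2, f2⟩ := hmaxs x' hs'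
    have hlen : (as x).length = (as x').length := by
      rcases lt_trichotomy ((as x).length + m₀) ((as x').length + m₀) with h | h | h
      · have := f2 _ h; have := m1 ((as x').length + m₀); linarith
      · omega
      · have := f1 _ h; have := m2 ((as x).length + m₀); linarith
    have hp1 := hs.1
    have hp2 := hs'.1
    simp only [turnPath, cyl_append, Set.mem_inter_iff, Set.mem_preimage] at hp1 hp2
    have has' : as x = as x' := by
      have e1 := (mem_cyl_iff _ _).1 hp1.1
      have e2 := (mem_cyl_iff _ _).1 hp2.1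
      simp only [as] at hlen ⊢
      rw [← e1, hlen, e2]
    obtain ⟨hn, hom⟩ := cat_inj _ _ has'
    obtain ⟨⟨n, g, k, h⟩, hx⟩ := x
    obtain ⟨⟨n', g', k', h'⟩, hx'⟩ := x'
    simp only at hn
    subst hn
    have hg : g = g' := by
      refine ((hhead ⟨⟨n, g, k, h⟩, hx⟩).symm.trans ?_).trans (hhead ⟨⟨n, g', k', h'⟩, hx'⟩)
      funext t
      have := congrFun hom (Fin.rev t)
      simp only [Function.comp, Fin.cast_eq_self, revBlks, Fin.val_rev] at this
      have ht : (t : ℕ) < n := t.2
      rw [show n - 1 - (n - ((t : ℕ) + 1)) = (t : ℕ) from by omega] at this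
      exact this.symm
    subst hg
    have hkk : k = k' := by
      have e1 := hk ⟨⟨n, g, k, h⟩, hx⟩
      have e2 := hk ⟨⟨n, g, k', h'⟩, hx'⟩
      have e3 := hD ⟨⟨n, g, k, h⟩, hx⟩
      have e4 := hD ⟨⟨n, g, k', h'⟩, hx'⟩
      rw [has'] at e3
      simp only at e1 e2 e3 e4
      omega
    subst hkk
    have hh : h = h' := by
      have hq' : ∀ (z : S), s ∈ E z → shift q.length (shift (as z).length s) ∈
          blkEvent (z.1.2.2.2) := by
        intro z hz
        have hcy : s ∈ cyl (turnPath (om z) (et z) q z.1.1 z.1.2.2.1) := hz.1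
        simp only [turnPath, cyl_append, Set.mem_inter_iff, Set.mem_preimage] at hcy
        refine ⟨by rw [← hhead' z]; exact hcy.2.2, ?_⟩
        have h2 : shift (turnPath (om z) (et z) q z.1.1 z.1.2.2.1).length s ∈ Dp (-ℓ) := hz.2
        rw [Set.mem_preimage]
        convert h2 using 1
        funext i
        simp [shift, turnPath, as, hhead' z, add_assoc]
      have u1 := hq' ⟨⟨n, g, k, h⟩, hx⟩ hs
      have u2 := hq' ⟨⟨n, g, k, h'⟩, hx'⟩ hs'
      rw [has'] at u1
      by_contra hne'
      exact Set.disjoint_left.1 (blkEvent_disjoint k hne') u1 u2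
    subst hh
    rfl
  have htot : ∑' x : S, annealed μ (E x) ≤ 1 := by
    rw [← measure_iUnion hdis fun x => (measurableSet_cyl _).inter
      (measurable_shift _ (measurableSet_Dp _))]
    exact prob_le_one
  -- the avoidance probabilities
  have hav : ∀ n, 0 < n → pairLaw A B (AvoidUpTo (lev ℓ) A B y n) * c ≤
      ∑' x : {x : Σ g : Fin n → Blk ℓ, Σ k : ℕ, (Fin k → Blk (-ℓ)) // (⟨n, x⟩ : Idx) ∈ S},
        annealed μ (E ⟨⟨n, x.1⟩, x.2⟩) := by
    intro n hn
    simp only [hW]
    rw [ENNReal.tsum_mul_right]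
    refine mul_le_mul' ?_ le_rfl
    refine le_trans (measure_mono (t := ⋃ x : {x : Σ g : Fin n → Blk ℓ, Σ k : ℕ,
      (Fin k → Blk (-ℓ)) // (⟨n, x⟩ : Idx) ∈ S},
        {ω | head n ω = x.1.1} ×ˢ {η | head x.1.2.1 η = x.1.2.2}) ?_) ?_
    · rintro ⟨ω, η⟩ h
      refine Set.mem_iUnion.2 ⟨⟨⟨head n ω, dep ω n + 1, head (dep ω n + 1) η⟩,
        hn, ω, η, h, rfl, rfl, rfl⟩, rfl, rfl⟩
    · refine (measure_iUnion_le _).trans (le_of_eq (tsum_congr fun x => ?_))
      rw [pairLaw, Measure.prod_prod, seqLaw_head_eq, seqLaw_head_eq]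
      rfl
  have hfin : ∑' n, pairLaw A B (AvoidUpTo (lev ℓ) A B y n) * c ≤ c + 1 := by
    rw [ENNReal.tsum_eq_add_tsum_ite 0]
    refine add_le_add (mul_le_of_le_one_left' prob_le_one) (le_trans ?_ htot)
    let f : (Σ n : ℕ, {x : Σ g : Fin n → Blk ℓ, Σ k : ℕ, (Fin k → Blk (-ℓ)) //
        (⟨n, x⟩ : Idx) ∈ S}) → S := fun z => ⟨⟨z.1, z.2.1⟩, z.2.2⟩
    have hf : Function.Injective f := by
      rintro ⟨a, u, hu⟩ ⟨b, v, hv⟩ h
      simp only [f, Subtype.mk.injEq] at h
      cases h
      rfl
    refine le_trans ?_ (ENNReal.tsum_comp_le_tsum_of_injective hf fun x => annealed μ (E x))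
    rw [ENNReal.tsum_sigma']
    refine ENNReal.tsum_le_tsum fun n => ?_
    split_ifs with h
    · exact bot_le
    · exact hav n (Nat.pos_of_ne_zero h)
  rw [ENNReal.tsum_mul_right, hsum, ENNReal.top_mul hc0] at hfin
  exact absurd (top_le_iff.1 hfin) (ENNReal.add_ne_top.2
    ⟨ENNReal.mul_ne_top (W_ne_top _) (measure_ne_top _ _), ENNReal.one_ne_top⟩)

/-- Two positive escape directions with finite mean block lengths are incompatible. -/
theorem exclusive (hd : 3 ≤ d) (he : IsElliptic μ) (hp : annealed μ (Dp ℓ) ≠ 0)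
    (hm : annealed μ (Dp (-ℓ)) ≠ 0)
    (hF : ∑' b, blkPMF μ hp b * (b.1.length : ℝ≥0∞) ≠ ⊤)
    (hB : ∑' b, blkPMF μ hm b * (b.1.length : ℝ≥0∞) ≠ ⊤) : False := by
  obtain ⟨v, κ, k₃, b₀, b₂, b₃, b₄, hκ, -, hind, -⟩ := exists_corners hd (ne_zero_of_Dp hp)
  have hκ0 : κ ≠ 0 := fun h => by
    have := (hind 1 0 (by simp [h])).1
    omega
  obtain ⟨r, -, hsum⟩ := exists_avoid (good_fwd hd he hp hF) (good_bwd hd he hm hB) hκ hκ0
  exact exclusive_of_avoid he hp hm (r • κ) (by rw [map_zsmul, hκ]; simp) hsum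

end Vale.Agent.P147
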