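import Vale.Agent.P147.Defs

noncomputable section

namespace Vale.Agent.P147

open MeasureTheory ProbabilityTheory Finset
open scoped ENNReal

variable {d : ℕ}

/-- Trajectories starting with the steps of `l`. -/
def cyl (l : List (Dir d)) : Set (Walk d) := {s | ∀ i (h : i < l.length), s i = l[i]}

/-- End point of a finite path from the origin. -/
def endPt (l : List (Dir d)) : Fin d → ℤ := (l.map dirVec).sum

/-- Weight of a finite path from `x`. -/
def qw (ω : Env d) : (Fin d → ℤ) → List (Dir d) → ℝ≥0∞
  | _, [] => 1
  | x, e :: l => ENNReal.ofReal ((ω x).1 e) * qw ω (x + dirVec e) l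

@[simp] lemma endPt_nil : endPt ([] : List (Dir d)) = 0 := rfl

@[simp] lemma endPt_cons (e : Dir d) (l : List (Dir d)) :
    endPt (e :: l) = dirVec e + endPt l := by
  simp [endPt]

@[simp] lemma endPt_append (l m : List (Dir d)) : endPt (l ++ m) = endPt l + endPt m := by
  simp [endPt]

lemma qw_append (ω : Env d) (x : Fin d → ℤ) (l m : List (Dir d)) :
    qw ω x (l ++ m) = qw ω x l * qw ω (x + endPt l) m := by
  induction l generalizing x with
  | nil => simp [qw]
  | cons e l ih => simp [qw, ih, mul_assoc, add_assoc]

lemma measurableSet_cyl (l : List (Dir d)) : MeasurableSet (cyl l) := by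
  have : cyl l = ⋂ i : Fin l.length, (fun s : Walk d => s i) ⁻¹' {l[i]} := by
    ext s; simp [cyl, Fin.forall_iff]
  rw [this]
  exact MeasurableSet.iInter fun i => measurable_pi_apply _ (measurableSet_singleton _)

lemma rowMeasure_singleton (p : Row d) (e : Dir d) :
    rowMeasure p {e} = ENNReal.ofReal (p.1 e) := by
  simp only [rowMeasure, Measure.coe_finsetSum, Finset.sum_apply, Measure.smul_apply, smul_eq_mul]
  rw [Finset.sum_eq_single e]
  · simp
  · intro b _ hb; simp [hb]
  · simp

@[simp] lemma cyl_nil : cyl ([] : List (Dir d)) = Set.univ := by ext; simp [cyl]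

lemma mem_cyl_concat (l : List (Dir d)) (e : Dir d) (s : Walk d) :
    s ∈ cyl (l ++ [e]) ↔ s ∈ cyl l ∧ s l.length = e := by
  constructor
  · intro h
    refine ⟨fun i hi => ?_, ?_⟩
    · have := h i (by simp; omega)
      rw [this, List.getElem_append_left]
    · simpa using h l.length (by simp)
  · rintro ⟨h1, h2⟩ i hi
    rcases lt_or_ge i l.length with h | h
    · rw [List.getElem_append_left h]; exact h1 i h
    · have : i = l.length := by simp at hi; omega
      subst this; simpa using h2

lemma quenched_cyl_aux (ω : Env d) (l : List (Dir d)) :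
    ∀ e, quenched ω (cyl (l ++ [e])) = qw ω 0 (l ++ [e]) := by
  induction l using List.reverseRecOn with
  | nil =>
    intro e
    have h1 : cyl ([] ++ [e]) = (fun x : Walk d => Preorder.frestrictLe (π := fun _ => Dir d) 0 x)
        ⁻¹' {fun _ => e} := by
      ext s
      simp only [cyl, Set.mem_preimage, Set.mem_singleton_iff, funext_iff, Subtype.forall]
      constructor
      · intro h a ha
        have : a = 0 := by simpa using ha
        subst this
        simpa using h 0 (by simp)
      · intro h i hi
        have : i = 0 := by simpa using hi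
        subst this
        simpa using h 0 (by simp)
    rw [h1, ← Measure.map_apply (by fun_prop) (measurableSet_singleton _), quenched,
      Kernel.trajMeasure, Measure.map_comp _ _ (by fun_prop), Kernel.traj_map_frestrictLe,
      Kernel.partialTraj_self, Measure.id_comp,
      Measure.map_apply (by fun_prop) (measurableSet_singleton _)]
    have : (MeasurableEquiv.piUnique fun _ : Finset.Iic 0 => Dir d).symm ⁻¹' {fun _ => e}
        = {e} := by
      ext y
      simp only [Set.mem_preimage, Set.mem_singleton_iff]
      constructor
      · intro h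
        have := congrFun h default
        simpa using this
      · rintro rfl; funext i; simp [Unique.eq_default i]
    rw [this, rowMeasure_singleton]
    simp [qw]
  | append_singleton l a ih =>
    intro e
    set n := l.length with hn
    set h : Π _ : Finset.Iic n, Dir d :=
      fun i => (l ++ [a])[i.1]'(by have := Finset.mem_Iic.1 i.2; simp; omega) with hh
    have key := Kernel.map_frestrictLe_trajMeasure_compProd_eq_map_trajMeasure
      (X := fun _ => Dir d) (μ₀ := rowMeasure (ω 0)) (κ := stepKernel ω) (a := n)
    have hpre : (Preorder.frestrictLe (π := fun _ => Dir d) n) ⁻¹' {h} = cyl (l ++ [a]) := by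
      ext s
      simp only [Set.mem_preimage, Set.mem_singleton_iff, funext_iff, cyl, Subtype.forall]
      constructor
      · intro hs i hi
        simpa [hh] using hs i (by simp at hi ⊢; omega)
      · intro hs i hi
        simpa [hh] using hs i (by simp at hi ⊢; omega)
    have hset : cyl (l ++ [a] ++ [e]) =
        (fun x : Walk d => (Preorder.frestrictLe (π := fun _ => Dir d) n x, x (n + 1))) ⁻¹'
          ({h} ×ˢ {e}) := by
      ext s
      rw [mem_cyl_concat, ← hpre]
      simp [hn]
    rw [hset, ← Measure.map_apply (by fun_prop) (by measurability), quenched, ← key,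
      Measure.compProd_apply_prod (measurableSet_singleton _) (measurableSet_singleton _),
      lintegral_singleton, Measure.map_apply (by fun_prop) (measurableSet_singleton _), hpre]
    rw [qw_append]
    have hq := ih a
    unfold quenched at hq
    rw [hq, mul_comm]
    congr 1
    simp only [qw, mul_one, zero_add]
    show rowMeasure (ω (∑ i, dirVec (h i))) {e} = _
    rw [rowMeasure_singleton]
    congr 3
    rw [endPt, ← Fin.sum_univ_fun_getElem]
    refine congrArg (fun x => (ω x).1 e) ?_
    refine Finset.sum_bij' (fun i _ => ⟨i.1, by have := Finset.mem_Iic.1 i.2; simp; omega⟩)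
      (fun j _ => ⟨j.1, Finset.mem_Iic.2 (by have := j.2; simp at this; omega)⟩)
      ?_ ?_ ?_ ?_ ?_ <;> simp [hh]

instance (ω : Env d) : IsProbabilityMeasure (quenched ω) := by
  unfold quenched; infer_instance

theorem quenched_cyl (ω : Env d) (l : List (Dir d)) : quenched ω (cyl l) = qw ω 0 l := by
  cases l using List.reverseRecOn with
  | nil => simp [qw]
  | append_singleton l e => exact quenched_cyl_aux ω l e

/-- The list of the first `n` steps. -/
def pre (s : Walk d) (n : ℕ) : List (Dir d) := List.ofFn fun i : Fin n => s i

@[simp] lemma length_pre (s : Walk d) (n : ℕ) : (pre s n).length = n := by simp [pre]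

lemma getElem_pre (s : Walk d) (n i : ℕ) (h : i < (pre s n).length) : (pre s n)[i] = s i := by
  simp [pre]

lemma mem_cyl_iff (l : List (Dir d)) (s : Walk d) : s ∈ cyl l ↔ pre s l.length = l := by
  constructor
  · intro h
    exact List.ext_getElem (by simp) fun i h1 h2 => by rw [getElem_pre, h i h2]
  · intro h i hi
    rw [← getElem_pre s l.length i (by simp [hi])]
    simp only [h]

lemma endPt_pre (s : Walk d) (n : ℕ) : endPt (pre s n) = pos s n := by
  simp [endPt, pre, pos, List.map_ofFn, List.sum_ofFn, Finset.sum_range]

@[fun_prop] lemma measurable_pre (n : ℕ) :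
    @Measurable _ _ _ ⊤ (fun s : Walk d => pre s n) := by
  have h : Measurable fun s : Walk d => fun i : Fin n => s i := by fun_prop
  have h2 : @Measurable (Fin n → Dir d) _ _ ⊤ (fun g => List.ofFn g) :=
    @measurable_of_countable _ _ _ ⊤ _ _ _
  exact @Measurable.comp _ _ _ _ _ ⊤ _ _ h2 h

/-- A set of finite length-`n` prefixes is a finite union of cylinders. -/
lemma measure_pre_mem (ν : Measure (Walk d)) (n : ℕ) (S : Set (List (Dir d))) :
    ν {s | pre s n ∈ S} = ∑ g : Fin n → Dir d,
      S.indicator (fun l => ν (cyl l)) (List.ofFn g) := by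
  classical
  have h : Measurable fun s : Walk d => fun i : Fin n => s i := by fun_prop
  have e : {s : Walk d | pre s n ∈ S} = (fun s : Walk d => fun i : Fin n => s i) ⁻¹'
      ↑(Finset.univ.filter fun g : Fin n → Dir d => List.ofFn g ∈ S) := by
    ext s; simp [pre]
  rw [e, ← sum_measure_preimage_singleton _ fun g _ => h (measurableSet_singleton g),
    Finset.sum_filter]
  refine Finset.sum_congr rfl fun g _ => ?_
  rw [Set.indicator_apply]
  split_ifs
  · congr 1
    ext s
    simp [mem_cyl_iff, pre, List.ofFn_inj]
  · rfl

/-- Two finite measures on trajectories agreeing on cylinders are equal. -/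
theorem ext_of_cyl {ν ν' : Measure (Walk d)} [IsFiniteMeasure ν]
    (h : ∀ l : List (Dir d), ν (cyl l) = ν' (cyl l)) : ν = ν' := by
  classical
  refine ext_of_generate_finite (measurableCylinders fun _ : ℕ => Dir d)
    generateFrom_measurableCylinders.symm isPiSystem_measurableCylinders ?_
    (by simpa using h [])
  intro t ht
  obtain ⟨N, S, _, rfl⟩ : ∃ N S, MeasurableSet S ∧
      t = cylinder (α := fun _ : ℕ => Dir d) (Finset.Iic N) S := by
    simpa [measurableCylinders_nat] using ht
  have e : cylinder (α := fun _ : ℕ => Dir d) (Finset.Iic N) S = {s | pre s (N + 1) ∈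
      {l : List (Dir d) | ∃ hl : l.length = N + 1,
        (fun i : Finset.Iic N => l[i.1]'(by have := Finset.mem_Iic.1 i.2; omega)) ∈ S}} := by
    ext s
    simp [cylinder, getElem_pre]
    rfl
  rw [e, measure_pre_mem, measure_pre_mem]
  exact Finset.sum_congr rfl fun g _ => by rw [funext h]

/-- The shift of a trajectory by `n` steps. -/
def shift (n : ℕ) (s : Walk d) : Walk d := fun i => s (n + i)

@[fun_prop] lemma measurable_shift (n : ℕ) : Measurable (shift (d := d) n) := by
  unfold shift; fun_prop

/-- The environment seen from `x`. -/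
def tau (x : Fin d → ℤ) (ω : Env d) : Env d := fun z => ω (x + z)

lemma qw_tau (ω : Env d) (x y : Fin d → ℤ) (l : List (Dir d)) :
    qw (tau x ω) y l = qw ω (x + y) l := by
  induction l generalizing y with
  | nil => rfl
  | cons e l ih => simp [qw, ih, tau, add_assoc]

lemma cyl_append (l m : List (Dir d)) :
    cyl (l ++ m) = cyl l ∩ shift l.length ⁻¹' cyl m := by
  ext s
  constructor
  · intro h
    refine ⟨fun i hi => ?_, fun i hi => ?_⟩
    · rw [h i (by simp; omega), List.getElem_append_left]
    · show s (l.length + i) = _
      rw [h (l.length + i) (by simp [hi]), List.getElem_append_right (by omega)]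
      simp
  · rintro ⟨h1, h2⟩ i hi
    rcases lt_or_ge i l.length with h | h
    · rw [List.getElem_append_left h]; exact h1 i h
    · rw [List.getElem_append_right h]
      have := h2 (i - l.length) (by simp at hi; omega)
      simp only [shift] at this
      rwa [Nat.add_sub_cancel' h] at this

/-- The Markov property after a fixed prefix. -/
theorem quenched_markov (ω : Env d) (l : List (Dir d)) {E : Set (Walk d)} (hE : MeasurableSet E) :
    quenched ω (cyl l ∩ shift l.length ⁻¹' E) = qw ω 0 l * quenched (tau (endPt l) ω) E := by
  have hmap : ((quenched ω).restrict (cyl l)).map (shift l.length)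
      = qw ω 0 l • quenched (tau (endPt l) ω) := by
    refine ext_of_cyl fun m => ?_
    rw [Measure.map_apply (by fun_prop) (measurableSet_cyl m),
      Measure.restrict_apply (measurable_shift _ (measurableSet_cyl m)), Set.inter_comm,
      ← cyl_append, Measure.smul_apply, quenched_cyl, quenched_cyl, qw_append, qw_tau]
    simp
  have := congrFun (congrArg (fun ν : Measure (Walk d) => (ν : Set (Walk d) → ℝ≥0∞)) hmap) E
  rw [Measure.map_apply (by fun_prop) hE, Measure.restrict_apply (measurable_shift _ hE),
    Set.inter_comm, Measure.smul_apply] at this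
  exact this

lemma measurable_qw (x : Fin d → ℤ) (l : List (Dir d)) :
    Measurable fun ω : Env d => qw ω x l := by
  induction l generalizing x with
  | nil => exact measurable_const
  | cons e l ih =>
    simp only [qw]
    exact (ENNReal.measurable_ofReal.comp
      ((measurable_pi_apply e).comp (measurable_subtype_coe.comp (measurable_pi_apply x)))).mul
      (ih _)

lemma isPiSystem_cyl : IsPiSystem (insert ∅ (Set.range (cyl (d := d)))) := by
  rintro _ (rfl | ⟨l, rfl⟩) _ (rfl | ⟨m, rfl⟩) hne
  · simp at hne
  · simp at hne
  · simp at hne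
  · obtain ⟨s, hl, hm⟩ := hne
    right
    rcases le_total l.length m.length with h | h
    · refine ⟨m, Set.ext fun r => ⟨fun hr => ⟨fun i hi => ?_, hr⟩, fun hr => hr.2⟩⟩
      rw [hr i (by omega), ← hm i (by omega), hl i hi]
    · refine ⟨l, Set.ext fun r => ⟨fun hr => ⟨hr, fun i hi => ?_⟩, fun hr => hr.1⟩⟩
      rw [hr i (by omega), ← hl i (by omega), hm i hi]

lemma measurable_quenched : Measurable (quenched (d := d)) := by
  refine Measurable.measure_of_isPiSystem_of_isProbabilityMeasure
    (S := insert ∅ (Set.range (cyl (d := d)))) ?_ isPiSystem_cyl ?_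
  · refine le_antisymm ?_ (MeasurableSpace.generateFrom_le ?_)
    · refine iSup_le fun i => ?_
      rw [MeasurableSpace.comap_le_iff_le_map]
      intro t _
      rw [MeasurableSpace.map_def]
      have : (fun s : Walk d => s i) ⁻¹' t =
          ⋃ g ∈ {g : Fin (i + 1) → Dir d | g (Fin.last i) ∈ t}, cyl (List.ofFn g) := by
        ext s
        simp only [Set.mem_preimage, Set.mem_iUnion, Set.mem_setOf_eq, mem_cyl_iff,
          List.length_ofFn, pre, List.ofFn_inj, exists_prop]
        exact ⟨fun h => ⟨fun j => s j, by simpa using h, rfl⟩,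
          fun ⟨g, hg, hs⟩ => by rw [← hs] at hg; simpa using hg⟩
      rw [this]
      exact MeasurableSet.biUnion (Set.to_countable _) fun g _ =>
        MeasurableSpace.measurableSet_generateFrom (Or.inr ⟨_, rfl⟩)
    · rintro _ (rfl | ⟨l, rfl⟩)
      exacts [MeasurableSet.empty, measurableSet_cyl l]
  · rintro _ (rfl | ⟨l, rfl⟩)
    · simp
    · simp only [quenched_cyl]; exact measurable_qw _ l

end Vale.Agent.P147
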