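import Vale.Agent.P147.Main
import Vale.Agent.P147.Conc3

/-!
Linearly growing range: finite mean number of sites of a block, and two forward traces in
dimension at least four avoid each other with positive probability.
-/

noncomputable section

namespace Vale.Agent.P147

open MeasureTheory ProbabilityTheory Filter
open scoped ENNReal Topology

variable {d : ℕ} {μ : Measure (Row d)} {ℓ : Fin d → ℤ}

/-- The number of visited sites grows at most linearly with the highest level reached. -/
def LinRange (ℓ : Fin d → ℤ) : Set (Walk d) :=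
  {s | ∃ C : ℕ, ∀ n L : ℕ, (∀ i ≤ n, lev ℓ (pos s i) ≤ L) →
    (visited (pre s n)).card ≤ C * (L + 1)}

/-- Same, with a given constant. -/
def LinRangeC (ℓ : Fin d → ℤ) (C : ℕ) : Set (Walk d) :=
  {s | ∀ n L : ℕ, (∀ i ≤ n, lev ℓ (pos s i) ≤ L) → (visited (pre s n)).card ≤ C * (L + 1)}

lemma measurableSet_linRangeC (ℓ : Fin d → ℤ) (C : ℕ) : MeasurableSet (LinRangeC ℓ C) := by
  have : LinRangeC ℓ C = ⋂ n : ℕ,
      (fun s => pre s n) ⁻¹' {l | ∀ L : ℕ, (∀ i ≤ n, Lt ℓ l i ≤ L) →
        (visited l).card ≤ C * (L + 1)} := by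
    ext s
    simp only [LinRangeC, Set.mem_ofPred_eq, Set.mem_iInter, Set.mem_preimage]
    refine forall_congr' fun n => forall_congr' fun L => ?_
    refine imp_congr (forall_congr' fun i => forall_congr' fun hi => ?_) Iff.rfl
    rw [Lt_pre s hi]
  rw [this]
  exact MeasurableSet.iInter fun n => measurable_pre n trivial

lemma linRange_eq (ℓ : Fin d → ℤ) : LinRange ℓ = ⋃ C, LinRangeC ℓ C := by
  ext s; simp [LinRange, LinRangeC]

lemma measurableSet_linRange (ℓ : Fin d → ℤ) : MeasurableSet (LinRange ℓ) := by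
  rw [linRange_eq]; exact MeasurableSet.iUnion fun C => measurableSet_linRangeC ℓ C

lemma linRange_shift (s : Walk d) (hs : s ∈ LinRange ℓ) (a : ℕ) : shift a s ∈ LinRange ℓ := by
  classical
  obtain ⟨C, hC⟩ := hs
  set L₀ := ∑ i ∈ Finset.range (a + 1), (lev ℓ (pos s i)).natAbs
  refine ⟨C * (L₀ + 1), fun n L hL => ?_⟩
  have h1 : ∀ i ≤ a + n, lev ℓ (pos s i) ≤ ((L + L₀ : ℕ) : ℤ) := by
    intro i hi
    have hb : ∀ j ≤ a, |lev ℓ (pos s j)| ≤ (L₀ : ℤ) := fun j hj => by
      have := Finset.single_le_sum (f := fun i => (lev ℓ (pos s i)).natAbs)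
        (fun k _ => Nat.zero_le _) (Finset.mem_range.2 (Nat.lt_succ_of_le hj))
      rw [Int.abs_eq_natAbs]
      exact_mod_cast this
    push_cast
    rcases le_total i a with h | h
    · have := (abs_le.1 (hb i h)).2; omega
    · obtain ⟨j, rfl⟩ := Nat.exists_eq_add_of_le h
      rw [lev_pos_shift]
      have := hL j (by omega)
      have := (abs_le.1 (hb a le_rfl)).2
      omega
  have h2 : (visited (pre (shift a s) n)).card ≤ (visited (pre s (a + n))).card := by
    refine Finset.card_le_card_of_injOn (fun x => pos s a + x) ?_ (fun x _ y _ h => add_left_cancel h)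
    intro x hx
    rw [Finset.mem_coe, mem_visited] at hx
    obtain ⟨i, hi, rfl⟩ := hx
    rw [length_pre] at hi
    rw [Finset.mem_coe, mem_visited]
    exact ⟨a + i, by simp; omega, by
      rw [endPt_take_pre _ (by omega), pos_add, endPt_take_pre _ hi]⟩
  calc _ ≤ C * (L + L₀ + 1) := h2.trans (hC _ _ h1)
    _ ≤ C * ((L₀ + 1) * (L + 1)) := Nat.mul_le_mul_left C (by nlinarith)
    _ = _ := by ring

lemma ballistic_subset_linRange : Ballistic ℓ ⊆ LinRange ℓ := by
  rintro s ⟨j, N, h⟩
  refine ⟨N + j + 1, fun n L hL => (card_visited_le _).trans ?_⟩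
  rw [length_pre]
  rcases le_or_gt N n with hn | hn
  · have h1 := h n hn
    have h2 : (j : ℤ) * lev ℓ (pos s n) ≤ j * L :=
      mul_le_mul_of_nonneg_left (hL n le_rfl) (Int.natCast_nonneg j)
    have h3 : n ≤ j * L := by exact_mod_cast h1.trans h2
    calc n + 1 ≤ j * L + 1 := by omega
      _ ≤ (N + j + 1) * (L + 1) := by nlinarith
  · calc n + 1 ≤ (N + j + 1) * 1 := by omega
      _ ≤ (N + j + 1) * (L + 1) := Nat.mul_le_mul_left _ (by omega)

/-- Sites of a block other than its end. -/
def blkSites (b : Blk ℓ) : ℕ := (visited b.1).card - 1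

lemma sum_blkSites_le {k : ℕ} (bs : Fin k → Blk ℓ) :
    ∑ i, blkSites (bs i) ≤ (visited (cat bs)).card := by
  classical
  induction k with
  | zero => simp
  | succ k ih =>
    rw [Fin.sum_univ_succ, cat_succ]
    set b := bs 0
    set m := cat (Fin.tail bs)
    have hsub1 : (visited b.1).erase (endPt b.1) ⊆ visited (b.1 ++ m) := by
      intro x hx
      obtain ⟨i, hi, rfl⟩ := mem_visited.1 (Finset.mem_of_mem_erase hx)
      exact mem_visited.2 ⟨i, by simp; omega, by rw [List.take_append_of_le_length hi]⟩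
    have hsub2 : (visited m).image (endPt b.1 + ·) ⊆ visited (b.1 ++ m) := by
      intro x hx
      obtain ⟨y, hy, rfl⟩ := Finset.mem_image.1 hx
      obtain ⟨i, hi, rfl⟩ := mem_visited.1 hy
      exact mem_visited.2 ⟨b.1.length + i, by simp; omega, by
        rw [List.take_length_add_append, endPt_append]⟩
    have hdisj : Disjoint ((visited b.1).erase (endPt b.1))
        ((visited m).image (endPt b.1 + ·)) := by
      rw [Finset.disjoint_left]
      intro x hx hx'
      obtain ⟨y, hy, rfl⟩ := Finset.mem_image.1 hx'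
      obtain ⟨j, hj, rfl⟩ := mem_visited.1 hy
      obtain ⟨hne, hxv⟩ := Finset.mem_erase.1 hx
      obtain ⟨i, hi, he⟩ := mem_visited.1 hxv
      have hilt : i < b.1.length := by
        rcases hi.lt_or_eq with h | h
        · exact h
        · exact absurd (by rw [← he, h, List.take_length]) hne
      have h1 := b.2.last i hilt
      have h2 := cat_nonneg (Fin.tail bs) j hj
      rw [Lt_length] at h1
      simp only [Lt, he, map_add] at h1 h2
      linarith
    calc blkSites b + ∑ i : Fin k, blkSites (bs i.succ)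
        ≤ ((visited b.1).erase (endPt b.1)).card + (visited m).card := by
          refine add_le_add ?_ (ih (Fin.tail bs))
          rw [Finset.card_erase_of_mem (mem_visited.2 ⟨_, le_rfl, by rw [List.take_length]⟩)]
          exact le_rfl
      _ = ((visited b.1).erase (endPt b.1) ∪ (visited m).image (endPt b.1 + ·)).card := by
          rw [Finset.card_union_of_disjoint hdisj,
            Finset.card_image_of_injective _ (add_right_injective (endPt b.1))]
      _ ≤ _ := Finset.card_le_card (Finset.union_subset hsub1 hsub2)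

variable [IsProbabilityMeasure μ]

theorem mean_blkSites (hp : annealed μ (Dp ℓ) ≠ 0)
    (hG : annealed μ (Dp ℓ ∩ LinRange ℓ) ≠ 0) :
    ∑' b, blkPMF μ hp b * (blkSites b : ℝ≥0∞) ≠ ⊤ := by
  classical
  set q := blkPMF μ hp with hq
  set p := annealed μ (Dp ℓ) with hpdef
  obtain ⟨C, hC⟩ : ∃ C : ℕ, annealed μ (Dp ℓ ∩ LinRangeC ℓ C) ≠ 0 := by
    by_contra hc
    push Not at hc
    refine hG (measure_mono_null (t := ⋃ C : ℕ, Dp ℓ ∩ LinRangeC ℓ C) ?_ (measure_iUnion_null hc))
    rw [linRange_eq, Set.inter_iUnion]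
  set δ := annealed μ (Dp ℓ ∩ LinRangeC ℓ C) with hδ
  have hk : ∀ k, δ ≤ seqLaw q {ω | psum blkSites ω k ≤ C * (psum blkLev ω k + 1)} := by
    intro k
    set U := ⋃ bs : Fin k → Blk ℓ, blkEvent bs with hU
    have hUm : MeasurableSet U := MeasurableSet.iUnion fun bs => measurableSet_blkEvent bs
    have hUp : annealed μ U = p := by
      rw [hU, measure_iUnion (blkEvent_disjoint k) measurableSet_blkEvent]
      simp only [annealed_blkEvent]
      rw [ENNReal.tsum_mul_right]
      have := seqLaw_head_mem_one q k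
      simp only [hq, blkPMF_apply] at this
      rw [this, one_mul]
    have hnull : annealed μ (Dp ℓ \ U) = 0 := by
      rw [measure_sdiff (Set.iUnion_subset fun bs => blkEvent_subset_Dp bs) hUm.nullMeasurableSet
        (measure_ne_top _ _), hUp, tsub_self]
    set S := {bs : Fin k → Blk ℓ | ∑ i, blkSites (bs i) ≤ C * (∑ i, blkLev (bs i) + 1)}
    have hsub : Dp ℓ ∩ LinRangeC ℓ C ⊆ (Dp ℓ \ U) ∪ ⋃ bs : S, blkEvent bs.1 := by
      intro s ⟨hs, hsG⟩
      by_cases hsU : s ∈ U
      · obtain ⟨bs, hbs⟩ := Set.mem_iUnion.1 hsU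
        refine Or.inr (Set.mem_iUnion.2 ⟨⟨bs, ?_⟩, hbs⟩)
        refine (sum_blkSites_le bs).trans ?_
        have h1 := hsG (cat bs).length (∑ i, blkLev (bs i)) fun i hi => by
          rw [pos_of_mem_cyl hbs.1 hi, ← lev_cat]
          rcases hi.lt_or_eq with h | h
          · exact (cat_last bs i h).le
          · rw [h, List.take_length]
        rwa [(mem_cyl_iff _ _).1 hbs.1] at h1
      · exact Or.inl ⟨hs, hsU⟩
    calc δ ≤ annealed μ (Dp ℓ \ U) + annealed μ (⋃ bs : S, blkEvent bs.1) :=
          (measure_mono hsub).trans (measure_union_le _ _)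
      _ ≤ ∑' bs : S, annealed μ (blkEvent bs.1) := by
          rw [hnull, zero_add]; exact measure_iUnion_le _
      _ ≤ ∑' bs : S, ∏ i, q (bs.1 i) := ENNReal.tsum_le_tsum fun bs => by
          rw [annealed_blkEvent]; exact mul_le_of_le_one_right' prob_le_one
      _ = _ := by
          rw [tsum_subtype S (fun bs => ∏ i, q (bs i)), ← seqLaw_head_mem]
          congr 1
          ext ω
          simp [S, psum_head]
  have hμ := mean_blkLev hp
  set EW := ∑' b, q b * (blkLev b : ℝ≥0∞) with hEW
  have hδ2 : δ / 2 ≠ 0 := by simpa [ENNReal.div_eq_zero_iff] using hC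
  have hδt : δ ≠ ⊤ := measure_ne_top _ _
  obtain ⟨M, hM⟩ : ∃ M : ℕ, EW / (M + 1 : ℕ) ≤ δ / 2 := by
    have h := ENNReal.Tendsto.const_mul (a := EW) ENNReal.tendsto_inv_nat_nhds_zero (Or.inr hμ)
    rw [mul_zero] at h
    obtain ⟨M, hM⟩ := eventually_atTop.1
      ((ENNReal.tendsto_nhds_zero.1 h) _ (pos_iff_ne_zero.2 hδ2))
    exact ⟨M, by rw [div_eq_mul_inv]; exact hM (M + 1) (Nat.le_succ M)⟩
  refine mean_ne_top q blkSites hδ2 (ENNReal.div_ne_top hδt (by simp))
    (E := δ / 2) (ENNReal.div_ne_top hδt (by simp)) (C * (M + 1)) (C + 1) fun n => ?_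
  set g := fun k => seqLaw q {ω | psum blkSites ω k < C * (M + 1) * n + (C + 1)}
  have hg : ∀ k, 1 ≤ k → k < n → δ / 2 ≤ g k := by
    intro k h1 h2
    have hmk : seqLaw q {ω | (M + 1) * k ≤ psum blkLev ω k} ≤ δ / 2 := by
      refine le_trans ?_ hM
      have hk0 : (k : ℝ≥0∞) ≠ 0 := by simp; omega
      have hmark := mul_meas_ge_le_lintegral (μ := seqLaw q)
        ((measurable_of_countable fun m : ℕ => (m : ℝ≥0∞)).fun_comp (measurable_psum blkLev k))
        (((M + 1) * k : ℕ) : ℝ≥0∞)
      rw [lintegral_psum] at hmark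
      have e : {ω : ℕ → Blk ℓ | (((M + 1) * k : ℕ) : ℝ≥0∞) ≤ ((psum blkLev ω k : ℕ) : ℝ≥0∞)} =
          {ω | (M + 1) * k ≤ psum blkLev ω k} := by ext; simp only [Set.mem_ofPred_eq, Nat.cast_le]
      rw [e, Nat.cast_mul, mul_comm ((M + 1 : ℕ) : ℝ≥0∞) (k : ℝ≥0∞), mul_assoc,
        ENNReal.mul_le_mul_iff_right hk0 (ENNReal.natCast_ne_top k)] at hmark
      rw [ENNReal.le_div_iff_mul_le (Or.inl (by simp)) (Or.inl (by simp)), mul_comm]
      exact hmark
    have hle : δ ≤ g k + δ / 2 := by
      refine (hk k).trans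
        (le_trans (measure_mono ?_) ((measure_union_le _ _).trans (add_le_add le_rfl hmk)))
      intro ω hω
      simp only [Set.mem_union, Set.mem_ofPred_eq] at hω ⊢
      rcases le_or_gt ((M + 1) * k) (psum blkLev ω k) with h | h
      · exact Or.inr h
      · refine Or.inl ?_
        have h3 : C * psum blkLev ω k ≤ C * ((M + 1) * n) :=
          Nat.mul_le_mul_left C (h.le.trans (Nat.mul_le_mul_left _ h2.le))
        rw [← mul_assoc] at h3
        rw [mul_add, mul_one] at hω
        omega
    conv_lhs at hle => rw [← ENNReal.add_halves δ]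
    exact (ENNReal.add_le_add_iff_right (ENNReal.div_ne_top hδt (by simp))).1 hle
  calc (n : ℝ≥0∞) * (δ / 2) = ∑ _k ∈ Finset.range n, δ / 2 := by simp
    _ ≤ ∑ k ∈ Finset.range n, (g k + if k = 0 then δ / 2 else 0) :=
      Finset.sum_le_sum fun k hk' => by
        split_ifs with h
        · exact le_add_self
        · rw [add_zero]; exact hg k (by omega) (Finset.mem_range.1 hk')
    _ = (∑ k ∈ Finset.range n, g k) + ∑ k ∈ Finset.range n, if k = 0 then δ / 2 else 0 :=
      Finset.sum_add_distrib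
    _ ≤ _ := by
      refine add_le_add (ENNReal.sum_le_tsum _) ?_
      rw [Finset.sum_ite_eq' (Finset.range n) 0]
      split_ifs <;> simp

/-- The blocks in direction `ℓ`, read forwards. -/
def up (μ : Measure (Row d)) [IsProbabilityMeasure μ] {ℓ : Fin d → ℤ}
    (hp : annealed μ (Dp ℓ) ≠ 0) : Side (Blk ℓ) d where
  law := blkPMF μ hp
  dsp b := endPt b.1
  pts b := visited b.1

lemma exists_block (hℓ : ℓ ≠ 0) {w : Fin d → ℤ} (hw : lev ℓ w = 0) :
    ∃ H₀ : ℕ, ∀ H, H₀ ≤ H → ∀ e e' : Dir d, 0 < lev ℓ (dirVec e) → dirVec e' = -dirVec e →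
      ∃ bb : Blk ℓ, endPt bb.1 = H • dirVec e + w := by
  obtain ⟨q, Bq, hq0, hq, hq1, hqpos, hqB⟩ := exists_hump hℓ hw
  refine ⟨Bq + 2, fun H hH e e' he he' => ?_⟩
  set α := lev ℓ (dirVec e) with hα
  set Q := H - 1 with hQ
  have hQ1 : Bq + 1 ≤ Q := by omega
  set top := List.replicate Q e ++ List.replicate Q e' with htop
  set r := q ++ top with hr
  have hrend : endPt r = w := by simp [r, top, endPt_replicate, he', hq]
  have hrlev : ∀ i ≤ r.length, 0 ≤ Lt ℓ r i ∧ Lt ℓ r i ≤ Q * α := by
    intro i hi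
    rcases le_or_gt i q.length with h | h
    · rw [hr, Lt_append_left _ _ _ h]
      refine ⟨?_, (hqB i h).trans ?_⟩
      · rcases Nat.eq_zero_or_pos i with rfl | h0
        · simp
        rcases h.lt_or_eq with hl | hl
        · exact (hqpos i hl h0).le
        · rw [hl, Lt_length, hq, hw]
      · calc (Bq : ℤ) ≤ Q := by exact_mod_cast (Nat.le_succ _).trans hQ1
          _ ≤ Q * α := le_mul_of_one_le_right (by positivity) he
    · obtain ⟨t, rfl⟩ := Nat.exists_eq_add_of_le h.le
      rw [hr, Lt_append_right, hq, hw, zero_add]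
      rcases le_or_gt t Q with h2 | h2
      · rw [htop, Lt_append_left _ _ _ (by simpa using h2), Lt_replicate _ _ _ h2]
        exact ⟨by positivity, mul_le_mul_of_nonneg_right (by exact_mod_cast h2) he.le⟩
      · obtain ⟨u, rfl⟩ := Nat.exists_eq_add_of_le h2.le
        have hu : u ≤ Q := by simp [r, top] at hi; omega
        have e1 := Lt_append_right ℓ (List.replicate Q e) (List.replicate Q e') u
        rw [List.length_replicate, endPt_replicate, map_nsmul, nsmul_eq_mul] at e1
        rw [htop, e1, Lt_replicate _ _ _ hu, he', map_neg]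
        have : (u : ℤ) * α ≤ Q * α := mul_le_mul_of_nonneg_right (by exact_mod_cast hu) he.le
        have : 0 ≤ (u : ℤ) * α := by positivity
        constructor <;> linarith
  have htopQ : Lt ℓ r (q.length + Q) = Q * α := by
    rw [hr, Lt_append_right, hq, hw, zero_add, htop, Lt_append_left _ _ _ (by simp),
      Lt_replicate _ _ _ le_rfl]
  set bl := r ++ List.replicate H e with hbl
  have hHQ : (Q : ℤ) + 1 = H := by exact_mod_cast (by omega : Q + 1 = H)
  have hafter : ∀ t ≤ H, Lt ℓ bl (r.length + t) = t * α := fun t ht => by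
    rw [hbl, Lt_append_right, hrend, hw, zero_add, Lt_replicate _ _ _ ht]
  have hlen : bl.length = r.length + H := by simp [bl]
  have hend : Lt ℓ bl bl.length = H * α := by rw [hlen]; exact hafter H le_rfl
  refine ⟨⟨bl, ⟨by simp [bl]; omega, fun i hi => ?_, fun i hi => ?_, fun j hj0 hj hreg => ?_⟩⟩, ?_⟩
  · rcases le_or_gt i r.length with h | h
    · rw [hbl, Lt_append_left _ _ _ h]; exact (hrlev i h).1
    · obtain ⟨t, rfl⟩ := Nat.exists_eq_add_of_le h.le
      rw [hafter t (by omega)]; positivity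
  · rw [hend]
    rcases le_or_gt i r.length with h | h
    · rw [hbl, Lt_append_left _ _ _ h, ← hHQ]
      nlinarith [(hrlev i h).2]
    · obtain ⟨t, rfl⟩ := Nat.exists_eq_add_of_le h.le
      rw [hafter t (by omega)]
      exact mul_lt_mul_of_pos_right (by exact_mod_cast (by omega : t < H)) he
  · rcases le_or_gt j r.length with h | h
    · have h1 := hreg.1 0 hj0
      have h2 := hreg.2 r.length h (by omega)
      have h3 := hafter 0 (Nat.zero_le _)
      simp only [add_zero, Nat.cast_zero, zero_mul] at h3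
      rw [Lt_zero] at h1
      omega
    · obtain ⟨t, rfl⟩ := Nat.exists_eq_add_of_le h.le
      have hle : q.length + Q ≤ r.length := by simp [r, top]
      have h1 := hreg.1 (q.length + Q) (by omega)
      rw [hafter t (by omega)] at h1
      have h2 : Lt ℓ bl (q.length + Q) = Q * α := by
        rw [hbl, Lt_append_left _ _ _ hle]; exact htopQ
      rw [h2] at h1
      have : (t : ℤ) * α ≤ Q * α :=
        mul_le_mul_of_nonneg_right (by exact_mod_cast (by omega : t ≤ Q)) he.le
      linarith
  · show endPt bl = _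
    rw [hbl, endPt_append, hrend, endPt_replicate, add_comm]

theorem good_up (hd : 3 ≤ d) (he : IsElliptic μ) (hp : annealed μ (Dp ℓ) ≠ 0)
    (hG : annealed μ (Dp ℓ ∩ LinRange ℓ) ≠ 0) : Good (lev (-ℓ)) (up μ hp) where
  dsp_le b := by
    have := b.2.lev_pos
    simp only [up, lev_neg_left]
    omega
  pts_le b x hx := by
    simp only [up, mem_visited] at hx
    obtain ⟨i, hi, rfl⟩ := hx
    have h1 := b.2.nonneg i hi
    have h2 : Lt ℓ b.1 i ≤ lev ℓ (endPt b.1) := by
      rcases hi.lt_or_eq with h | h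
      · exact ((b.2.last i h).le).trans_eq (Lt_length ℓ b.1)
      · rw [h, Lt_length]
    simp only [Lt] at h1 h2
    simp only [up, lev_neg_left]
    constructor <;> linarith
  corners := by
    obtain ⟨v, k₂, k₃, b₀, b₂, b₃, b₄, h₂, h₃, hind, e₀, e₂, e₃, e₄⟩ :=
      exists_corners hd (ne_zero_of_Dp hp)
    exact ⟨v, k₂, k₃, b₀, b₂, b₃, b₄, by rw [lev_neg_left, h₂, neg_zero],
      by rw [lev_neg_left, h₃, neg_zero], hind, e₀, e₂, e₃, e₄,
      (W_pos he _).ne', (W_pos he _).ne', (W_pos he _).ne', (W_pos he _).ne'⟩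
  meanDepth := by
    simpa [up, blkLev, lev_neg_left] using mean_blkLev hp
  meanCard := by
    refine ne_top_of_le_ne_top
      (ENNReal.add_ne_top.2 ⟨mean_blkSites hp hG, ENNReal.one_ne_top⟩) ?_
    rw [← (blkPMF μ hp).tsum_coe, ← ENNReal.tsum_add]
    refine ENNReal.tsum_le_tsum fun b => ?_
    calc blkPMF μ hp b * ((visited b.1).card : ℝ≥0∞)
        ≤ blkPMF μ hp b * ((blkSites b + 1 : ℕ) : ℝ≥0∞) :=
          mul_le_mul' le_rfl (Nat.cast_le.2 (by unfold blkSites; omega))
      _ = _ := by push_cast; ring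

/-- In dimension at least four the skeletons have finitely many common points in mean. -/
theorem cnt_up_ne_top (hd : 4 ≤ d) (he : IsElliptic μ) (hp : annealed μ (Dp ℓ) ≠ 0)
    (hA : Good (lev (-ℓ)) (up μ hp)) :
    cnt (up μ hp) (up μ hp) 0 Set.univ ≠ ⊤ := by
  classical
  have hℓ := ne_zero_of_Dp hp
  obtain ⟨i₀, hi₀⟩ : ∃ i, ℓ i ≠ 0 := Function.ne_iff.1 hℓ
  obtain ⟨g, hg⟩ : ∃ g : Fin 3 ↪ Fin d, ∀ i, g i ≠ i₀ := by
    have hc : 3 ≤ (Finset.univ.erase i₀).card := by simp; omega
    obtain ⟨T, hT, hTc⟩ := Finset.exists_subset_card_eq hc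
    exact ⟨(T.orderIsoOfFin hTc).toEquiv.toEmbedding.trans (Function.Embedding.subtype _),
      fun i => Finset.ne_of_mem_erase (hT ((T.orderIsoOfFin hTc) i).2)⟩
  set k : Fin 3 → (Fin d → ℤ) := fun i =>
    Pi.single (g i) (ℓ i₀) - Pi.single i₀ (ℓ (g i)) with hk
  have hk0 : ∀ i, lev ℓ (k i) = 0 := fun i => by
    rw [hk, map_sub]; simp [lev, Pi.single_apply, mul_comm]
  obtain ⟨e, e', hee, hee'⟩ := exists_up hℓ
  have hcube : ∀ b, lev ℓ (cube (k 0) (k 1) (k 2) b) = 0 := fun b => by
    simp only [cube, map_add]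
    split_ifs <;> simp [hk0]
  have hblk := fun b => exists_block hℓ (hcube b)
  choose H₀ hH using hblk
  set H := ∑ b, H₀ b
  choose bl hbl using fun b => hH b H
    (Finset.single_le_sum (f := H₀) (fun _ _ => Nat.zero_le _) (Finset.mem_univ b)) e e' hee hee'
  have hind : ∀ a b c : ℤ, a • k 0 + b • k 1 + c • k 2 = 0 → a = 0 ∧ b = 0 ∧ c = 0 := by
    intro a b c h
    have hne : ∀ i j : Fin 3, i ≠ j → g i ≠ g j := fun i j hij hc => hij (g.injective hc)
    have h0 := congrFun h (g 0)
    have h1 := congrFun h (g 1)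
    have h2 := congrFun h (g 2)
    simp [hk, hg, hne 0 1 (by decide), hne 0 2 (by decide), hne 1 2 (by decide),
      hne 1 0 (by decide), hne 2 0 (by decide), hne 2 1 (by decide), hi₀] at h0 h1 h2
    exact ⟨h0, h1, h2⟩
  obtain ⟨C, -, hb⟩ := stepOp_iter_graph_le3 (blkPMF μ hp) (fun b => endPt b.1) (lev (-ℓ))
    (H • dirVec e) (k 0) (k 1) (k 2) (by rw [lev_neg_left, hk0, neg_zero])
    (by rw [lev_neg_left, hk0, neg_zero]) (by rw [lev_neg_left, hk0, neg_zero]) hind bl hbl
    (fun b => (W_pos he _).ne')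
  set A := up μ hp with hAdef
  set b : ℕ → ℝ≥0∞ := fun i => ENNReal.ofReal (C * decay ((i : ℝ) + 1))
  have hrow : ∀ i, ∑' j, pairLaw A A (Match A A 0 (i, j)) ≤ b i := by
    intro i
    rw [← measure_iUnion (μ := pairLaw A A) (f := fun j => Match A A 0 (i, j))
      (fun j j' h => Set.disjoint_left.2 fun x hj hj' =>
        h (congrArg Prod.snd (match_eq_of_fst hA hA hj hj' rfl)))
      (fun j => measurableSet_match A A 0 (i, j))]
    rw [pairLaw, Measure.prod_apply_symm
      (MeasurableSet.iUnion fun j => measurableSet_match A A 0 (i, j))]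
    calc ∫⁻ η, seqLaw A.law ((fun ω => (ω, η)) ⁻¹' ⋃ j, Match A A 0 (i, j)) ∂seqLaw A.law
        ≤ ∫⁻ _, b i ∂seqLaw A.law := by
          refine lintegral_mono fun η => ?_
          let f : ℤ → (Fin d → ℤ) := fun l =>
            if h : ∃ j, lev (-ℓ) (A.S η j) = l then A.S η h.choose else 0
          refine le_trans (le_trans (measure_mono
            (t := {ω | A.S ω i = f (lev (-ℓ) (A.S ω i))}) ?_) (le_of_eq ?_)) (hb i f 0)
          · intro ω hω
            simp only [Set.mem_preimage, Set.mem_iUnion] at hω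
            obtain ⟨j, hj⟩ := hω
            have hj' : A.S ω i = A.S η j := by simpa [Match] using hj
            have hex : ∃ j', lev (-ℓ) (A.S η j') = lev (-ℓ) (A.S ω i) := ⟨j, by rw [hj']⟩
            show A.S ω i = f (lev (-ℓ) (A.S ω i))
            simp only [f, dif_pos hex]
            have hc := hex.choose_spec.trans (congrArg (lev (-ℓ)) hj')
            have : hex.choose = j := by
              rcases lt_trichotomy hex.choose j with hl | hl | hl
              · have := hA.lev_S_lt η hl; linarith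
              · exact hl
              · have := hA.lev_S_lt η hl; linarith
            rw [this]; exact hj'
          · show _ = (stepOp A.law A.dsp)^[i] (graphInd (lev (-ℓ)) f) 0
            rw [← lintegral_S, ← lintegral_indicator_one
              (s := {ω | A.S ω i = f (lev (-ℓ) (A.S ω i))})
              ((A.measurable_S i) (Set.to_countable {y | y = f (lev (-ℓ) y)}).measurableSet)]
            refine lintegral_congr fun ω => ?_
            simp [graphInd, Set.indicator_apply]
      _ = b i := by simp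
  refine ne_top_of_le_ne_top (sum_decay_ne_top C) ?_
  rw [cnt, tsum_univ (fun p : ℕ × ℕ => pairLaw A A (Match A A 0 p)), ENNReal.tsum_prod']
  exact ENNReal.tsum_le_tsum hrow

/-- Two forward traces with a suitable offset avoid each other with positive probability. -/
theorem exists_offset (hd : 4 ≤ d) (he : IsElliptic μ) (hp : annealed μ (Dp ℓ) ≠ 0)
    (hG : annealed μ (Dp ℓ ∩ LinRange ℓ) ≠ 0) :
    ∃ y : Fin d → ℤ, lev ℓ y = 0 ∧
      (2 : ℝ≥0∞)⁻¹ ≤ pairLaw (up μ hp) (up μ hp) (HitIn (up μ hp) (up μ hp) y Set.univ)ᶜ := by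
  have hA := good_up (by omega) he hp hG
  obtain ⟨v, κ, k₃, b₀, b₂, b₃, b₄, hκ, -, hind, -⟩ :=
    exists_corners (by omega : 3 ≤ d) (ne_zero_of_Dp hp)
  have hκ0 : κ ≠ 0 := fun h => by
    have := (hind 1 0 (by simp [h])).1
    omega
  obtain ⟨r, -, hr⟩ := exists_far hA hA (cnt_up_ne_top hd he hp hA)
    (κ := κ) (by rw [lev_neg_left, hκ, neg_zero]) hκ0
  exact ⟨r • κ, by rw [map_zsmul, hκ, smul_zero], hr⟩

end Vale.Agent.P147
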