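import Vale.Agent.P147.Blocks

noncomputable section

namespace Vale.Agent.P147

open MeasureTheory ProbabilityTheory Filter
open scoped ENNReal Topology

variable {d : ℕ} {μ : Measure (Row d)} {ℓ : Fin d → ℤ}

/-- Escape to `+∞` in direction `ℓ`. -/
def Ap (ℓ : Fin d → ℤ) : Set (Walk d) :=
  {s | Tendsto (fun n => lev ℓ (pos s n)) atTop atTop}

/-- All levels nonnegative. -/
def D0 (ℓ : Fin d → ℤ) : Set (Walk d) := {s | ∀ n, 0 ≤ lev ℓ (pos s n)}

lemma measurableSet_D0 (ℓ : Fin d → ℤ) : MeasurableSet (D0 ℓ) := by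
  have : D0 ℓ = ⋂ n, (fun s : Walk d => lev ℓ (pos s n)) ⁻¹' {z | 0 ≤ z} := by ext; simp [D0]
  rw [this]
  exact MeasurableSet.iInter fun n => measurable_lev_pos ℓ n (Set.to_countable _).measurableSet

lemma Dp_subset_D0 : Dp ℓ ⊆ D0 ℓ := fun _ hs => hs.1

lemma fresh_of_last {l : List (Dir d)}
    (hlast : ∀ i < l.length, Lt ℓ l i < lev ℓ (endPt l)) {s : Walk d} (hs : s ∈ D0 ℓ) (n : ℕ) :
    endPt l + pos s n ∉ srcs 0 l := by
  intro h
  obtain ⟨i, hi, he⟩ := mem_srcs.1 h
  rw [zero_add] at he
  have h1 := congrArg (lev ℓ) he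
  rw [map_add] at h1
  have h2 := hlast i hi
  have h3 := hs n
  simp only [Lt] at h2
  linarith

section disjoint

lemma cyl_disjoint_of_length_eq {l m : List (Dir d)} (h : l.length = m.length) (hne : l ≠ m) :
    Disjoint (cyl l) (cyl m) :=
  Set.disjoint_left.2 fun s hl hm => hne <| by
    rw [← (mem_cyl_iff l s).1 hl, h, (mem_cyl_iff m s).1 hm]

/-- A family of finite paths none of which is a strict prefix of another gives disjoint cylinders. -/
lemma cyl_pairwise_disjoint {S : Set (List (Dir d))}
    (h : ∀ s : Walk d, ∀ a b, pre s a ∈ S → pre s b ∈ S → a = b) :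
    Pairwise fun x y : S => Disjoint (cyl x.1) (cyl y.1) := by
  rintro ⟨l, hl⟩ ⟨m, hm⟩ hne
  refine Set.disjoint_left.2 fun s hsl hsm => hne ?_
  have e1 := (mem_cyl_iff l s).1 hsl
  have e2 := (mem_cyl_iff m s).1 hsm
  have := h s l.length m.length (by rw [e1]; exact hl) (by rw [e2]; exact hm)
  exact Subtype.ext (e1.symm.trans ((congrArg (pre s) this).trans e2))

lemma cyl_subset_of_take {l m : List (Dir d)} (h : m.take l.length = l) : cyl m ⊆ cyl l := by
  intro s hs
  rw [← List.take_append_drop l.length m, h, cyl_append] at hs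
  exact hs.1

lemma tsum_W_le [IsProbabilityMeasure μ] {S : Set (List (Dir d))}
    (h : ∀ s : Walk d, ∀ a b, pre s a ∈ S → pre s b ∈ S → a = b) {E : Set (Walk d)}
    (hE : ∀ l ∈ S, cyl l ⊆ E) : ∑' l : S, W μ l.1 ≤ annealed μ E := by
  simp only [← annealed_cyl]
  rw [← measure_iUnion (cyl_pairwise_disjoint h) fun l => measurableSet_cyl _]
  exact measure_mono (Set.iUnion_subset fun l => hE _ l.2)

end disjoint

/-- The first passage paths over level `m` after time `n`. -/
def firstPass (ℓ : Fin d → ℤ) (m : ℤ) : Set (List (Dir d)) :=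
  {l | m ≤ lev ℓ (endPt l) ∧ ∀ i < l.length, Lt ℓ l i < m}

lemma firstPass_unique (m : ℤ) (s : Walk d) (a b : ℕ) (ha : pre s a ∈ firstPass ℓ m)
    (hb : pre s b ∈ firstPass ℓ m) : a = b := by
  by_contra hne
  wlog hab : a < b generalizing a b
  · exact this b a hb ha (Ne.symm hne) (by omega)
  have := hb.2 a (by simpa using hab)
  rw [Lt_pre s hab.le] at this
  have h2 := ha.1
  rw [endPt_pre] at h2
  omega

lemma exists_firstPass {s : Walk d} (m : ℤ) (h : ∃ n, m ≤ lev ℓ (pos s n)) :
    ∃ a, pre s a ∈ firstPass ℓ m := by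
  classical
  refine ⟨Nat.find h, by rw [endPt_pre]; exact Nat.find_spec h, fun i hi => ?_⟩
  rw [length_pre] at hi
  rw [Lt_pre s hi.le]
  exact not_le.1 (Nat.find_min h hi)

lemma firstPass_last {m : ℤ} {l : List (Dir d)} (hl : l ∈ firstPass ℓ m) :
    ∀ i < l.length, Lt ℓ l i < lev ℓ (endPt l) := fun i hi => (hl.2 i hi).trans_le hl.1

variable [IsProbabilityMeasure μ]

theorem annealed_Dp_inter_ne_zero {G : Set (Walk d)} (hG : MeasurableSet G) (hGA : G ⊆ Ap ℓ)
    (hshift : ∀ s ∈ G, ∀ a, shift a s ∈ G) (hpos : annealed μ G ≠ 0) :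
    annealed μ (Dp ℓ ∩ G) ≠ 0 := by
  classical
  intro h0
  refine hpos (measure_mono_null (t := ⋃ l : List (Dir d), cyl l ∩
    shift l.length ⁻¹' (Dp ℓ ∩ G)) ?_ (measure_iUnion_null fun l => ?_))
  · intro s hs
    obtain ⟨N, hN⟩ := Filter.tendsto_atTop_atTop.1 (hGA hs) 0
    obtain ⟨a, ha, hmin⟩ := Finset.exists_min_image (Finset.range (N + 1))
      (fun n => lev ℓ (pos s n)) ⟨0, by simp⟩
    have hz : lev ℓ (pos s a) ≤ 0 := by simpa [pos] using hmin 0 (by simp)
    refine Set.mem_iUnion.2 ⟨pre s a, by simp [mem_cyl_iff], ?_⟩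
    rw [length_pre]
    refine ⟨⟨fun n => ?_, (tendsto_shift_iff s a).2 (hGA hs)⟩, hshift s hs a⟩
    have key : lev ℓ (pos s a) ≤ lev ℓ (pos s (a + n)) := by
      rcases le_or_gt (a + n) N with h | h
      · exact hmin _ (by simp; omega)
      · exact hz.trans (hN _ h.le)
    rw [lev_pos_shift] at key
    linarith
  · have hm : MeasurableSet (Dp ℓ ∩ G) := (measurableSet_Dp ℓ).inter hG
    have hmeas : Measurable fun ω : Env d => quenched ω (Dp ℓ ∩ G) :=
      (Measure.measurable_coe hm).comp measurable_quenched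
    rw [annealed_apply ((measurableSet_cyl _).inter (measurable_shift _ hm))]
    simp only [quenched_markov _ _ hm]
    have h1 : ∫⁻ ω, quenched (tau (endPt l) ω) (Dp ℓ ∩ G) ∂envLaw μ = 0 := by
      rw [← lintegral_map hmeas (measurable_tau _), envLaw_map_tau, ← annealed_apply hm, h0]
    have hcomp : Measurable fun ω : Env d => quenched (tau (endPt l) ω) (Dp ℓ ∩ G) :=
      hmeas.comp (measurable_tau _)
    rw [lintegral_eq_zero_iff hcomp] at h1
    rw [lintegral_eq_zero_iff ((measurable_qw 0 l).fun_mul hcomp)]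
    filter_upwards [h1] with ω hω
    simp only [Pi.zero_apply] at hω ⊢
    simp [hω]

theorem annealed_noRegen (hp : annealed μ (Dp ℓ) ≠ 0) :
    annealed μ (Ap ℓ ∩ {s | ∀ j, 0 < j → ¬RegenTime ℓ s j}) = 0 := by
  classical
  set N := Ap ℓ ∩ {s : Walk d | ∀ j, 0 < j → ¬RegenTime ℓ s j} with hN
  set p := annealed μ (D0 ℓ) with hpdef
  have hp0 : p ≠ 0 := fun h => hp (measure_mono_null Dp_subset_D0 h)
  have hp1 : p ≤ 1 := prob_le_one
  have main : ∀ k : ℕ, ∀ l : List (Dir d), annealed μ (cyl l ∩ N) ≤ (1 - p) ^ k * W μ l := by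
    intro k
    induction k with
    | zero =>
      intro l
      simpa [annealed_cyl] using measure_mono (μ := annealed μ) (Set.inter_subset_left (s := cyl l))
    | succ k ih =>
      intro l
      obtain ⟨M, hM⟩ : ∃ M : ℤ, ∀ i ≤ l.length, Lt ℓ l i < M :=
        ⟨1 + ∑ i ∈ Finset.range (l.length + 1), |Lt ℓ l i|, fun i hi => by
          have := Finset.single_le_sum (f := fun i => |Lt ℓ l i|) (fun j _ => abs_nonneg _)
            (Finset.mem_range.2 (Nat.lt_succ_of_le hi))
          have := le_abs_self (Lt ℓ l i)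
          linarith⟩
      let S : Set (List (Dir d)) := {m | m ∈ firstPass ℓ M ∧ m.take l.length = l}
      have hS : ∀ s : Walk d, ∀ a b, pre s a ∈ S → pre s b ∈ S → a = b :=
        fun s a b ha hb => firstPass_unique M s a b ha.1 hb.1
      -- failed attempts after `m`
      let F : List (Dir d) → Set (List (Dir d)) := fun m =>
        {m' | m'.take m.length = m ∧ m.length < m'.length ∧
          lev ℓ (endPt m') < lev ℓ (endPt m) ∧
          ∀ i, m.length ≤ i → i < m'.length → lev ℓ (endPt m) ≤ Lt ℓ m' i}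
      have hFu : ∀ m, ∀ s : Walk d, ∀ a b, pre s a ∈ F m → pre s b ∈ F m → a = b := by
        intro m s a b ha hb
        by_contra hne
        wlog hab : a < b generalizing a b
        · exact this b a hb ha (Ne.symm hne) (by omega)
        have h1 := hb.2.2.2 a (by have := ha.2.1; simp at this; omega) (by simpa using hab)
        rw [Lt_pre s hab.le] at h1
        have h2 := ha.2.2.1
        rw [endPt_pre] at h2
        omega
      have cover : cyl l ∩ N ⊆ ⋃ m : S, ⋃ m' : F m.1, cyl m'.1 ∩ N := by
        rintro s ⟨hsl, hsA, hsR⟩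
        obtain ⟨a, ha⟩ := exists_firstPass (ℓ := ℓ) (s := s) M
          ((Filter.tendsto_atTop.1 hsA M).exists)
        have hla : l.length < a := by
          by_contra hc
          have h1 := hM a (not_lt.1 hc)
          have h2 := ha.1
          rw [endPt_pre] at h2
          have h3 : Lt ℓ l a = lev ℓ (pos s a) := by
            simp [Lt, pos_of_mem_cyl hsl (not_lt.1 hc)]
          omega
        have hmS : pre s a ∈ S := ⟨ha, by
          refine List.ext_getElem (by simp; omega) fun i h1 h2 => ?_
          rw [List.getElem_take, getElem_pre]; exact hsl i h2⟩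
        have hfail : ∃ b, a < b ∧ lev ℓ (pos s b) < lev ℓ (pos s a) := by
          by_contra hc
          refine hsR a (by omega) ⟨fun i hi => ?_, fun i hi => ?_⟩
          · have h1 := ha.2 i (by simpa using hi)
            rw [Lt_pre s hi.le] at h1
            have h2 := ha.1
            rw [endPt_pre] at h2
            omega
          · by_contra hlt
            rcases hi.lt_or_eq with h | h
            · exact hc ⟨i, h, not_le.1 hlt⟩
            · exact hlt (by rw [h])
        refine Set.mem_iUnion.2 ⟨⟨_, hmS⟩, Set.mem_iUnion.2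
          ⟨⟨pre s (Nat.find hfail), ?_⟩, by simp [mem_cyl_iff], hsA, hsR⟩⟩
        obtain ⟨h1, h2⟩ := Nat.find_spec hfail
        refine ⟨?_, by simpa using h1, by simpa [endPt_pre] using h2, fun i hi hi' => ?_⟩
        · refine List.ext_getElem (by simp; omega) fun i _ _ => ?_
          rw [List.getElem_take, getElem_pre, getElem_pre]
        · rw [length_pre] at hi hi'
          rw [Lt_pre s hi'.le, endPt_pre]
          by_contra hlt
          rcases hi.lt_or_eq with h | h
          · exact Nat.find_min hfail hi' ⟨h, not_le.1 hlt⟩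
          · exact hlt (by rw [h])
      have hF : ∀ m : S, ∑' m' : F m.1, W μ m'.1 ≤ (1 - p) * W μ m.1 := by
        intro m
        refine (tsum_W_le (hFu m.1) (E := cyl m.1 \ shift m.1.length ⁻¹' D0 ℓ) ?_).trans ?_
        · rintro m' hm' s hs
          refine ⟨?_, fun hD => ?_⟩
          · exact cyl_subset_of_take hm'.1 hs
          · have h1 : pre s m.1.length = m.1 := by
              conv_rhs => rw [← hm'.1, ← (mem_cyl_iff _ _).1 hs]
              refine List.ext_getElem (by simp; exact hm'.2.1.le) fun i _ _ => ?_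
              rw [List.getElem_take, getElem_pre, getElem_pre]
            have h2 := hD (m'.length - m.1.length)
            have h3 : lev ℓ (pos s m'.length) < lev ℓ (pos s m.1.length) := by
              have := hm'.2.2.1
              rw [← (mem_cyl_iff _ _).1 hs, endPt_pre] at this
              rwa [← h1, endPt_pre] at this
            rw [← Nat.add_sub_cancel' hm'.2.1.le, lev_pos_shift] at h3
            linarith
        · rw [← Set.sdiff_self_inter, measure_sdiff Set.inter_subset_left
            (((measurableSet_cyl _).inter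
              (measurable_shift _ (measurableSet_D0 ℓ))).nullMeasurableSet) (measure_ne_top _ _),
            annealed_fresh _ (measurableSet_D0 ℓ)
              (fun s hs n => fresh_of_last (firstPass_last m.2.1) hs n), annealed_cyl,
            ENNReal.sub_mul (fun _ _ => W_ne_top _), one_mul, mul_comm]
      calc annealed μ (cyl l ∩ N)
          ≤ ∑' m : S, ∑' m' : F m.1, annealed μ (cyl m'.1 ∩ N) :=
            ((measure_mono cover).trans (measure_iUnion_le _)).trans
              (ENNReal.tsum_le_tsum fun m => measure_iUnion_le _)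
        _ ≤ ∑' m : S, ∑' m' : F m.1, (1 - p) ^ k * W μ m'.1 :=
            ENNReal.tsum_le_tsum fun m => ENNReal.tsum_le_tsum fun m' => ih _
        _ ≤ ∑' m : S, (1 - p) ^ k * ((1 - p) * W μ m.1) :=
            ENNReal.tsum_le_tsum fun m => by rw [ENNReal.tsum_mul_left]; gcongr; exact hF m
        _ = (1 - p) ^ (k + 1) * ∑' m : S, W μ m.1 := by
            rw [ENNReal.tsum_mul_left, ENNReal.tsum_mul_left, pow_succ, mul_assoc]
        _ ≤ (1 - p) ^ (k + 1) * W μ l := by
            gcongr
            rw [← annealed_cyl]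
            exact tsum_W_le hS fun m hm => cyl_subset_of_take hm.2
  have hlim : Tendsto (fun k : ℕ => (1 - p) ^ k * W μ ([] : List (Dir d))) atTop (𝓝 0) := by
    have h1 : (1 - p) < 1 := ENNReal.sub_lt_self ENNReal.one_ne_top one_ne_zero hp0
    simpa using ENNReal.Tendsto.mul_const (ENNReal.tendsto_pow_atTop_nhds_zero_of_lt_one h1)
      (Or.inr (W_ne_top _))
  refine le_antisymm (ge_of_tendsto' hlim fun k => ?_) bot_le
  simpa using main k []

/-- The block weights sum to one. -/
theorem tsum_blk (hp : annealed μ (Dp ℓ) ≠ 0) : ∑' b : Blk ℓ, W μ b.1 = 1 := by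
  have h : annealed μ (Dp ℓ) = (∑' b : Blk ℓ, W μ b.1) * annealed μ (Dp ℓ) := by
    have hu : annealed μ (⋃ bs : Fin 1 → Blk ℓ, blkEvent bs) = annealed μ (Dp ℓ) := by
      refine le_antisymm (measure_mono (Set.iUnion_subset fun bs => blkEvent_subset_Dp bs)) ?_
      refine le_trans (measure_mono (t := (⋃ bs : Fin 1 → Blk ℓ, blkEvent bs) ∪
        (Ap ℓ ∩ {s | ∀ j, 0 < j → ¬RegenTime ℓ s j})) ?_) ?_
      · intro s hs
        by_cases h : ∀ j, 0 < j → ¬RegenTime ℓ s j
        · exact Or.inr ⟨hs.2, h⟩
        · push Not at h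
          obtain ⟨j, hj, hr⟩ := h
          obtain ⟨k, bs, hcat, hmem⟩ := exists_cat_of_regen hs j hr
          cases k with
          | zero =>
            rw [cat_zero] at hcat
            have := congrArg List.length hcat
            simp at this; omega
          | succ k =>
            refine Or.inl (Set.mem_iUnion.2 ⟨fun _ => bs 0, ?_⟩)
            have hc : cat (fun _ : Fin 1 => bs 0) = (bs 0).1 := by simp [cat]
            have h1 := hmem.1
            rw [cat_succ, cyl_append] at h1
            refine ⟨by rw [hc]; exact h1.1, ?_⟩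
            rw [hc, Set.mem_preimage]
            refine blkEvent_subset_Dp (Fin.tail bs) ⟨h1.2, ?_⟩
            have h2 := hmem.2
            simp only [Set.mem_preimage] at h2 ⊢
            convert h2 using 1
            funext i; simp [shift, cat_succ, add_assoc]
      · exact (measure_union_le _ _).trans (by rw [annealed_noRegen hp, add_zero])
    rw [measure_iUnion (blkEvent_disjoint 1) measurableSet_blkEvent] at hu
    simp only [annealed_blkEvent, Fin.prod_univ_one] at hu
    rw [ENNReal.tsum_mul_right] at hu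
    rw [← (Equiv.funUnique (Fin 1) (Blk ℓ)).tsum_eq (fun b => W μ b.1)]
    exact hu.symm
  exact ((ENNReal.mul_left_inj hp (measure_ne_top _ _)).1 (h.symm.trans (one_mul _).symm))

/-- Bound on the level change in one step. -/
def stepBound (ℓ : Fin d → ℤ) : ℕ := ∑ i, (ℓ i).natAbs

lemma abs_lev_dirVec_le (ℓ : Fin d → ℤ) (e : Dir d) : |lev ℓ (dirVec e)| ≤ stepBound ℓ := by
  have h1 : lev ℓ (dirVec e) = if e.2 then ℓ e.1 else -ℓ e.1 := by
    obtain ⟨i, b⟩ := e
    cases b <;> simp [lev, dirVec, Pi.single_apply]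
  have h2 : |lev ℓ (dirVec e)| = (ℓ e.1).natAbs := by
    rw [h1]; split_ifs <;> simp
  rw [h2]
  exact_mod_cast Finset.single_le_sum (f := fun i => (ℓ i).natAbs) (fun _ _ => Nat.zero_le _)
    (Finset.mem_univ e.1)

lemma firstPass_lt {m : ℤ} (hm : 0 < m) {l : List (Dir d)} (hl : l ∈ firstPass ℓ m) :
    lev ℓ (endPt l) < m + stepBound ℓ := by
  cases l using List.reverseRecOn with
  | nil => have := hl.1; simp at this; omega
  | append_singleton l e =>
    have h1 := hl.2 l.length (by simp)
    rw [Lt_append_left _ _ _ le_rfl, Lt_length] at h1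
    rw [endPt_append, map_add]
    have h2 := abs_lev_dirVec_le ℓ e
    have := le_abs_self (lev ℓ (dirVec e))
    simp only [endPt_cons, endPt_nil, add_zero]
    linarith

/-- Every window of levels of width `stepBound` contains a regeneration level with probability
bounded below. -/
theorem window_bound (hp : annealed μ (Dp ℓ) ≠ 0) {m : ℤ} (hm : 0 < m) :
    annealed μ (Dp ℓ) ≤ ∑' k : ℕ, ∑' bs : Fin k → Blk ℓ,
      {bs : Fin k → Blk ℓ | m ≤ lev ℓ (endPt (cat bs)) ∧
        lev ℓ (endPt (cat bs)) < m + stepBound ℓ}.indicator (fun bs => ∏ i, W μ (bs i).1) bs := by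
  classical
  set p := annealed μ (Dp ℓ) with hpdef
  let S : Set (List (Dir d)) := {l | l ∈ firstPass ℓ m ∧ ∀ i ≤ l.length, 0 ≤ Lt ℓ l i}
  have hS : ∀ s : Walk d, ∀ a b, pre s a ∈ S → pre s b ∈ S → a = b :=
    fun s a b ha hb => firstPass_unique m s a b ha.1 hb.1
  let E : ∀ k, (Fin k → Blk ℓ) → Set (Walk d) := fun k bs =>
    if m ≤ lev ℓ (endPt (cat bs)) ∧ lev ℓ (endPt (cat bs)) < m + stepBound ℓ
      then blkEvent bs else ∅
  have h1 : p * p ≤ annealed μ (⋃ k, ⋃ bs, E k bs) := by
    have h2 : p ≤ ∑' l : S, W μ l.1 := by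
      simp only [← annealed_cyl]
      refine le_trans (measure_mono ?_) (measure_iUnion_le _)
      intro s hs
      obtain ⟨a, ha⟩ := exists_firstPass (ℓ := ℓ) (s := s) m
        ((Filter.tendsto_atTop.1 hs.2 m).exists)
      refine Set.mem_iUnion.2 ⟨⟨pre s a, ha, fun i hi => ?_⟩, by simp [mem_cyl_iff]⟩
      rw [length_pre] at hi
      rw [Lt_pre s hi]; exact hs.1 i
    calc p * p ≤ (∑' l : S, W μ l.1) * p := by gcongr
      _ = annealed μ (⋃ l : S, cyl l.1 ∩ shift l.1.length ⁻¹' Dp ℓ) := by
        rw [measure_iUnion (fun l l' h => ((cyl_pairwise_disjoint hS h).mono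
          Set.inter_subset_left Set.inter_subset_left))
          (fun l => (measurableSet_cyl _).inter (measurable_shift _ (measurableSet_Dp ℓ))),
          ← ENNReal.tsum_mul_right]
        refine tsum_congr fun l => ?_
        rw [annealed_fresh _ (measurableSet_Dp ℓ)
          (fun s hs n => fresh_of_last (firstPass_last l.2.1) hs.1 n)]
      _ ≤ _ := by
        refine measure_mono (Set.iUnion_subset fun l s hs => ?_)
        obtain ⟨hc, hD⟩ := hs
        have hDp : s ∈ Dp ℓ := by
          refine ⟨fun n => ?_, (tendsto_shift_iff s _).1 hD.2⟩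
          rcases le_total n l.1.length with h | h
          · rw [pos_of_mem_cyl hc h]; exact l.2.2 n h
          · obtain ⟨j, rfl⟩ := Nat.exists_eq_add_of_le h
            rw [lev_pos_shift, pos_of_mem_cyl hc le_rfl, List.take_length]
            linarith [hD.1 j, l.2.1.1]
        have hr : RegenTime ℓ s l.1.length := by
          refine ⟨fun i hi => ?_, fun i hi => ?_⟩
          · rw [pos_of_mem_cyl hc hi.le, pos_of_mem_cyl hc le_rfl, List.take_length]
            exact firstPass_last l.2.1 i hi
          · obtain ⟨j, rfl⟩ := Nat.exists_eq_add_of_le hi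
            rw [lev_pos_shift]; linarith [hD.1 j]
        obtain ⟨k, bs, hcat, hmem⟩ := exists_cat_of_regen hDp _ hr
        refine Set.mem_iUnion.2 ⟨k, Set.mem_iUnion.2 ⟨bs, ?_⟩⟩
        rw [(mem_cyl_iff _ _).1 hc] at hcat
        simp only [E, hcat]
        rw [if_pos ⟨l.2.1.1, firstPass_lt hm l.2.1⟩]
        exact hmem
  have h3 : annealed μ (⋃ k, ⋃ bs, E k bs) ≤ (∑' k : ℕ, ∑' bs : Fin k → Blk ℓ,
      {bs : Fin k → Blk ℓ | m ≤ lev ℓ (endPt (cat bs)) ∧
        lev ℓ (endPt (cat bs)) < m + stepBound ℓ}.indicator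
          (fun bs => ∏ i, W μ (bs i).1) bs) * p := by
    rw [← ENNReal.tsum_mul_right]
    refine (measure_iUnion_le _).trans (ENNReal.tsum_le_tsum fun k => ?_)
    rw [← ENNReal.tsum_mul_right]
    refine (measure_iUnion_le _).trans (ENNReal.tsum_le_tsum fun bs => ?_)
    simp only [E]
    split_ifs with h
    · rw [Set.indicator_of_mem (by exact h), annealed_blkEvent]
    · simp
  exact (ENNReal.mul_le_mul_iff_left hp (measure_ne_top _ _)).1 (h1.trans h3)

end Vale.Agent.P147
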