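import Vale.Agent.P147.Transient
import Vale.Agent.P147.Renewal

/-!
Blocks of the two directions as walks: mean level, mean length and corners.
-/

noncomputable section

namespace Vale.Agent.P147

open MeasureTheory ProbabilityTheory Filter
open scoped ENNReal Topology

variable {d : ℕ} {μ : Measure (Row d)} {ℓ : Fin d → ℤ}

instance (ℓ : Fin d → ℤ) : MeasurableSpace (Blk ℓ) := ⊤

instance (ℓ : Fin d → ℤ) : MeasurableSingletonClass (Blk ℓ) := ⟨fun _ => trivial⟩

section seq

variable {α : Type*} [MeasurableSpace α] [MeasurableSingletonClass α] [Countable α]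

lemma seqLaw_head_mem_one (p : PMF α) (k : ℕ) : ∑' g : Fin k → α, ∏ i, p (g i) = 1 := by
  have h := seqLaw_head_mem p k Set.univ
  simpa using h.symm

/-- Partial sums. -/
def psum (f : α → ℕ) (ω : ℕ → α) (k : ℕ) : ℕ := ∑ t ∈ Finset.range k, f (ω t)

lemma measurable_psum (f : α → ℕ) (k : ℕ) : Measurable fun ω : ℕ → α => psum f ω k :=
  measurable_of_head k (fun g => ∑ t : Fin k, f (g t))
    (fun ω => by simp [psum, head, Finset.sum_range])

lemma lintegral_seq_eval (p : PMF α) (F : α → ℝ≥0∞) (t : ℕ) :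
    ∫⁻ ω, F (ω t) ∂seqLaw p = ∑' a, p a * F a := by
  rw [seqLaw, ← lintegral_map (f := F) (measurable_of_countable F) (measurable_pi_apply t),
    Measure.infinitePi_map_eval, lintegral_countable']
  exact tsum_congr fun a => by
    rw [PMF.toMeasure_apply_singleton _ _ (measurableSet_singleton a), mul_comm]

lemma lintegral_psum (p : PMF α) (f : α → ℕ) (k : ℕ) :
    ∫⁻ ω, (psum f ω k : ℝ≥0∞) ∂seqLaw p = k * ∑' a, p a * (f a : ℝ≥0∞) := by
  simp only [psum, Nat.cast_sum]
  rw [lintegral_finsetSum _ fun t _ =>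
    (measurable_of_countable fun a => (f a : ℝ≥0∞)).fun_comp (measurable_pi_apply t),
    Finset.sum_congr rfl fun t _ => lintegral_seq_eval p (fun a => (f a : ℝ≥0∞)) t]
  simp

/-- Truncated Wald bound for the number of partial sums below `X`. -/
theorem wald_trunc (p : PMF α) (f : α → ℕ) (K X : ℕ) :
    (∑' a, p a * ((min (f a) K : ℕ) : ℝ≥0∞)) * ∑' k, seqLaw p {ω | psum f ω k < X} ≤
      (X : ℝ≥0∞) + K := by
  classical
  rw [← ENNReal.tsum_mul_left, ENNReal.tsum_eq_iSup_nat]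
  refine iSup_le fun N => ?_
  set g : ℕ → (ℕ → α) → ℕ := fun k ω => if psum f ω k < X then min (f (ω k)) K else 0
  have hm : ∀ k, Measurable fun ω => (g k ω : ℝ≥0∞) := fun k =>
    (measurable_of_countable fun m : ℕ => (m : ℝ≥0∞)).comp
      (measurable_of_head (k + 1) (fun h : Fin (k + 1) → α =>
        if (∑ t : Fin k, f (h t.castSucc)) < X then min (f (h (Fin.last k))) K else 0)
        (fun ω => by simp [g, psum, head, Finset.sum_range]; congr 1))
  have key : ∀ k, ∫⁻ ω, (g k ω : ℝ≥0∞) ∂seqLaw p =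
      (∑' a, p a * ((min (f a) K : ℕ) : ℝ≥0∞)) * seqLaw p {ω | psum f ω k < X} := by
    intro k
    rw [lintegral_glue p k (hm k)]
    have e : ∀ ω η, (g k (glue k (ω, η)) : ℝ≥0∞) =
        {ω | psum f ω k < X}.indicator 1 ω * ((min (f (η 0)) K : ℕ) : ℝ≥0∞) := by
      intro ω η
      have h1 : psum f (glue k (ω, η)) k = psum f ω k :=
        Finset.sum_congr rfl fun t ht => by rw [glue_lt (Finset.mem_range.1 ht)]
      have h2 : glue k (ω, η) k = η 0 := by simpa using glue_add k 0 (ω, η)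
      simp only [g, h1, h2, Set.indicator_apply, Set.mem_ofPred_eq, Pi.one_apply]
      split_ifs <;> simp
    simp only [e]
    have hin : ∀ ω, ∫⁻ η, {ω | psum f ω k < X}.indicator 1 ω *
        ((min (f (η 0)) K : ℕ) : ℝ≥0∞) ∂seqLaw p = {ω | psum f ω k < X}.indicator 1 ω *
          ∑' a, p a * ((min (f a) K : ℕ) : ℝ≥0∞) := fun ω => by
      rw [lintegral_const_mul _ ((measurable_of_countable fun a =>
        ((min (f a) K : ℕ) : ℝ≥0∞)).fun_comp (measurable_pi_apply 0)),
        lintegral_seq_eval p (fun a => ((min (f a) K : ℕ) : ℝ≥0∞)) 0]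
    simp only [hin]
    have hs : MeasurableSet {ω : ℕ → α | psum f ω k < X} :=
      measurable_psum f k (Set.to_countable {m | m < X}).measurableSet
    rw [lintegral_mul_const _ (measurable_one.indicator hs), lintegral_indicator_one hs, mul_comm]
  simp only [← key]
  rw [← lintegral_finsetSum _ fun k _ => hm k]
  have pt : ∀ ω, ∑ k ∈ Finset.range N, g k ω ≤ min (psum f ω N) (X + K) := by
    intro ω
    induction N with
    | zero => simp
    | succ N ih =>
      rw [Finset.sum_range_succ]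
      have hs : psum f ω (N + 1) = psum f ω N + f (ω N) := by simp [psum, Finset.sum_range_succ]
      simp only [g] at ih ⊢
      split_ifs with h <;> omega
  calc ∫⁻ ω, ∑ k ∈ Finset.range N, (g k ω : ℝ≥0∞) ∂seqLaw p
      ≤ ∫⁻ _, ((X + K : ℕ) : ℝ≥0∞) ∂seqLaw p := lintegral_mono fun ω => by
        rw [← Nat.cast_sum]; exact Nat.cast_le.2 ((pt ω).trans (min_le_right _ _))
    _ = (X : ℝ≥0∞) + K := by simp

/-- Finite mean from a linear lower bound on the renewal counts. -/
theorem mean_ne_top (p : PMF α) (f : α → ℕ) {δ E : ℝ≥0∞} (hδ : δ ≠ 0) (hδt : δ ≠ ⊤) (hE : E ≠ ⊤)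
    (C D : ℕ) (h : ∀ n : ℕ, (n : ℝ≥0∞) * δ ≤ (∑' k, seqLaw p {ω | psum f ω k < C * n + D}) + E) :
    ∑' a, p a * (f a : ℝ≥0∞) ≠ ⊤ := by
  classical
  have hK : ∀ K : ℕ, (∑' a, p a * ((min (f a) K : ℕ) : ℝ≥0∞)) * δ ≤ C := by
    intro K
    set w := ∑' a, p a * ((min (f a) K : ℕ) : ℝ≥0∞)
    have hwK : w ≤ K := by
      calc w ≤ ∑' a, p a * (K : ℝ≥0∞) := ENNReal.tsum_le_tsum fun a =>
            mul_le_mul' le_rfl (Nat.cast_le.2 (min_le_right _ _))
        _ = K := by rw [ENNReal.tsum_mul_right, p.tsum_coe, one_mul]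
    set R := (D : ℝ≥0∞) + K + w * E with hR
    have hRt : R ≠ ⊤ := ENNReal.add_ne_top.2 ⟨by simp,
      ENNReal.mul_ne_top (ne_top_of_le_ne_top (by simp) hwK) hE⟩
    have hn : ∀ n : ℕ, 1 ≤ n → w * δ ≤ C + R * ((n : ℝ≥0∞))⁻¹ := by
      intro n hn
      have h1 : (n : ℝ≥0∞) * (w * δ) ≤ (n : ℝ≥0∞) * C + R := by
        calc (n : ℝ≥0∞) * (w * δ) = w * ((n : ℝ≥0∞) * δ) := by ring
          _ ≤ w * ((∑' k, seqLaw p {ω | psum f ω k < C * n + D}) + E) := mul_le_mul' le_rfl (h n)
          _ ≤ ((C * n + D : ℕ) : ℝ≥0∞) + K + w * E := by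
              rw [mul_add]; exact add_le_add (wald_trunc p f K _) le_rfl
          _ = _ := by rw [hR]; push_cast; ring
      have h0 : (n : ℝ≥0∞) ≠ 0 := by simp; omega
      have ht : (n : ℝ≥0∞) ≠ ⊤ := ENNReal.natCast_ne_top n
      calc w * δ = (n : ℝ≥0∞)⁻¹ * ((n : ℝ≥0∞) * (w * δ)) := by
            rw [← mul_assoc, ENNReal.inv_mul_cancel h0 ht, one_mul]
        _ ≤ (n : ℝ≥0∞)⁻¹ * ((n : ℝ≥0∞) * C + R) := mul_le_mul' le_rfl h1
        _ = _ := by rw [mul_add, ← mul_assoc, ENNReal.inv_mul_cancel h0 ht, one_mul, mul_comm R]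
    have hlim : Tendsto (fun n : ℕ => (C : ℝ≥0∞) + R * ((n : ℝ≥0∞))⁻¹) atTop (𝓝 (C : ℝ≥0∞)) := by
      have := tendsto_const_nhds (x := (C : ℝ≥0∞)).add
        (ENNReal.Tendsto.const_mul ENNReal.tendsto_inv_nat_nhds_zero (Or.inr hRt))
      simpa using this
    exact ge_of_tendsto hlim (eventually_atTop.2 ⟨1, hn⟩)
  refine ne_top_of_le_ne_top (ENNReal.div_ne_top (ENNReal.natCast_ne_top C) hδ) ?_
  rw [ENNReal.tsum_eq_iSup_sum]
  refine iSup_le fun T => ?_
  rw [ENNReal.le_div_iff_mul_le (Or.inl hδ) (Or.inl hδt)]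
  refine le_trans (mul_le_mul' ?_ le_rfl) (hK (T.sup f))
  refine le_trans (le_of_eq (Finset.sum_congr rfl fun a ha => ?_)) (ENNReal.sum_le_tsum T)
  rw [min_eq_left (Finset.le_sup ha)]

end seq

variable [IsProbabilityMeasure μ]

/-- The law of a block. -/
def blkPMF (μ : Measure (Row d)) [IsProbabilityMeasure μ] {ℓ : Fin d → ℤ}
    (hp : annealed μ (Dp ℓ) ≠ 0) : PMF (Blk ℓ) :=
  ⟨fun b => W μ b.1, by rw [← tsum_blk hp]; exact ENNReal.summable.hasSum⟩

lemma blkPMF_apply (hp : annealed μ (Dp ℓ) ≠ 0) (b : Blk ℓ) : blkPMF μ hp b = W μ b.1 := rfl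

/-- Level gained by a block. -/
def blkLev (b : Blk ℓ) : ℕ := (lev ℓ (endPt b.1)).toNat

lemma lev_cat {k : ℕ} (bs : Fin k → Blk ℓ) :
    lev ℓ (endPt (cat bs)) = ((∑ i, blkLev (bs i) : ℕ) : ℤ) := by
  rw [endPt_cat, map_sum, Nat.cast_sum]
  exact Finset.sum_congr rfl fun i _ => (Int.toNat_of_nonneg (bs i).2.lev_pos.le).symm

lemma psum_head {α : Type*} [MeasurableSpace α] (f : α → ℕ) (ω : ℕ → α) (k : ℕ) :
    psum f ω k = ∑ i, f (head k ω i) := by
  simp [psum, head, Finset.sum_range]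

theorem mean_blkLev (hp : annealed μ (Dp ℓ) ≠ 0) :
    ∑' b, blkPMF μ hp b * (blkLev b : ℝ≥0∞) ≠ ⊤ := by
  refine mean_ne_top (blkPMF μ hp) blkLev hp (measure_ne_top _ _) ENNReal.zero_ne_top
    (stepBound ℓ) 1 fun M => ?_
  set a := stepBound ℓ
  set q := blkPMF μ hp
  have hwin : ∀ t : ℕ, annealed μ (Dp ℓ) ≤
      ∑' k, seqLaw q {ω | 1 + t * a ≤ psum blkLev ω k ∧ psum blkLev ω k < 1 + t * a + a} := by
    intro t
    refine (window_bound hp (m := ((1 + t * a : ℕ) : ℤ)) (by positivity)).trans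
      (le_of_eq (tsum_congr fun k => ?_))
    have : {ω : ℕ → Blk ℓ | 1 + t * a ≤ psum blkLev ω k ∧ psum blkLev ω k < 1 + t * a + a} =
        {ω | head k ω ∈ {bs : Fin k → Blk ℓ | ((1 + t * a : ℕ) : ℤ) ≤ lev ℓ (endPt (cat bs)) ∧
          lev ℓ (endPt (cat bs)) < ((1 + t * a : ℕ) : ℤ) + a}} := by
      ext ω
      simp only [Set.mem_ofPred_eq, psum_head, lev_cat]
      norm_cast
    rw [this, seqLaw_head_mem]
    rfl
  calc (M : ℝ≥0∞) * annealed μ (Dp ℓ) = ∑ _t ∈ Finset.range M, annealed μ (Dp ℓ) := by simp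
    _ ≤ ∑ t ∈ Finset.range M, ∑' k,
        seqLaw q {ω | 1 + t * a ≤ psum blkLev ω k ∧ psum blkLev ω k < 1 + t * a + a} :=
      Finset.sum_le_sum fun t _ => hwin t
    _ = ∑' k, ∑ t ∈ Finset.range M,
        seqLaw q {ω | 1 + t * a ≤ psum blkLev ω k ∧ psum blkLev ω k < 1 + t * a + a} :=
      (Summable.tsum_finsetSum fun _ _ => ENNReal.summable).symm
    _ ≤ ∑' k, seqLaw q {ω | psum blkLev ω k < a * M + 1} := by
      refine ENNReal.tsum_le_tsum fun k => ?_
      rw [← measure_biUnion_finset ?_ ?_]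
      · refine measure_mono (Set.iUnion₂_subset fun t ht ω hω => ?_)
        simp only [Set.mem_ofPred_eq] at hω ⊢
        have : t * a + a ≤ a * M := by
          rw [← Nat.succ_mul, mul_comm a]; exact Nat.mul_le_mul_right a (Finset.mem_range.1 ht)
        omega
      · intro t _ t' _ hne
        refine Set.disjoint_left.2 fun ω h h' => hne ?_
        simp only [Set.mem_ofPred_eq] at h h'
        rcases lt_trichotomy t t' with hl | hl | hl
        · have := Nat.mul_le_mul_right a (Nat.succ_le_of_lt hl)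
          rw [Nat.succ_mul] at this
          omega
        · exact hl
        · have := Nat.mul_le_mul_right a (Nat.succ_le_of_lt hl)
          rw [Nat.succ_mul] at this
          omega
      · exact fun t _ => measurable_psum blkLev k
          (Set.to_countable {m | 1 + t * a ≤ m ∧ m < 1 + t * a + a}).measurableSet
    _ = _ := (add_zero _).symm

/-- Linear growth of the levels. -/
def Ballistic (ℓ : Fin d → ℤ) : Set (Walk d) :=
  {s | ∃ j N : ℕ, ∀ n, N ≤ n → (n : ℤ) ≤ j * lev ℓ (pos s n)}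

lemma measurableSet_ballistic (ℓ : Fin d → ℤ) : MeasurableSet (Ballistic ℓ) := by
  have : Ballistic ℓ = ⋃ j : ℕ, ⋃ N : ℕ, ⋂ n : ℕ,
      {s : Walk d | N ≤ n → (n : ℤ) ≤ j * lev ℓ (pos s n)} := by ext s; simp [Ballistic]
  rw [this]
  refine MeasurableSet.iUnion fun j => MeasurableSet.iUnion fun N => MeasurableSet.iInter fun n => ?_
  exact measurable_lev_pos ℓ n
    (Set.to_countable {z : ℤ | N ≤ n → (n : ℤ) ≤ j * z}).measurableSet

lemma ballistic_subset_Ap : Ballistic ℓ ⊆ Ap ℓ := by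
  rintro s ⟨j, N, h⟩
  refine tendsto_atTop.2 fun b => eventually_atTop.2 ⟨max N (j * b.toNat + 1), fun n hn => ?_⟩
  have h1 := h n (le_of_max_le_left hn)
  have h2 : j * b.toNat + 1 ≤ n := le_of_max_le_right hn
  by_contra hc
  have h3 : (j : ℤ) * lev ℓ (pos s n) ≤ j * (b.toNat : ℤ) :=
    mul_le_mul_of_nonneg_left (by omega) (Int.natCast_nonneg j)
  have h4 : ((j * b.toNat + 1 : ℕ) : ℤ) ≤ n := by exact_mod_cast h2
  push_cast at h4
  linarith

lemma ballistic_shift (s : Walk d) (hs : s ∈ Ballistic ℓ) (a : ℕ) :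
    shift a s ∈ Ballistic ℓ := by
  obtain ⟨j, N, h⟩ := hs
  refine ⟨2 * j, max N (2 * j * (lev ℓ (pos s a)).natAbs), fun n hn => ?_⟩
  have h1 := h (a + n) ((le_of_max_le_left hn).trans (Nat.le_add_left _ _))
  have h2 : (((2 * j * (lev ℓ (pos s a)).natAbs : ℕ)) : ℤ) ≤ n := by
    exact_mod_cast le_of_max_le_right hn
  have h3 : (2 * j : ℤ) * lev ℓ (pos s a) ≤ 2 * j * |lev ℓ (pos s a)| :=
    mul_le_mul_of_nonneg_left (le_abs_self _) (by positivity)
  rw [lev_pos_shift] at h1
  push_cast at h1 h2 ⊢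
  linarith

/-- Finite mean length of a block. -/
theorem mean_length (hp : annealed μ (Dp ℓ) ≠ 0)
    (hG : annealed μ (Dp ℓ ∩ Ballistic ℓ) ≠ 0) :
    ∑' b, blkPMF μ hp b * (b.1.length : ℝ≥0∞) ≠ ⊤ := by
  classical
  set q := blkPMF μ hp with hq
  set p := annealed μ (Dp ℓ) with hpdef
  obtain ⟨j, N, hjN⟩ : ∃ j N : ℕ, annealed μ (Dp ℓ ∩
      {s | ∀ n, N ≤ n → (n : ℤ) ≤ j * lev ℓ (pos s n)}) ≠ 0 := by
    by_contra hc
    push Not at hc
    refine hG (measure_mono_null (t := ⋃ j : ℕ, ⋃ N : ℕ, Dp ℓ ∩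
      {s | ∀ n, N ≤ n → (n : ℤ) ≤ j * lev ℓ (pos s n)}) ?_
      (measure_iUnion_null fun j => measure_iUnion_null fun N => hc j N))
    rintro s ⟨hs, j, N, h⟩
    exact Set.mem_iUnion.2 ⟨j, Set.mem_iUnion.2 ⟨N, hs, h⟩⟩
  set G := {s : Walk d | ∀ n, N ≤ n → (n : ℤ) ≤ j * lev ℓ (pos s n)} with hGdef
  set δ := annealed μ (Dp ℓ ∩ G) with hδ
  set len := fun b : Blk ℓ => b.1.length with hlen
  have hk : ∀ k, N ≤ k →
      δ ≤ seqLaw q {ω | psum len ω k ≤ j * psum blkLev ω k} := by
    intro k hk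
    set U := ⋃ bs : Fin k → Blk ℓ, blkEvent bs with hU
    have hUm : MeasurableSet U := MeasurableSet.iUnion fun bs => measurableSet_blkEvent bs
    have hUp : annealed μ U = p := by
      rw [hU, measure_iUnion (blkEvent_disjoint k) measurableSet_blkEvent]
      simp only [annealed_blkEvent]
      rw [ENNReal.tsum_mul_right]
      have := seqLaw_head_mem_one q k
      simp only [hq, blkPMF_apply] at this
      rw [this, one_mul]
    have hnull : annealed μ (Dp ℓ \ U) = 0 := by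
      rw [measure_sdiff (Set.iUnion_subset fun bs => blkEvent_subset_Dp bs) hUm.nullMeasurableSet
        (measure_ne_top _ _), hUp, tsub_self]
    set S := {bs : Fin k → Blk ℓ | ∑ i, len (bs i) ≤ j * ∑ i, blkLev (bs i)}
    have hsub : Dp ℓ ∩ G ⊆ (Dp ℓ \ U) ∪ ⋃ bs : S, blkEvent bs.1 := by
      intro s ⟨hs, hsG⟩
      by_cases hsU : s ∈ U
      · obtain ⟨bs, hbs⟩ := Set.mem_iUnion.1 hsU
        refine Or.inr (Set.mem_iUnion.2 ⟨⟨bs, ?_⟩, hbs⟩)
        have hl : (cat bs).length = ∑ i, len (bs i) := by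
          simp [cat, List.length_flatten, List.map_ofFn, List.sum_ofFn, hlen]
        have hkle : k ≤ (cat bs).length := by
          rw [hl]
          calc k = ∑ _i : Fin k, 1 := by simp
            _ ≤ _ := Finset.sum_le_sum fun i _ => (bs i).2.length_pos
        have h1 := hsG _ (hk.trans hkle)
        rw [pos_of_mem_cyl hbs.1 le_rfl, List.take_length, lev_cat, hl] at h1
        exact_mod_cast h1
      · exact Or.inl ⟨hs, hsU⟩
    calc δ ≤ annealed μ (Dp ℓ \ U) + annealed μ (⋃ bs : S, blkEvent bs.1) :=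
          (measure_mono hsub).trans (measure_union_le _ _)
      _ ≤ ∑' bs : S, annealed μ (blkEvent bs.1) := by
          rw [hnull, zero_add]; exact measure_iUnion_le _
      _ ≤ ∑' bs : S, ∏ i, q (bs.1 i) := ENNReal.tsum_le_tsum fun bs => by
          rw [annealed_blkEvent]; exact mul_le_of_le_one_right' prob_le_one
      _ = _ := by
          rw [tsum_subtype S (fun bs => ∏ i, q (bs i)), ← seqLaw_head_mem]
          congr 1
          ext ω
          simp [S, psum_head]
  have hμ := mean_blkLev hp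
  set EW := ∑' b, q b * (blkLev b : ℝ≥0∞) with hEW
  have hδ2 : δ / 2 ≠ 0 := by simpa [ENNReal.div_eq_zero_iff] using hjN
  have hδt : δ ≠ ⊤ := measure_ne_top _ _
  obtain ⟨M, hM⟩ : ∃ M : ℕ, EW / (M + 1 : ℕ) ≤ δ / 2 := by
    have h := ENNReal.Tendsto.const_mul (a := EW) ENNReal.tendsto_inv_nat_nhds_zero (Or.inr hμ)
    rw [mul_zero] at h
    obtain ⟨M, hM⟩ := eventually_atTop.1
      ((ENNReal.tendsto_nhds_zero.1 h) _ (pos_iff_ne_zero.2 hδ2))
    exact ⟨M, by rw [div_eq_mul_inv]; exact hM (M + 1) (Nat.le_succ M)⟩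
  refine mean_ne_top q len hδ2 (ENNReal.div_ne_top hδt (by simp))
    (E := ((N + 1 : ℕ) : ℝ≥0∞) * (δ / 2)) (ENNReal.mul_ne_top (by simp)
      (ENNReal.div_ne_top hδt (by simp))) (j * (M + 1)) 1 fun n => ?_
  set g := fun k => seqLaw q {ω | psum len ω k < j * (M + 1) * n + 1}
  have hg : ∀ k, N + 1 ≤ k → k < n → δ / 2 ≤ g k := by
    intro k h1 h2
    have hmk : seqLaw q {ω | (M + 1) * k ≤ psum blkLev ω k} ≤ δ / 2 := by
      refine le_trans ?_ hM
      have hk0 : (k : ℝ≥0∞) ≠ 0 := by simp; omega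
      have hmark := mul_meas_ge_le_lintegral (μ := seqLaw q)
        ((measurable_of_countable fun m : ℕ => (m : ℝ≥0∞)).fun_comp (measurable_psum blkLev k))
        (((M + 1) * k : ℕ) : ℝ≥0∞)
      rw [lintegral_psum] at hmark
      have e : {ω : ℕ → Blk ℓ | (((M + 1) * k : ℕ) : ℝ≥0∞) ≤ ((psum blkLev ω k : ℕ) : ℝ≥0∞)} =
          {ω | (M + 1) * k ≤ psum blkLev ω k} := by ext; simp only [Set.mem_ofPred_eq, Nat.cast_le]
      rw [e, Nat.cast_mul, mul_comm ((M + 1 : ℕ) : ℝ≥0∞) (k : ℝ≥0∞), mul_assoc,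
        ENNReal.mul_le_mul_iff_right hk0 (ENNReal.natCast_ne_top k)] at hmark
      rw [ENNReal.le_div_iff_mul_le (Or.inl (by simp)) (Or.inl (by simp)), mul_comm]
      exact hmark
    have hle : δ ≤ g k + δ / 2 := by
      refine (hk k (by omega)).trans
        (le_trans (measure_mono ?_) ((measure_union_le _ _).trans (add_le_add le_rfl hmk)))
      intro ω hω
      simp only [Set.mem_union, Set.mem_ofPred_eq] at hω ⊢
      rcases le_or_gt ((M + 1) * k) (psum blkLev ω k) with h | h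
      · exact Or.inr h
      · refine Or.inl ?_
        have h3 : j * psum blkLev ω k ≤ j * ((M + 1) * n) :=
          Nat.mul_le_mul_left j (h.le.trans (Nat.mul_le_mul_left _ h2.le))
        rw [← mul_assoc] at h3
        omega
    rw [← ENNReal.add_halves δ] at hle
    rw [ENNReal.add_halves δ] at hle
    conv_lhs at hle => rw [← ENNReal.add_halves δ]
    exact (ENNReal.add_le_add_iff_right (ENNReal.div_ne_top hδt (by simp))).1 hle
  calc (n : ℝ≥0∞) * (δ / 2) = ∑ _k ∈ Finset.range n, δ / 2 := by simp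
    _ ≤ ∑ k ∈ Finset.range n, (g k + if k < N + 1 then δ / 2 else 0) :=
      Finset.sum_le_sum fun k hk' => by
        split_ifs with h
        · exact le_add_self
        · rw [add_zero]; exact hg k (by omega) (Finset.mem_range.1 hk')
    _ = (∑ k ∈ Finset.range n, g k) + ∑ k ∈ Finset.range n, if k < N + 1 then δ / 2 else 0 :=
      Finset.sum_add_distrib
    _ ≤ _ := by
      refine add_le_add (ENNReal.sum_le_tsum _) ?_
      rw [← Finset.sum_filter]
      calc ∑ _k ∈ (Finset.range n).filter (· < N + 1), δ / 2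
          ≤ ∑ _k ∈ Finset.range (N + 1), δ / 2 :=
            Finset.sum_le_sum_of_subset fun k hk' => by
              simp only [Finset.mem_filter] at hk'; exact Finset.mem_range.2 hk'.2
        _ = _ := by simp

/-! ### Paths -/

lemma srcs_append (x : Fin d → ℤ) (l m : List (Dir d)) :
    srcs x (l ++ m) = srcs x l ++ srcs (x + endPt l) m := by
  induction l generalizing x with
  | nil => simp [srcs]
  | cons e l ih => simp [srcs, ih, add_assoc]

lemma exists_path (x : Fin d → ℤ) : ∃ l : List (Dir d), endPt l = x := by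
  rw [← Finset.univ_sum_single x]
  refine Finset.sum_induction _ (fun v => ∃ l : List (Dir d), endPt l = v) ?_ ⟨[], rfl⟩ ?_
  · rintro a b ⟨l, rfl⟩ ⟨m, rfl⟩
    exact ⟨l ++ m, endPt_append l m⟩
  · intro i _
    refine ⟨List.replicate (x i).natAbs (i, decide (0 ≤ x i)), ?_⟩
    rcases le_or_gt 0 (x i) with h | h
    · simp only [endPt, List.map_replicate, List.sum_replicate, dirVec, h, decide_true, if_true]
      ext t
      simp [Pi.single_apply, abs_of_nonneg h]
    · simp only [endPt, List.map_replicate, List.sum_replicate, dirVec, not_le.2 h, decide_false,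
        Bool.false_eq_true, if_false]
      ext t
      simp [Pi.single_apply, abs_of_neg h]
      split_ifs <;> simp

lemma endPt_replicate (n : ℕ) (e : Dir d) : endPt (List.replicate n e) = n • dirVec e := by
  simp [endPt, List.map_replicate]

lemma Lt_replicate (ℓ : Fin d → ℤ) (n : ℕ) (e : Dir d) {i : ℕ} (h : i ≤ n) :
    Lt ℓ (List.replicate n e) i = i * lev ℓ (dirVec e) := by
  simp only [Lt, List.take_replicate, min_eq_left h, endPt_replicate, map_nsmul]
  exact nsmul_eq_mul _ _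

lemma abs_Lt_le (ℓ : Fin d → ℤ) (l : List (Dir d)) (i : ℕ) :
    |Lt ℓ l i| ≤ (stepBound ℓ : ℤ) * l.length := by
  induction l generalizing i with
  | nil => simp [Lt]
  | cons e l ih =>
    cases i with
    | zero => simp
    | succ i =>
      have h1 : Lt ℓ (e :: l) (i + 1) = lev ℓ (dirVec e) + Lt ℓ l i := by simp [Lt]
      rw [h1]
      refine (abs_add_le _ _).trans ?_
      have := abs_lev_dirVec_le ℓ e
      have := ih i
      simp only [List.length_cons]
      push_cast
      linarith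

/-- A unit step of positive level and the opposite one. -/
lemma exists_up (hℓ : ℓ ≠ 0) : ∃ e e' : Dir d, 0 < lev ℓ (dirVec e) ∧
    dirVec e' = -dirVec e := by
  obtain ⟨i, hi⟩ : ∃ i, ℓ i ≠ 0 := Function.ne_iff.1 hℓ
  refine ⟨(i, decide (0 < ℓ i)), (i, !decide (0 < ℓ i)), ?_, ?_⟩
  · rcases lt_or_gt_of_ne hi with h | h
    · simp [dirVec, not_lt.2 h.le, lev, Pi.single_apply, h]
    · simp [dirVec, h, lev, Pi.single_apply]
  · rcases lt_or_gt_of_ne hi with h | h
    · simp [dirVec, not_lt.2 h.le]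
    · simp [dirVec, h]

/-- A detour to a point of level zero, staying at positive levels in between. -/
theorem exists_hump (hℓ : ℓ ≠ 0) {v : Fin d → ℤ} (hv : lev ℓ v = 0) :
    ∃ (q : List (Dir d)) (B : ℕ), q ≠ [] ∧ endPt q = v ∧ 0 < Lt ℓ q 1 ∧
      (∀ i < q.length, 0 < i → 0 < Lt ℓ q i) ∧ ∀ i ≤ q.length, Lt ℓ q i ≤ B := by
  obtain ⟨e, e', he, he'⟩ := exists_up hℓ
  obtain ⟨l, hl⟩ := exists_path v
  set α := lev ℓ (dirVec e) with hα
  set P := stepBound ℓ * l.length + 1 with hP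
  set l₁ := List.replicate P e ++ l with hl₁
  have hPne : P ≠ 0 := by simp [P]
  refine ⟨l₁ ++ List.replicate P e', ((P : ℤ) * α + P).toNat, by simp [l₁, hPne],
    ?_, ?_, ?_, ?_⟩
  · simp only [l₁, endPt_append, endPt_replicate, he', hl]
    simp
  · rw [Lt_append_left _ _ _ (by simp [l₁]; omega), hl₁, Lt_append_left _ _ _ (by simp; omega),
      Lt_replicate _ _ _ (by omega)]
    simpa using he
  all_goals
    have hP0 : (1 : ℤ) ≤ P := by exact_mod_cast Nat.one_le_iff_ne_zero.2 hPne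
    have hPα : (P : ℤ) ≤ P * α := le_mul_of_one_le_right (by positivity) he
    have hlev : ∀ i ≤ (l₁ ++ List.replicate P e').length,
        (∃ t : ℕ, t ≤ P ∧ (i = t ∨ i = (l₁ ++ List.replicate P e').length - t) ∧
          Lt ℓ (l₁ ++ List.replicate P e') i = t * α) ∨
        (1 ≤ Lt ℓ (l₁ ++ List.replicate P e') i ∧
          Lt ℓ (l₁ ++ List.replicate P e') i ≤ P * α + P) := by
      intro i hi
      rcases le_or_gt i P with h | h
      · refine Or.inl ⟨i, h, Or.inl rfl, ?_⟩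
        rw [Lt_append_left _ _ _ (by simp [l₁]; omega), hl₁,
          Lt_append_left _ _ _ (by simpa using h), Lt_replicate _ _ _ h]
      · obtain ⟨t, rfl⟩ := Nat.exists_eq_add_of_le h.le
        rcases le_or_gt t l.length with h2 | h2
        · refine Or.inr ?_
          rw [Lt_append_left _ _ _ (by simp [l₁]; omega), hl₁]
          have e1 := Lt_append_right ℓ (List.replicate P e) l t
          rw [List.length_replicate, endPt_replicate, map_nsmul, nsmul_eq_mul] at e1
          rw [e1]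
          have hb := abs_le.1 (abs_Lt_le ℓ l t)
          have hP' : (P : ℤ) = stepBound ℓ * l.length + 1 := by simp [P]
          refine ⟨?_, ?_⟩ <;> linarith [hb.1, hb.2]
        · obtain ⟨u, rfl⟩ := Nat.exists_eq_add_of_le h2.le
          have hu : u ≤ P := by simp [l₁] at hi; omega
          refine Or.inl ⟨P - u, Nat.sub_le _ _, Or.inr (by simp [l₁]; omega), ?_⟩
          have e1 := Lt_append_right ℓ l₁ (List.replicate P e') u
          have hlen : l₁.length = P + l.length := by simp [l₁]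
          rw [hlen, add_assoc] at e1
          rw [e1, Lt_replicate _ _ _ hu, he', map_neg, hl₁, endPt_append, endPt_replicate, hl,
            map_add, map_nsmul, hv, Nat.cast_sub hu]
          simp only [nsmul_eq_mul, add_zero, ← hα]
          ring
  · intro i hi hi0
    rcases hlev i hi.le with ⟨t, _, ht, he2⟩ | h
    · rw [he2]
      have : 0 < t := by omega
      positivity
    · linarith [h.1]
  · intro i hi
    rw [Int.toNat_of_nonneg (by positivity)]
    rcases hlev i hi with ⟨t, ht, _, he2⟩ | h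
    · rw [he2]
      have : (t : ℤ) * α ≤ P * α := mul_le_mul_of_nonneg_right (by exact_mod_cast ht) he.le
      linarith
    · exact h.2

/-- Four blocks spanning a parallelogram of level-zero vectors. -/
theorem exists_corners (hd : 3 ≤ d) (hℓ : ℓ ≠ 0) :
    ∃ (v k₂ k₃ : Fin d → ℤ) (b₀ b₂ b₃ b₂₃ : Blk ℓ), lev ℓ k₂ = 0 ∧ lev ℓ k₃ = 0 ∧
      (∀ a b : ℤ, a • k₂ + b • k₃ = 0 → a = 0 ∧ b = 0) ∧
      endPt b₀.1 = v ∧ endPt b₂.1 = v + k₂ ∧ endPt b₃.1 = v + k₃ ∧
      endPt b₂₃.1 = v + k₂ + k₃ := by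
  classical
  obtain ⟨i₀, hi₀⟩ : ∃ i, ℓ i ≠ 0 := Function.ne_iff.1 hℓ
  obtain ⟨b, c, hb, hc, hbc⟩ : ∃ b c : Fin d, b ≠ i₀ ∧ c ≠ i₀ ∧ b ≠ c := by
    have : 1 < (Finset.univ.erase i₀).card := by simp; omega
    obtain ⟨b, hb, c, hc, hbc⟩ := Finset.one_lt_card.1 this
    exact ⟨b, c, Finset.ne_of_mem_erase hb, Finset.ne_of_mem_erase hc, hbc⟩
  set k : Fin d → (Fin d → ℤ) := fun i => Pi.single i (ℓ i₀) - Pi.single i₀ (ℓ i) with hk
  have hk0 : ∀ i, lev ℓ (k i) = 0 := fun i => by
    rw [hk, map_sub]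
    simp [lev, Pi.single_apply, mul_comm]
  have blk : ∀ w : Fin d → ℤ, lev ℓ w = 0 → ∃ H₀ : ℕ, ∀ H, H₀ ≤ H → ∀ e e' : Dir d,
      0 < lev ℓ (dirVec e) → dirVec e' = -dirVec e →
      ∃ bb : Blk ℓ, endPt bb.1 = H • dirVec e + w := by
    intro w hw
    obtain ⟨q, Bq, hq0, hq, hq1, hqpos, hqB⟩ := exists_hump hℓ hw
    refine ⟨Bq + 2, fun H hH e e' he he' => ?_⟩
    set α := lev ℓ (dirVec e) with hα
    set Q := H - 1 with hQ
    have hQ1 : Bq + 1 ≤ Q := by omega
    set top := List.replicate Q e ++ List.replicate Q e' with htop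
    set r := q ++ top with hr
    have hrend : endPt r = w := by
      simp [r, top, endPt_replicate, he', hq]
    have hrlev : ∀ i ≤ r.length, 0 ≤ Lt ℓ r i ∧ Lt ℓ r i ≤ Q * α := by
      intro i hi
      rcases le_or_gt i q.length with h | h
      · rw [hr, Lt_append_left _ _ _ h]
        refine ⟨?_, (hqB i h).trans ?_⟩
        · rcases Nat.eq_zero_or_pos i with rfl | h0
          · simp
          rcases h.lt_or_eq with hl | hl
          · exact (hqpos i hl h0).le
          · rw [hl, Lt_length, hq, hw]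
        · calc (Bq : ℤ) ≤ Q := by exact_mod_cast (Nat.le_succ _).trans hQ1
            _ ≤ Q * α := le_mul_of_one_le_right (by positivity) he
      · obtain ⟨t, rfl⟩ := Nat.exists_eq_add_of_le h.le
        rw [hr, Lt_append_right, hq, hw, zero_add]
        rcases le_or_gt t Q with h2 | h2
        · rw [htop, Lt_append_left _ _ _ (by simpa using h2), Lt_replicate _ _ _ h2]
          exact ⟨by positivity, mul_le_mul_of_nonneg_right (by exact_mod_cast h2) he.le⟩
        · obtain ⟨u, rfl⟩ := Nat.exists_eq_add_of_le h2.le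
          have hu : u ≤ Q := by simp [r, top] at hi; omega
          have e1 := Lt_append_right ℓ (List.replicate Q e) (List.replicate Q e') u
          rw [List.length_replicate, endPt_replicate, map_nsmul, nsmul_eq_mul] at e1
          rw [htop, e1, Lt_replicate _ _ _ hu, he', map_neg]
          have : (u : ℤ) * α ≤ Q * α := mul_le_mul_of_nonneg_right (by exact_mod_cast hu) he.le
          have : 0 ≤ (u : ℤ) * α := by positivity
          constructor <;> linarith
    have htopQ : Lt ℓ r (q.length + Q) = Q * α := by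
      rw [hr, Lt_append_right, hq, hw, zero_add, htop, Lt_append_left _ _ _ (by simp),
        Lt_replicate _ _ _ le_rfl]
    set bl := r ++ List.replicate H e with hbl
    have hHQ : (Q : ℤ) + 1 = H := by exact_mod_cast (by omega : Q + 1 = H)
    have hafter : ∀ t ≤ H, Lt ℓ bl (r.length + t) = t * α := fun t ht => by
      rw [hbl, Lt_append_right, hrend, hw, zero_add, Lt_replicate _ _ _ ht]
    have hlen : bl.length = r.length + H := by simp [bl]
    have hend : Lt ℓ bl bl.length = H * α := by rw [hlen]; exact hafter H le_rfl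
    refine ⟨⟨bl, ⟨by simp [bl]; omega, fun i hi => ?_, fun i hi => ?_, fun j hj0 hj hreg => ?_⟩⟩, ?_⟩
    · rcases le_or_gt i r.length with h | h
      · rw [hbl, Lt_append_left _ _ _ h]; exact (hrlev i h).1
      · obtain ⟨t, rfl⟩ := Nat.exists_eq_add_of_le h.le
        rw [hafter t (by omega)]; positivity
    · rw [hend]
      rcases le_or_gt i r.length with h | h
      · rw [hbl, Lt_append_left _ _ _ h, ← hHQ]
        nlinarith [(hrlev i h).2]
      · obtain ⟨t, rfl⟩ := Nat.exists_eq_add_of_le h.le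
        rw [hafter t (by omega)]
        exact mul_lt_mul_of_pos_right (by exact_mod_cast (by omega : t < H)) he
    · rcases le_or_gt j r.length with h | h
      · have h1 := hreg.1 0 hj0
        have h2 := hreg.2 r.length h (by omega)
        have h3 := hafter 0 (Nat.zero_le _)
        simp only [add_zero, Nat.cast_zero, zero_mul] at h3
        rw [Lt_zero] at h1
        omega
      · obtain ⟨t, rfl⟩ := Nat.exists_eq_add_of_le h.le
        have hle : q.length + Q ≤ r.length := by simp [r, top]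
        have h1 := hreg.1 (q.length + Q) (by omega)
        rw [hafter t (by omega)] at h1
        have h2 : Lt ℓ bl (q.length + Q) = Q * α := by
          rw [hbl, Lt_append_left _ _ _ hle]; exact htopQ
        rw [h2] at h1
        have : (t : ℤ) * α ≤ Q * α :=
          mul_le_mul_of_nonneg_right (by exact_mod_cast (by omega : t ≤ Q)) he.le
        linarith
    · show endPt bl = _
      rw [hbl, endPt_append, hrend, endPt_replicate, add_comm]
  obtain ⟨e, e', he, he'⟩ := exists_up hℓ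
  obtain ⟨A0, hA0⟩ := blk 0 (map_zero _)
  obtain ⟨A2, hA2⟩ := blk (k b) (hk0 b)
  obtain ⟨A3, hA3⟩ := blk (k c) (hk0 c)
  obtain ⟨A4, hA4⟩ := blk (k b + k c) (by rw [map_add, hk0, hk0]; rfl)
  set H := A0 + A2 + A3 + A4
  obtain ⟨b₀, hb₀⟩ := hA0 H (by omega) e e' he he'
  obtain ⟨b₂, hb₂⟩ := hA2 H (by omega) e e' he he'
  obtain ⟨b₃, hb₃⟩ := hA3 H (by omega) e e' he he'
  obtain ⟨b₄, hb₄⟩ := hA4 H (by omega) e e' he he'
  refine ⟨H • dirVec e, k b, k c, b₀, b₂, b₃, b₄, hk0 b, hk0 c, fun x y hxy => ?_,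
    by rw [hb₀, add_zero], hb₂, hb₃, by rw [hb₄, add_assoc]⟩
  have h1 := congrFun hxy b
  have h2 := congrFun hxy c
  simp [hk, hb, hc, hbc, Ne.symm hbc, hi₀] at h1 h2
  exact ⟨h1, h2⟩

/-- Sites of a path. -/
def visited (l : List (Dir d)) : Finset (Fin d → ℤ) :=
  (Finset.range (l.length + 1)).image fun i => endPt (l.take i)

lemma mem_visited {l : List (Dir d)} {x : Fin d → ℤ} :
    x ∈ visited l ↔ ∃ i ≤ l.length, endPt (l.take i) = x := by
  simp [visited]

/-- The blocks in direction `ℓ`, read backwards from their end. -/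
def fwd (μ : Measure (Row d)) [IsProbabilityMeasure μ] {ℓ : Fin d → ℤ}
    (hp : annealed μ (Dp ℓ) ≠ 0) : Side (Blk ℓ) d where
  law := blkPMF μ hp
  dsp b := -endPt b.1
  pts b := (visited b.1).image (· - endPt b.1)

/-- The blocks in direction `-ℓ`. -/
def bwd (μ : Measure (Row d)) [IsProbabilityMeasure μ] {ℓ : Fin d → ℤ}
    (hp : annealed μ (Dp (-ℓ)) ≠ 0) : Side (Blk (-ℓ)) d where
  law := blkPMF μ hp
  dsp b := endPt b.1
  pts b := visited b.1

lemma ne_zero_of_Dp (hp : annealed μ (Dp ℓ) ≠ 0) : ℓ ≠ 0 := by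
  rintro rfl
  refine hp ?_
  have : Dp (0 : Fin d → ℤ) = ∅ := by
    ext s
    simp only [Dp, Set.mem_ofPred_eq, Set.mem_empty_iff_false, iff_false, not_and]
    intro _ h
    obtain ⟨n, hn⟩ := (Filter.tendsto_atTop.1 h 1).exists
    simp [lev] at hn
  rw [this]; exact measure_empty

lemma mean_card (hp : annealed μ (Dp ℓ) ≠ 0)
    (hlen : ∑' b, blkPMF μ hp b * (b.1.length : ℝ≥0∞) ≠ ⊤) (f : Blk ℓ → Finset (Fin d → ℤ))
    (hf : ∀ b, (f b).card ≤ b.1.length + 1) :
    ∑' b, blkPMF μ hp b * ((f b).card : ℝ≥0∞) ≠ ⊤ := by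
  refine ne_top_of_le_ne_top (ENNReal.add_ne_top.2 ⟨hlen, ENNReal.one_ne_top⟩) ?_
  rw [← (blkPMF μ hp).tsum_coe, ← ENNReal.tsum_add]
  refine ENNReal.tsum_le_tsum fun b => ?_
  calc blkPMF μ hp b * ((f b).card : ℝ≥0∞) ≤ blkPMF μ hp b * ((b.1.length + 1 : ℕ) : ℝ≥0∞) :=
        mul_le_mul' le_rfl (Nat.cast_le.2 (hf b))
    _ = _ := by push_cast; ring

lemma card_visited_le (l : List (Dir d)) : (visited l).card ≤ l.length + 1 :=
  Finset.card_image_le.trans (by simp)

theorem good_fwd (hd : 3 ≤ d) (he : IsElliptic μ) (hp : annealed μ (Dp ℓ) ≠ 0)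
    (hlen : ∑' b, blkPMF μ hp b * (b.1.length : ℝ≥0∞) ≠ ⊤) :
    Good (lev ℓ) (fwd μ hp) where
  dsp_le b := by
    have := b.2.lev_pos
    simp only [fwd, map_neg]
    omega
  pts_le b x hx := by
    simp only [fwd, Finset.mem_image, mem_visited] at hx
    obtain ⟨_, ⟨i, hi, rfl⟩, rfl⟩ := hx
    have h1 := b.2.nonneg i hi
    have h2 : Lt ℓ b.1 i ≤ lev ℓ (endPt b.1) := by
      rcases hi.lt_or_eq with h | h
      · exact ((b.2.last i h).le).trans_eq (Lt_length ℓ b.1)
      · rw [h, Lt_length]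
    simp only [Lt] at h1 h2
    simp only [fwd, map_sub, map_neg]
    constructor <;> linarith
  corners := by
    obtain ⟨v, k₂, k₃, b₀, b₂, b₃, b₄, h₂, h₃, hind, e₀, e₂, e₃, e₄⟩ :=
      exists_corners hd (ne_zero_of_Dp hp)
    refine ⟨-(v + k₂ + k₃), k₂, k₃, b₄, b₃, b₂, b₀, h₂, h₃, hind, ?_, ?_, ?_, ?_, ?_⟩
    · simp [fwd, e₄]
    · simp only [fwd, e₃]; abel
    · simp only [fwd, e₂]; abel
    · simp only [fwd, e₀]; abel
    · exact ⟨(W_pos he _).ne', (W_pos he _).ne', (W_pos he _).ne', (W_pos he _).ne'⟩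
  meanDepth := by
    simpa [fwd, blkLev] using mean_blkLev hp
  meanCard := mean_card hp hlen _ fun b => Finset.card_image_le.trans (card_visited_le _)

theorem good_bwd (hd : 3 ≤ d) (he : IsElliptic μ) (hp : annealed μ (Dp (-ℓ)) ≠ 0)
    (hlen : ∑' b, blkPMF μ hp b * (b.1.length : ℝ≥0∞) ≠ ⊤) :
    Good (lev ℓ) (bwd μ hp) where
  dsp_le b := by
    have := b.2.lev_pos
    rw [lev_neg_left] at this
    simp only [bwd]
    omega
  pts_le b x hx := by
    simp only [bwd, mem_visited] at hx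
    obtain ⟨i, hi, rfl⟩ := hx
    have h1 := b.2.nonneg i hi
    have h2 : Lt (-ℓ) b.1 i ≤ lev (-ℓ) (endPt b.1) := by
      rcases hi.lt_or_eq with h | h
      · exact ((b.2.last i h).le).trans_eq (Lt_length (-ℓ) b.1)
      · rw [h, Lt_length]
    simp only [Lt, lev_neg_left] at h1 h2
    simp only [bwd]
    constructor <;> linarith
  corners := by
    obtain ⟨v, k₂, k₃, b₀, b₂, b₃, b₄, h₂, h₃, hind, e₀, e₂, e₃, e₄⟩ :=
      exists_corners hd (ne_zero_of_Dp hp)
    rw [lev_neg_left, neg_eq_zero] at h₂ h₃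
    exact ⟨v, k₂, k₃, b₀, b₂, b₃, b₄, h₂, h₃, hind, e₀, e₂, e₃, e₄,
      (W_pos he _).ne', (W_pos he _).ne', (W_pos he _).ne', (W_pos he _).ne'⟩
  meanDepth := by
    simpa [bwd, blkLev, lev_neg_left] using mean_blkLev hp
  meanCard := mean_card hp hlen _ fun b => card_visited_le _

end Vale.Agent.P147
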