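import Mathlib

/-!
I.i.d. sequences in a countable type.
-/

noncomputable section

namespace Vale.Agent.P147

open MeasureTheory ProbabilityTheory
open scoped ENNReal

set_option linter.unusedSectionVars false

variable {α : Type*} [MeasurableSpace α] [MeasurableSingletonClass α] [Countable α]

/-- The law of an i.i.d. sequence. -/
def seqLaw (p : PMF α) : Measure (ℕ → α) := Measure.infinitePi fun _ : ℕ => p.toMeasure

instance (p : PMF α) : IsProbabilityMeasure (seqLaw p) := by unfold seqLaw; infer_instance

/-- The first `k` terms of a sequence. -/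
def head (k : ℕ) (ω : ℕ → α) : Fin k → α := fun i => ω i

lemma measurable_head (k : ℕ) : Measurable (head (α := α) k) := by unfold head; fun_prop

lemma measurable_of_head {β : Type*} [MeasurableSpace β] {f : (ℕ → α) → β} (k : ℕ)
    (g : (Fin k → α) → β) (h : ∀ ω, f ω = g (head k ω)) : Measurable f := by
  rw [funext h]; exact (measurable_of_countable g).comp (measurable_head k)

lemma measurableSet_of_head {E : Set (ℕ → α)} (k : ℕ)
    (h : ∀ ω η, head k ω = head k η → ω ∈ E → η ∈ E) : MeasurableSet E := by
  have : E = head k ⁻¹' (head k '' E) := by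
    ext ω
    exact ⟨fun hω => ⟨ω, hω, rfl⟩, fun ⟨η, hη, he⟩ => h η ω he hη⟩
  rw [this]
  exact measurable_head k (Set.to_countable _).measurableSet

theorem seqLaw_head_eq (p : PMF α) (k : ℕ) (g : Fin k → α) :
    seqLaw p {ω | head k ω = g} = ∏ i, p (g i) := by
  classical
  by_cases hα : IsEmpty α
  · exact (p.support_nonempty.some |> hα.false).elim
  rw [not_isEmpty_iff] at hα
  let t : ℕ → Set α := fun i => if h : i < k then {g ⟨i, h⟩} else Set.univ
  have : {ω : ℕ → α | head k ω = g} = (Finset.range k : Set ℕ).pi t := by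
    ext ω
    simp only [Set.mem_ofPred_eq, funext_iff, Set.mem_pi, Finset.mem_coe, Finset.mem_range, head, t]
    constructor
    · intro h i hi; simp [hi, ← h ⟨i, hi⟩]
    · intro h i; simpa [i.2] using h i i.2
  rw [this, seqLaw, Measure.infinitePi_pi _ fun i hi => ?_, Finset.prod_range fun i => p.toMeasure (t i)]
  · refine Finset.prod_congr rfl fun i _ => ?_
    simp [t, i.2, PMF.toMeasure_apply_singleton]
  · simp only [t]; split_ifs <;> measurability

theorem seqLaw_head_mem (p : PMF α) (k : ℕ) (S : Set (Fin k → α)) :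
    seqLaw p {ω | head k ω ∈ S} = ∑' g, S.indicator (fun g => ∏ i, p (g i)) g := by
  rw [← tsum_subtype]
  have : {ω : ℕ → α | head k ω ∈ S} = ⋃ g : S, {ω | head k ω = g.1} := by
    ext ω; simp
  rw [this, measure_iUnion]
  · exact tsum_congr fun g => seqLaw_head_eq p k g
  · intro g g' hne
    exact Set.disjoint_left.2 fun ω h h' => hne (Subtype.ext (h.symm.trans h'))
  · exact fun g => measurable_head k (measurableSet_singleton g.1)

/-- Replace the first `k` terms of `η` (shifted) by those of `ω`. -/
def glue (k : ℕ) (p : (ℕ → α) × (ℕ → α)) : ℕ → α :=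
  fun i => if i < k then p.1 i else p.2 (i - k)

omit [MeasurableSingletonClass α] [Countable α] in
lemma measurable_glue (k : ℕ) : Measurable (glue (α := α) k) := by
  refine measurable_pi_lambda _ fun i => ?_
  by_cases h : i < k
  · simp only [glue, h, if_true]; fun_prop
  · simp only [glue, h, if_false]; fun_prop

omit [MeasurableSpace α] [MeasurableSingletonClass α] [Countable α] in
@[simp] lemma glue_lt {k i : ℕ} (h : i < k) (p : (ℕ → α) × (ℕ → α)) :
    glue k p i = p.1 i := by simp [glue, h]

omit [MeasurableSpace α] [MeasurableSingletonClass α] [Countable α] in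
@[simp] lemma glue_add (k i : ℕ) (p : (ℕ → α) × (ℕ → α)) :
    glue k p (k + i) = p.2 i := by simp [glue]

theorem seqLaw_map_glue (p : PMF α) (k : ℕ) :
    ((seqLaw p).prod (seqLaw p)).map (glue k) = seqLaw p := by
  classical
  refine Measure.eq_infinitePi _ fun s t ht => ?_
  rw [Measure.map_apply (measurable_glue k)
    (MeasurableSet.pi s.countable_toSet fun i _ => ht i)]
  have : glue k ⁻¹' (s : Set ℕ).pi t =
      ((s.filter (· < k) : Finset ℕ) : Set ℕ).pi t ×ˢ
        (((s.filter fun i => ¬i < k).image (· - k) : Finset ℕ) : Set ℕ).pi (fun j => t (k + j)) := by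
    ext q
    simp only [Set.mem_preimage, Set.mem_pi, Finset.mem_coe, Set.mem_prod, Finset.mem_filter,
      Finset.mem_image, glue]
    constructor
    · intro h
      refine ⟨fun i hi => by simpa [hi.2] using h i hi.1, ?_⟩
      rintro j ⟨i, hi, rfl⟩
      simpa [hi.2, Nat.add_sub_cancel' (not_lt.1 hi.2)] using h i hi.1
    · intro h i hi
      by_cases hk : i < k
      · simpa [hk] using h.1 i ⟨hi, hk⟩
      · simpa [hk, Nat.add_sub_cancel' (not_lt.1 hk)] using h.2 (i - k) ⟨i, ⟨hi, hk⟩, rfl⟩
  rw [this, Measure.prod_prod, seqLaw, Measure.infinitePi_pi _ fun z _ => ht _,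
    Measure.infinitePi_pi _ fun z _ => ht _, Finset.prod_image,
    ← Finset.prod_filter_mul_prod_filter_not s (· < k) (fun i => p.toMeasure (t i))]
  · congr 1
    refine Finset.prod_congr rfl fun i hi => ?_
    rw [Nat.add_sub_cancel' (not_lt.1 (Finset.mem_filter.1 hi).2)]
  · intro a ha b hb hab
    simp only [Finset.coe_filter, Set.mem_ofPred_eq] at ha hb
    dsimp only at hab
    omega

theorem lintegral_glue (p : PMF α) (k : ℕ) {F : (ℕ → α) → ℝ≥0∞} (hF : Measurable F) :
    ∫⁻ ω, F ω ∂seqLaw p = ∫⁻ ω, ∫⁻ η, F (glue k (ω, η)) ∂seqLaw p ∂seqLaw p := by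
  conv_lhs => rw [← seqLaw_map_glue p k]
  rw [lintegral_map hF (measurable_glue k)]
  exact lintegral_prod _ (hF.comp (measurable_glue k)).aemeasurable

end Vale.Agent.P147
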