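import Vale.Agent.P147.Avoid

/-!
The transient case: a distant offset is avoided forever with positive probability.
-/

noncomputable section

namespace Vale.Agent.P147

open MeasureTheory ProbabilityTheory Filter
open scoped ENNReal Topology

set_option linter.unusedSectionVars false

variable {d : ℕ} {α β : Type*} [MeasurableSpace α] [MeasurableSingletonClass α] [Countable α]
  [MeasurableSpace β] [MeasurableSingletonClass β] [Countable β]
  {L : (Fin d → ℤ) →+ ℤ} {A : Side α d} {B : Side β d}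

/-- Probability that the walks meet with offset `w`. -/
def meetProb (A : Side α d) (B : Side β d) (w : Fin d → ℤ) : ℝ≥0∞ :=
  pairLaw A B (⋃ p, Match A B w p)

/-- Meeting at `w` and then at `w'` gives a late meeting at `w + w'` or an early one at `w`. -/
theorem meet_mul_le (hA : Good L A) (hB : Good L B) (w w' : Fin d → ℤ) (I : ℕ) :
    meetProb A B w * meetProb A B w' ≤
      (∑ i ∈ Finset.range I, ∑' j, pairLaw A B (Match A B w (i, j))) +
        cnt A B (w + w') {q | I ≤ q.1} := by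
  classical
  set P := pairLaw A B with hP
  set U : Set ((ℕ → α) × (ℕ → β)) := ⋃ q, Match A B w' q with hU
  have hUm : MeasurableSet U := MeasurableSet.iUnion fun q => measurableSet_match A B w' q
  set F := fun p => FirstMatch A B w Set.univ p with hF
  have h1 : meetProb A B w ≤ ∑' p, P (F p) := by
    refine (measure_mono ?_).trans (measure_iUnion_le _)
    intro x hx
    simp only [Set.mem_iUnion] at hx
    obtain ⟨p, hm⟩ := hx
    exact Set.mem_iUnion.2 (exists_firstMatch ⟨p, trivial, hm⟩)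
  set early : Set (ℕ × ℕ) := {p | p.1 ∈ Finset.range I}
  have hsplit : ∀ p, P (F p) * P U ≤ early.indicator (fun p => P (Match A B w p)) p +
      P (F p ∩ ⋃ q ∈ {q : ℕ × ℕ | I ≤ q.1}, Match A B (w + w') q) := by
    intro p
    by_cases hp : p ∈ early
    · rw [Set.indicator_of_mem hp]
      refine le_add_right ?_
      exact (mul_le_of_le_one_right' prob_le_one).trans (measure_mono fun x hx => hx.1)
    · refine le_add_left ?_
      rw [hP, ← prob_shift A B p (measurableSet_firstMatch A B w Set.univ p) hUm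
        (firstMatch_dep p)]
      refine measure_mono ?_
      rintro x ⟨hx, hxU⟩
      refine ⟨hx, ?_⟩
      simp only [U, Set.mem_preimage, Set.mem_iUnion] at hxU
      obtain ⟨q, hq⟩ := hxU
      have hp' : I ≤ p.1 := by simpa [early] using hp
      refine Set.mem_biUnion (x := p + q)
        (show I ≤ (p + q).1 from hp'.trans (Nat.le_add_right _ _)) ?_
      have e1 : A.S x.1 p.1 = B.S x.2 p.2 + w := hx.1
      have e2 : A.S (fun t => x.1 (p.1 + t)) q.1 = B.S (fun t => x.2 (p.2 + t)) q.2 + w' := hq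
      simp only [Side.S] at e1 e2
      show A.S x.1 (p + q).1 = B.S x.2 (p + q).2 + (w + w')
      simp only [Prod.fst_add, Prod.snd_add, Side.S, Finset.sum_range_add, e1, e2]
      abel
  calc meetProb A B w * meetProb A B w' ≤ ∑' p, P (F p) * P U := by
        rw [ENNReal.tsum_mul_right]; exact mul_le_mul' h1 le_rfl
    _ ≤ ∑' p, (early.indicator (fun p => P (Match A B w p)) p +
          P (F p ∩ ⋃ q ∈ {q : ℕ × ℕ | I ≤ q.1}, Match A B (w + w') q)) :=
        ENNReal.tsum_le_tsum hsplit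
    _ = (∑' p, early.indicator (fun p => P (Match A B w p)) p) +
          ∑' p, P (F p ∩ ⋃ q ∈ {q : ℕ × ℕ | I ≤ q.1}, Match A B (w + w') q) := ENNReal.tsum_add
    _ ≤ _ := by
        refine add_le_add (le_of_eq ?_) ?_
        · rw [← tsum_subtype]
          exact cnt_strip w (Finset.range I)
        · rw [← measure_iUnion (fun p p' h => Set.disjoint_left.2 fun x hx hx' =>
            h (firstMatch_unique hA hB hx.1 hx'.1)) (fun p =>
              (measurableSet_firstMatch A B w _ p).inter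
                (MeasurableSet.biUnion (Set.to_countable _) fun q _ => measurableSet_match A B _ q))]
          exact (measure_mono (Set.iUnion_subset fun p => Set.inter_subset_right)).trans
            (measure_biUnion_le _ (Set.to_countable _) _)

theorem exists_far (hA : Good L A) (hB : Good L B) (hG : cnt A B 0 Set.univ ≠ ⊤)
    {κ : Fin d → ℤ} (hκ : L κ = 0) (hκ0 : κ ≠ 0) :
    ∃ r : ℤ, r ≠ 0 ∧ (2 : ℝ≥0∞)⁻¹ ≤ pairLaw A B (HitIn A B (r • κ) Set.univ)ᶜ := by
  classical
  set P := pairLaw A B with hP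
  set G := cnt A B 0 Set.univ with hGdef
  set w₀ := fun uv : α × β => offsets A B 0 (fun _ => (1 : ℝ≥0∞)) uv with hw₀
  have hsum : ∑' uv, w₀ uv ≠ ⊤ := by
    rw [tsum_offsets_const, one_mul]; exact kappa_ne_top hA hB
  obtain ⟨X, hX⟩ : ∃ X : Finset (α × β),
      G * ∑' uv : {uv // uv ∉ X}, w₀ uv ≤ (4 : ℝ≥0∞)⁻¹ := by
    have h := ENNReal.Tendsto.const_mul (ENNReal.tendsto_tsum_compl_atTop_zero hsum) (Or.inr hG)
    rw [mul_zero] at h
    exact ((ENNReal.tendsto_nhds_zero.1 h) _ (by simp)).exists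
  set Wf : Finset (Fin d → ℤ) :=
    X.biUnion fun uv => (A.pts uv.1 ×ˢ B.pts uv.2).image fun ab => ab.2 - ab.1 with hWf
  set M : ℝ≥0∞ := ∑ uv ∈ X, ((A.pts uv.1).card * (B.pts uv.2).card : ℝ≥0∞) with hM
  have hMt : M ≠ ⊤ := ENNReal.sum_ne_top.2 fun uv _ => ENNReal.mul_ne_top (by simp) (by simp)
  set η : ℝ≥0∞ := (4 : ℝ≥0∞)⁻¹ / (M * G + 1) with hη
  have hη0 : η ≠ 0 := ENNReal.div_ne_zero.2
    ⟨by simp, ENNReal.add_ne_top.2 ⟨ENNReal.mul_ne_top hMt hG, ENNReal.one_ne_top⟩⟩
  have hηt : η ≠ ⊤ := ENNReal.div_ne_top (by simp) (by simp)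
  have hηM : M * G * η ≤ (4 : ℝ≥0∞)⁻¹ := by
    calc M * G * η ≤ (M * G + 1) * η := mul_le_mul' le_self_add le_rfl
      _ = (4 : ℝ≥0∞)⁻¹ := ENNReal.mul_div_cancel (by simp)
          (ENNReal.add_ne_top.2 ⟨ENNReal.mul_ne_top hMt hG, ENNReal.one_ne_top⟩)
  set δ : ℝ≥0∞ := η * η / 2 with hδ
  have hδ0 : δ ≠ 0 := ENNReal.div_ne_zero.2 ⟨mul_ne_zero hη0 hη0, by simp⟩
  -- late meetings
  obtain ⟨I, hI⟩ : ∃ I : ℕ, ∀ w ∈ Wf, ∀ w' ∈ Wf, cnt A B (w + w') {q | I ≤ q.1} ≤ δ := by
    have hz : ∀ u : Fin d → ℤ, ∀ᶠ I : ℕ in atTop, cnt A B u {q | I ≤ q.1} ≤ δ := by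
      intro u
      have hu : ∑' q, pairLaw A B (Match A B u q) ≠ ⊤ := by
        rw [← tsum_univ (fun q => pairLaw A B (Match A B u q))]
        exact ne_top_of_le_ne_top hG (cnt_univ_le hA hB u)
      obtain ⟨T, hT⟩ := ((ENNReal.tendsto_nhds_zero.1
        (ENNReal.tendsto_tsum_compl_atTop_zero hu)) δ (pos_iff_ne_zero.2 hδ0)).exists
      refine eventually_atTop.2 ⟨T.sup Prod.fst + 1, fun I hI => le_trans ?_ hT⟩
      exact ENNReal.tsum_mono_subtype (fun q => pairLaw A B (Match A B u q))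
        (s := {q : ℕ × ℕ | I ≤ q.1}) (t := {q | q ∉ T}) fun q hq hqT => by
          have := Finset.le_sup (f := Prod.fst) hqT
          simp only [Set.mem_ofPred_eq] at hq
          omega
    exact ((Finset.eventually_all Wf).2 fun w _ =>
      (Finset.eventually_all Wf).2 fun w' _ => hz (w + w')).exists
  -- early meetings
  obtain ⟨r, hr, hr0⟩ : ∃ r : ℤ, (∀ w ∈ Wf,
      (∑ i ∈ Finset.range I, ∑' j, pairLaw A B (Match A B (r • κ + w) (i, j))) ≤ δ) ∧ r ≠ 0 := by
    have hz : ∀ w : Fin d → ℤ, ∀ᶠ r : ℤ in cofinite,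
        (∑ i ∈ Finset.range I, ∑' j, pairLaw A B (Match A B (r • κ + w) (i, j))) ≤ δ := by
      intro w
      have hfin : ∀ i, ∑' r : ℤ, ∑' j, pairLaw A B (Match A B (r • κ + w) (i, j)) ≠ ⊤ := by
        intro i
        rw [← ENNReal.tsum_prod
          (f := fun (r : ℤ) (j : ℕ) => pairLaw A B (Match A B (r • κ + w) (i, j)))]
        refine ne_top_of_le_ne_top (measure_ne_top P (⋃ rj : ℤ × ℕ,
          Match A B (rj.1 • κ + w) (i, rj.2))) (le_of_eq ?_)
        rw [measure_iUnion ?_ (fun rj => measurableSet_match A B _ _)]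
        rintro ⟨r, j⟩ ⟨r', j'⟩ hne
        refine Set.disjoint_left.2 fun x hx hx' => hne ?_
        have e : B.S x.2 j + (r • κ + w) = B.S x.2 j' + (r' • κ + w) := hx.symm.trans hx'
        have e' := congrArg L e
        simp only [map_add, map_zsmul, hκ, smul_zero, zero_add] at e'
        have hj : j = j' := by
          rcases lt_trichotomy j j' with h | h | h
          · have := hB.lev_S_lt x.2 h; linarith
          · exact h
          · have := hB.lev_S_lt x.2 h; linarith
        subst hj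
        have e2 : r • κ = r' • κ := add_right_cancel (add_left_cancel e)
        rw [smul_left_injective ℤ hκ0 e2]
      have h0 := tendsto_finsetSum (Finset.range I) fun i _ =>
        ENNReal.tendsto_cofinite_zero_of_tsum_ne_top (hfin i)
      rw [Finset.sum_const_zero] at h0
      exact (ENNReal.tendsto_nhds_zero.1 h0) δ (pos_iff_ne_zero.2 hδ0)
    exact (((Finset.eventually_all Wf).2 fun w _ => hz w).and
      (eventually_cofinite_ne (0 : ℤ))).exists
  have hprod : ∀ w ∈ Wf, ∀ w' ∈ Wf,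
      meetProb A B (r • κ + w) * meetProb A B ((-r) • κ + w') ≤ η * η := by
    intro w hw w' hw'
    refine (meet_mul_le hA hB _ _ I).trans ?_
    rw [show r • κ + w + ((-r) • κ + w') = w + w' by rw [neg_smul]; abel]
    refine (add_le_add (hr w hw) (hI w hw w' hw')).trans (le_of_eq ?_)
    rw [hδ, ENNReal.add_halves]
  obtain ⟨t, ht0, ht⟩ : ∃ t : ℤ, t ≠ 0 ∧ ∀ w ∈ Wf, meetProb A B (t • κ + w) ≤ η := by
    by_cases h : ∀ w ∈ Wf, meetProb A B (r • κ + w) ≤ η
    · exact ⟨r, hr0, h⟩
    · push Not at h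
      obtain ⟨w, hw, hlt⟩ := h
      refine ⟨-r, neg_ne_zero.2 hr0, fun w' hw' => ?_⟩
      have := (mul_le_mul' hlt.le le_rfl).trans (hprod w hw w' hw')
      exact (ENNReal.mul_le_mul_iff_right hη0 hηt).1 this
  refine ⟨t, ht0, ?_⟩
  set y := t • κ with hy
  have hhit : P (HitIn A B y Set.univ) ≤ (2 : ℝ≥0∞)⁻¹ := by
    refine (measure_hitIn_le A B y Set.univ).trans ?_
    refine (ENNReal.tsum_le_tsum fun uv => offsets_mono y
      (fun w => cnt_univ_le_mul hA hB w) uv).trans ?_
    change ∑' uv, offsets A B y (fun w => meetProb A B w * G) uv ≤ _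
    rw [← Summable.tsum_add_tsum_compl (s := (X : Set (α × β)))
      (f := fun uv => offsets A B y (fun w => meetProb A B w * G) uv)
      ENNReal.summable ENNReal.summable]
    refine (add_le_add (b := (4 : ℝ≥0∞)⁻¹) (d := (4 : ℝ≥0∞)⁻¹) ?_ ?_).trans (le_of_eq ?_)
    · rw [Finset.tsum_subtype' X (fun uv => offsets A B y (fun w => meetProb A B w * G) uv)]
      refine le_trans ?_ hηM
      rw [hM, Finset.sum_mul, Finset.sum_mul]
      refine Finset.sum_le_sum fun uv huv => ?_
      calc offsets A B y (fun w => meetProb A B w * G) uv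
          ≤ 1 * ∑ a ∈ A.pts uv.1, ∑ b ∈ B.pts uv.2, meetProb A B (y + b - a) * G :=
            mul_le_mul' (mul_le_one' (PMF.coe_le_one _ _) (PMF.coe_le_one _ _)) le_rfl
        _ ≤ ∑ a ∈ A.pts uv.1, ∑ _b ∈ B.pts uv.2, η * G := by
            rw [one_mul]
            refine Finset.sum_le_sum fun a ha => Finset.sum_le_sum fun b hb =>
              mul_le_mul' ?_ le_rfl
            rw [hy, add_sub_assoc]
            refine ht _ (Finset.mem_biUnion.2 ⟨uv, huv, Finset.mem_image.2 ⟨(a, b), ?_, rfl⟩⟩)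
            exact Finset.mem_product.2 ⟨ha, hb⟩
        _ = ((A.pts uv.1).card : ℝ≥0∞) * (B.pts uv.2).card * G * η := by
            simp only [Finset.sum_const, nsmul_eq_mul]; ring
    · refine le_trans (le_of_le_of_eq (ENNReal.tsum_le_tsum fun uv =>
        (offsets_mono y (G := fun _ => G) (fun w => mul_le_of_le_one_left' prob_le_one) uv.1).trans
          (le_of_eq ?_)) ENNReal.tsum_mul_left) hX
      simp only [offsets, w₀, Finset.sum_const, nsmul_eq_mul]; ring
    · rw [← two_mul, show (4 : ℝ≥0∞) = 2 * 2 by norm_num, ENNReal.mul_inv (by simp) (by simp),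
        ← mul_assoc, ENNReal.mul_inv_cancel (by simp) (by simp), one_mul]
  have hpos : (2 : ℝ≥0∞)⁻¹ ≤ P (HitIn A B y Set.univ)ᶜ := by
    rw [prob_compl_eq_one_sub (measurableSet_hitIn A B _ _)]
    refine le_trans (le_of_eq ?_) (tsub_le_tsub_left hhit 1)
    rw [ENNReal.one_sub_inv_two]
  exact hpos

theorem exists_avoid_transient (hA : Good L A) (hB : Good L B) (hG : cnt A B 0 Set.univ ≠ ⊤)
    {κ : Fin d → ℤ} (hκ : L κ = 0) (hκ0 : κ ≠ 0) :
    ∃ r : ℤ, r ≠ 0 ∧ ∑' n, pairLaw A B (AvoidUpTo L A B (r • κ) n) = ⊤ := by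
  obtain ⟨r, hr, hpos⟩ := exists_far hA hB hG hκ hκ0
  refine ⟨r, hr, top_unique (le_trans (le_of_eq (ENNReal.tsum_const_eq_top_of_ne_zero
    (α := ℕ) (c := (2 : ℝ≥0∞)⁻¹) (by simp)).symm) (ENNReal.tsum_le_tsum fun n => hpos.trans ?_))⟩
  refine measure_mono fun x hx i _ j _ hh => hx ?_
  exact Set.mem_biUnion (Set.mem_univ (i, j)) hh

theorem exists_avoid (hA : Good L A) (hB : Good L B) {κ : Fin d → ℤ} (hκ : L κ = 0)
    (hκ0 : κ ≠ 0) : ∃ r : ℤ, r ≠ 0 ∧ ∑' n, pairLaw A B (AvoidUpTo L A B (r • κ) n) = ⊤ := by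
  by_cases hG : cnt A B 0 Set.univ = ⊤
  · exact exists_avoid_recurrent hA hB hG hκ hκ0
  · exact exists_avoid_transient hA hB hG hκ hκ0

end Vale.Agent.P147
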