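import Vale.Agent.P147.Conc

/-!
Two independent renewal walks on `ℤ^d` descending in level, and their common points.
-/

noncomputable section

namespace Vale.Agent.P147

open MeasureTheory ProbabilityTheory Filter
open scoped ENNReal Topology

variable {d : ℕ}

/-- One of the two walks: the block law, the displacement and the piece of sites of a block. -/
structure Side (α : Type*) (d : ℕ) where
  /-- law of a block -/
  law : PMF α
  /-- displacement -/
  dsp : α → (Fin d → ℤ)
  /-- sites -/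
  pts : α → Finset (Fin d → ℤ)

/-- Position after `i` blocks. -/
def Side.S {α : Type*} (A : Side α d) (ω : ℕ → α) (i : ℕ) : Fin d → ℤ :=
  ∑ t ∈ Finset.range i, A.dsp (ω t)

/-- The standing assumptions on a walk. -/
structure Good {α : Type*} (L : (Fin d → ℤ) →+ ℤ) (A : Side α d) : Prop where
  dsp_le : ∀ a, L (A.dsp a) ≤ -1
  pts_le : ∀ a, ∀ x ∈ A.pts a, L (A.dsp a) ≤ L x ∧ L x ≤ 0
  corners : ∃ (v k₂ k₃ : Fin d → ℤ) (a₀ a₁ a₂ a₃ : α), L k₂ = 0 ∧ L k₃ = 0 ∧
    (∀ a b : ℤ, a • k₂ + b • k₃ = 0 → a = 0 ∧ b = 0) ∧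
    A.dsp a₀ = v ∧ A.dsp a₁ = v + k₂ ∧ A.dsp a₂ = v + k₃ ∧ A.dsp a₃ = v + k₂ + k₃ ∧
    (A.law a₀ ≠ 0 ∧ A.law a₁ ≠ 0 ∧ A.law a₂ ≠ 0 ∧ A.law a₃ ≠ 0)
  meanDepth : ∑' a, A.law a * ((-L (A.dsp a)).toNat : ℝ≥0∞) ≠ ⊤
  meanCard : ∑' a, A.law a * ((A.pts a).card : ℝ≥0∞) ≠ ⊤

set_option linter.unusedSectionVars false

variable {α β : Type*} [MeasurableSpace α] [MeasurableSingletonClass α] [Countable α]
  [MeasurableSpace β] [MeasurableSingletonClass β] [Countable β]

/-- The two sequences are independent. -/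
def pairLaw (A : Side α d) (B : Side β d) : Measure ((ℕ → α) × (ℕ → β)) :=
  (seqLaw A.law).prod (seqLaw B.law)

instance (A : Side α d) (B : Side β d) : IsProbabilityMeasure (pairLaw A B) := by
  unfold pairLaw; infer_instance

/-- The walks meet, with offset `w`, at block indices `p`. -/
def Match (A : Side α d) (B : Side β d) (w : Fin d → ℤ) (p : ℕ × ℕ) :
    Set ((ℕ → α) × (ℕ → β)) :=
  {x | A.S x.1 p.1 = B.S x.2 p.2 + w}

/-- Expected number of meetings with index pair in `I`. -/
def cnt (A : Side α d) (B : Side β d) (w : Fin d → ℤ) (I : Set (ℕ × ℕ)) : ℝ≥0∞ :=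
  ∑' p : I, pairLaw A B (Match A B w p.1)

omit [MeasurableSpace α] [MeasurableSingletonClass α] [Countable α] in
lemma Side.S_glue (A : Side α d) (k i : ℕ) (q : (ℕ → α) × (ℕ → α)) :
    A.S (glue k q) (k + i) = A.S q.1 k + A.S q.2 i := by
  simp only [Side.S, Finset.sum_range_add, glue_add]
  congr 1
  exact Finset.sum_congr rfl fun t ht => by rw [glue_lt (Finset.mem_range.1 ht)]

omit [MeasurableSpace α] [MeasurableSingletonClass α] [Countable α] in
lemma Side.S_congr (A : Side α d) {i k : ℕ} (h : i ≤ k) {ω η : ℕ → α} (e : head k ω = head k η) :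
    A.S ω i = A.S η i :=
  Finset.sum_congr rfl fun t ht => by
    have := congrFun e ⟨t, (Finset.mem_range.1 ht).trans_le h⟩
    simp only [head] at this
    rw [this]

lemma Side.measurable_S (A : Side α d) (i : ℕ) : Measurable fun ω => A.S ω i :=
  measurable_of_head i (fun g => ∑ t : Fin i, A.dsp (g t))
    (fun ω => by simp [Side.S, head, Finset.sum_range])

lemma measurableSet_match (A : Side α d) (B : Side β d) (w : Fin d → ℤ) (p : ℕ × ℕ) :
    MeasurableSet (Match A B w p) := by
  have : Match A B w p =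
      (fun x => (A.S x.1 p.1, B.S x.2 p.2)) ⁻¹' {q | q.1 = q.2 + w} := rfl
  rw [this]
  exact (((A.measurable_S p.1).comp measurable_fst).prodMk
    ((B.measurable_S p.2).comp measurable_snd)) (Set.to_countable _).measurableSet

lemma seqLaw_fst (A : Side α d) {F : α → ℝ≥0∞} :
    ∫⁻ ω, F (ω 0) ∂seqLaw A.law = ∑' a, A.law a * F a := by
  have h := Measure.infinitePi_map_eval (fun _ : ℕ => A.law.toMeasure) 0
  rw [seqLaw, ← lintegral_map (f := F) (measurable_of_countable F) (measurable_pi_apply 0), h,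
    lintegral_countable']
  exact tsum_congr fun a => by rw [PMF.toMeasure_apply_singleton _ _ (measurableSet_singleton a),
    mul_comm]

/-- The operator iterates compute expectations along the walk. -/
lemma lintegral_S (A : Side α d) (h : (Fin d → ℤ) → ℝ≥0∞) (i : ℕ) (x : Fin d → ℤ) :
    ∫⁻ ω, h (x + A.S ω i) ∂seqLaw A.law = (stepOp A.law A.dsp)^[i] h x := by
  induction i generalizing x with
  | zero => simp [Side.S]
  | succ i ih =>
    rw [lintegral_glue A.law 1 (F := fun ω => h (x + A.S ω (i + 1)))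
      ((measurable_of_countable h).comp (measurable_const.add (A.measurable_S _)))]
    have : ∀ ω η, A.S (glue 1 (ω, η)) (i + 1) = A.dsp (ω 0) + A.S η i := by
      intro ω η
      rw [add_comm i 1, A.S_glue]; simp [Side.S]
    simp only [this, ← add_assoc, ih]
    rw [seqLaw_fst A (F := fun a => (stepOp A.law A.dsp)^[i] h (x + A.dsp a)),
      Function.iterate_succ_apply']
    rfl

/-- Concentration on graphs of functions of the level. -/
theorem Good.conc {L : (Fin d → ℤ) →+ ℤ} {A : Side α d} (hA : Good L A) :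
    ∃ C : ℝ≥0∞, C ≠ ⊤ ∧ ∀ (i : ℕ) (f : ℤ → (Fin d → ℤ)),
      seqLaw A.law {ω | A.S ω i = f (L (A.S ω i))} ≤ C / ((i + 1 : ℕ) : ℝ≥0∞) := by
  obtain ⟨v, k₂, k₃, a₀, a₁, a₂, a₃, h₂, h₃, hind, e₀, e₁, e₂, e₃, hp⟩ := hA.corners
  obtain ⟨C, hC, hb⟩ := stepOp_iter_graph_le A.law A.dsp L v k₂ k₃ h₂ h₃ hind a₀ a₁ a₂ a₃
    e₀ e₁ e₂ e₃ hp
  refine ⟨C, hC, fun i f => ?_⟩
  refine le_trans (le_of_eq ?_) (hb i f 0)
  rw [← lintegral_S, ← lintegral_indicator_one
    (s := {ω | A.S ω i = f (L (A.S ω i))})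
    ((A.measurable_S i) (Set.to_countable {y | y = f (L y)}).measurableSet)]
  refine lintegral_congr fun ω => ?_
  simp [graphInd, Set.indicator_apply]

variable {L : (Fin d → ℤ) →+ ℤ} {A : Side α d} {B : Side β d}

omit [MeasurableSpace α] [MeasurableSingletonClass α] [Countable α] in
lemma Good.lev_S_lt (hA : Good L A) (ω : ℕ → α) {i j : ℕ} (h : i < j) :
    L (A.S ω j) < L (A.S ω i) := by
  induction j, h using Nat.le_induction with
  | base =>
    simp only [Side.S, Finset.sum_range_succ, map_add]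
    have := hA.dsp_le (ω i)
    linarith
  | succ j _ ih =>
    simp only [Side.S, Finset.sum_range_succ, map_add] at ih ⊢
    have := hA.dsp_le (ω j)
    linarith

omit [MeasurableSpace α] [MeasurableSingletonClass α] [Countable α] in
lemma Good.lev_S_le (hA : Good L A) (ω : ℕ → α) {i j : ℕ} (h : i ≤ j) :
    L (A.S ω j) ≤ L (A.S ω i) := by
  rcases h.eq_or_lt with rfl | h
  · rfl
  · exact (hA.lev_S_lt ω h).le

omit [MeasurableSpace α] [MeasurableSingletonClass α] [Countable α] [MeasurableSpace β]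
  [MeasurableSingletonClass β] [Countable β] in
lemma match_mono (hA : Good L A) (hB : Good L B) {w : Fin d → ℤ} {p q : ℕ × ℕ}
    {x : (ℕ → α) × (ℕ → β)} (hp : x ∈ Match A B w p) (hq : x ∈ Match A B w q) :
    (p.1 < q.1 → p.2 < q.2) ∧ (p.1 = q.1 → p.2 = q.2) := by
  have h1 := congrArg L hp
  have h2 := congrArg L hq
  rw [map_add] at h1 h2
  constructor
  · intro h
    have := hA.lev_S_lt x.1 h
    by_contra hc
    have := hB.lev_S_le x.2 (not_lt.1 hc)
    linarith
  · intro h
    rw [h] at h1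
    rcases lt_trichotomy p.2 q.2 with hl | hl | hl
    · have := hB.lev_S_lt x.2 hl; linarith
    · exact hl
    · have := hB.lev_S_lt x.2 hl; linarith

omit [MeasurableSpace α] [MeasurableSingletonClass α] [Countable α] [MeasurableSpace β]
  [MeasurableSingletonClass β] [Countable β] in
lemma match_eq_of_fst (hA : Good L A) (hB : Good L B) {w : Fin d → ℤ} {p q : ℕ × ℕ}
    {x : (ℕ → α) × (ℕ → β)} (hp : x ∈ Match A B w p) (hq : x ∈ Match A B w q)
    (h : p.1 = q.1) : p = q := Prod.ext h ((match_mono hA hB hp hq).2 h)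

/-- For a fixed index of the first walk, the meeting probability is `O(1/i)`. -/
lemma sum_match_le (hA : Good L A) (hB : Good L B) :
    ∃ C : ℝ≥0∞, C ≠ ⊤ ∧ ∀ (w : Fin d → ℤ) (i : ℕ),
      ∑' j, pairLaw A B (Match A B w (i, j)) ≤ C / ((i + 1 : ℕ) : ℝ≥0∞) := by
  classical
  obtain ⟨C, hC, hb⟩ := hA.conc
  refine ⟨C, hC, fun w i => ?_⟩
  rw [← measure_iUnion (μ := pairLaw A B) (f := fun j => Match A B w (i, j))
    (fun j j' h => Set.disjoint_left.2 fun x hj hj' =>
      h (congrArg Prod.snd (match_eq_of_fst hA hB hj hj' rfl)))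
    (fun j => measurableSet_match A B w (i, j))]
  rw [pairLaw, Measure.prod_apply_symm (MeasurableSet.iUnion fun j => measurableSet_match A B w (i, j))]
  calc ∫⁻ η, seqLaw A.law ((fun ω => (ω, η)) ⁻¹' ⋃ j, Match A B w (i, j)) ∂seqLaw B.law
      ≤ ∫⁻ _, C / ((i + 1 : ℕ) : ℝ≥0∞) ∂seqLaw B.law := by
        refine lintegral_mono fun η => ?_
        let f : ℤ → (Fin d → ℤ) := fun l =>
          if h : ∃ j, L (B.S η j + w) = l then B.S η h.choose + w else 0
        refine le_trans (measure_mono ?_) (hb i f)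
        intro ω hω
        simp only [Set.mem_preimage, Set.mem_iUnion] at hω
        obtain ⟨j, hj⟩ := hω
        have hex : ∃ j', L (B.S η j' + w) = L (A.S ω i) :=
          ⟨j, by rw [show A.S ω i = B.S η j + w from hj]⟩
        show A.S ω i = f (L (A.S ω i))
        simp only [f, dif_pos hex]
        have hc := hex.choose_spec
        have : hex.choose = j := by
          replace hc : L (B.S η hex.choose + w) = L (B.S η j + w) := hc.trans (congrArg L hj)
          rw [map_add, map_add] at hc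
          rcases lt_trichotomy hex.choose j with hl | hl | hl
          · have := hB.lev_S_lt η hl; linarith
          · exact hl
          · have := hB.lev_S_lt η hl; linarith
        rw [this]; exact hj
    _ = C / ((i + 1 : ℕ) : ℝ≥0∞) := by simp

lemma match_swap (w : Fin d → ℤ) (i j : ℕ) :
    pairLaw A B (Match A B w (i, j)) = pairLaw B A (Match B A (-w) (j, i)) := by
  rw [pairLaw, pairLaw, ← Measure.prod_swap (μ := seqLaw B.law) (ν := seqLaw A.law),
    Measure.map_apply measurable_swap (measurableSet_match A B w (i, j))]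
  congr 1
  ext x
  simp only [Match, Set.mem_preimage, Set.mem_ofPred_eq, Prod.fst_swap, Prod.snd_swap]
  constructor
  · intro h; rw [h]; abel
  · intro h; rw [h]; abel

/-- The first meeting in `I`. -/
def FirstMatch (A : Side α d) (B : Side β d) (w : Fin d → ℤ) (I : Set (ℕ × ℕ)) (p : ℕ × ℕ) :
    Set ((ℕ → α) × (ℕ → β)) :=
  {x | x ∈ Match A B w p ∧ p ∈ I ∧ ∀ q ∈ I, q.1 < p.1 → q.2 < p.2 → x ∉ Match A B w q}

omit [MeasurableSpace α] [MeasurableSingletonClass α] [Countable α] [MeasurableSpace β]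
  [MeasurableSingletonClass β] [Countable β] in
lemma firstMatch_unique (hA : Good L A) (hB : Good L B) {w : Fin d → ℤ} {I : Set (ℕ × ℕ)}
    {p q : ℕ × ℕ} {x : (ℕ → α) × (ℕ → β)} (hp : x ∈ FirstMatch A B w I p)
    (hq : x ∈ FirstMatch A B w I q) : p = q := by
  rcases lt_trichotomy p.1 q.1 with h | h | h
  · exact absurd hp.1 (hq.2.2 p hp.2.1 h ((match_mono hA hB hp.1 hq.1).1 h))
  · exact match_eq_of_fst hA hB hp.1 hq.1 h
  · exact absurd hq.1 (hp.2.2 q hq.2.1 h ((match_mono hA hB hq.1 hp.1).1 h))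

omit [MeasurableSpace α] [MeasurableSingletonClass α] [Countable α] [MeasurableSpace β]
  [MeasurableSingletonClass β] [Countable β] in
lemma exists_firstMatch {w : Fin d → ℤ} {I : Set (ℕ × ℕ)}
    {x : (ℕ → α) × (ℕ → β)} (h : ∃ p ∈ I, x ∈ Match A B w p) :
    ∃ p, x ∈ FirstMatch A B w I p := by
  classical
  have h' : ∃ i, ∃ j, (i, j) ∈ I ∧ x ∈ Match A B w (i, j) := by
    obtain ⟨⟨i, j⟩, h1, h2⟩ := h; exact ⟨i, j, h1, h2⟩
  obtain ⟨j, h1, h2⟩ := Nat.find_spec h'
  exact ⟨(Nat.find h', j), h2, h1, fun q hq hlt _ hm => Nat.find_min h' hlt ⟨q.2, hq, hm⟩⟩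

lemma measurableSet_firstMatch (A : Side α d) (B : Side β d) (w : Fin d → ℤ) (I : Set (ℕ × ℕ))
    (p : ℕ × ℕ) : MeasurableSet (FirstMatch A B w I p) := by
  have : FirstMatch A B w I p = Match A B w p ∩ {_x | p ∈ I} ∩
      ⋂ q : {q : ℕ × ℕ // q ∈ I ∧ q.1 < p.1 ∧ q.2 < p.2}, (Match A B w q.1)ᶜ := by
    ext x
    simp only [FirstMatch, Set.mem_ofPred_eq, Set.mem_inter_iff, Set.mem_iInter, Set.mem_compl_iff,
      Subtype.forall]
    exact ⟨fun ⟨a, b, c⟩ => ⟨⟨a, b⟩, fun q hq => c q hq.1 hq.2.1 hq.2.2⟩,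
      fun ⟨⟨a, b⟩, c⟩ => ⟨a, b, fun q h1 h2 h3 => c q ⟨h1, h2, h3⟩⟩⟩
  rw [this]
  exact ((measurableSet_match A B w p).inter (MeasurableSet.const _)).inter
    (MeasurableSet.iInter fun q => (measurableSet_match A B w q.1).compl)

/-- The sequences after the indices `p`. -/
def shiftPair (p : ℕ × ℕ) (x : (ℕ → α) × (ℕ → β)) : (ℕ → α) × (ℕ → β) :=
  (fun t => x.1 (p.1 + t), fun t => x.2 (p.2 + t))

omit [MeasurableSingletonClass α] [Countable α] [MeasurableSingletonClass β] [Countable β] in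
lemma measurable_shiftPair (p : ℕ × ℕ) : Measurable (shiftPair (α := α) (β := β) p) := by
  unfold shiftPair; fun_prop

/-- Events depending only on the first `p` indices are independent of the shifted sequences. -/
theorem prob_shift (A : Side α d) (B : Side β d) (p : ℕ × ℕ) {E G : Set ((ℕ → α) × (ℕ → β))}
    (hE : MeasurableSet E) (hG : MeasurableSet G)
    (hdep : ∀ ω ω' η η', head p.1 ω = head p.1 ω' → head p.2 η = head p.2 η' →
      (ω, η) ∈ E → (ω', η') ∈ E) :
    pairLaw A B (E ∩ shiftPair p ⁻¹' G) = pairLaw A B E * pairLaw A B G := by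
  obtain ⟨i, j⟩ := p
  set μA := seqLaw A.law
  set μB := seqLaw B.law
  have hEG : MeasurableSet (E ∩ shiftPair (i, j) ⁻¹' G) := hE.inter (measurable_shiftPair _ hG)
  set F : (ℕ → α) × (ℕ → β) → ℝ≥0∞ := (E ∩ shiftPair (i, j) ⁻¹' G).indicator 1 with hF
  set fE : (ℕ → α) × (ℕ → β) → ℝ≥0∞ := E.indicator 1 with hfE
  set fG : (ℕ → α) × (ℕ → β) → ℝ≥0∞ := G.indicator 1 with hfG
  have mF : Measurable F := measurable_one.indicator hEG
  have mE : Measurable fE := measurable_one.indicator hE
  have mG : Measurable fG := measurable_one.indicator hG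
  have pt : ∀ ω₁ ω₂ η₁ η₂, F (glue i (ω₁, ω₂), glue j (η₁, η₂)) = fE (ω₁, η₁) * fG (ω₂, η₂) := by
    intro ω₁ ω₂ η₁ η₂
    have h1 : (glue i (ω₁, ω₂), glue j (η₁, η₂)) ∈ E ↔ (ω₁, η₁) ∈ E := by
      have e1 : head i (glue i (ω₁, ω₂)) = head i ω₁ := funext fun t => by simp [head]
      have e2 : head j (glue j (η₁, η₂)) = head j η₁ := funext fun t => by simp [head]
      exact ⟨hdep _ _ _ _ e1 e2, hdep _ _ _ _ e1.symm e2.symm⟩
    have h2 : shiftPair (i, j) (glue i (ω₁, ω₂), glue j (η₁, η₂)) = (ω₂, η₂) := by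
      simp [shiftPair]
    have h3 : (glue i (ω₁, ω₂), glue j (η₁, η₂)) ∈ E ∩ shiftPair (i, j) ⁻¹' G ↔
        (ω₁, η₁) ∈ E ∧ (ω₂, η₂) ∈ G := by
      rw [Set.mem_inter_iff, Set.mem_preimage, h1, h2]
    by_cases hE1 : (ω₁, η₁) ∈ E <;> by_cases hG1 : (ω₂, η₂) ∈ G <;>
      simp [hF, hfE, hfG, h3, hE1, hG1]
  calc pairLaw A B (E ∩ shiftPair (i, j) ⁻¹' G) = ∫⁻ x, F x ∂pairLaw A B :=
        (lintegral_indicator_one hEG).symm
    _ = ∫⁻ ω, ∫⁻ η, F (ω, η) ∂μB ∂μA := lintegral_prod _ mF.aemeasurable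
    _ = ∫⁻ ω₁, ∫⁻ ω₂, ∫⁻ η₁, ∫⁻ η₂, F (glue i (ω₁, ω₂), glue j (η₁, η₂)) ∂μB ∂μB ∂μA ∂μA := by
        rw [lintegral_glue A.law i (Measurable.lintegral_prod_right' mF)]
        refine lintegral_congr fun ω₁ => lintegral_congr fun ω₂ => ?_
        exact lintegral_glue B.law j (mF.comp (measurable_const.prodMk measurable_id))
    _ = ∫⁻ ω₁, ∫⁻ η₁, fE (ω₁, η₁) * (∫⁻ ω₂, ∫⁻ η₂, fG (ω₂, η₂) ∂μB ∂μA) ∂μB ∂μA := by
        simp only [pt]
        refine lintegral_congr fun ω₁ => ?_
        have hg : Measurable fun ω₂ => ∫⁻ η₂, fG (ω₂, η₂) ∂μB :=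
          Measurable.lintegral_prod_right' mG
        have h3 : ∀ ω₂ η₁, ∫⁻ η₂, fE (ω₁, η₁) * fG (ω₂, η₂) ∂μB =
            fE (ω₁, η₁) * ∫⁻ η₂, fG (ω₂, η₂) ∂μB := fun ω₂ η₁ =>
          lintegral_const_mul _ (mG.comp (measurable_const.prodMk measurable_id))
        simp only [h3]
        rw [lintegral_lintegral_swap]
        · exact lintegral_congr fun η₁ => lintegral_const_mul _ hg
        · exact ((mE.comp (measurable_const.prodMk measurable_snd)).mul
            (hg.comp measurable_fst)).aemeasurable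
    _ = pairLaw A B E * pairLaw A B G := by
        rw [← lintegral_indicator_one hE, ← lintegral_indicator_one hG]
        simp only [pairLaw, lintegral_prod _ mE.aemeasurable, lintegral_prod _ mG.aemeasurable,
          ← hfE, ← hfG]
        have h4 : ∀ ω₁, ∫⁻ η₁, fE (ω₁, η₁) * (∫⁻ ω₂, ∫⁻ η₂, fG (ω₂, η₂) ∂μB ∂μA) ∂μB =
            (∫⁻ η₁, fE (ω₁, η₁) ∂μB) * ∫⁻ ω₂, ∫⁻ η₂, fG (ω₂, η₂) ∂μB ∂μA := fun ω₁ =>
          lintegral_mul_const _ (mE.comp (measurable_const.prodMk measurable_id))
        simp only [h4]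
        exact lintegral_mul_const _ (Measurable.lintegral_prod_right' mE)

lemma firstMatch_dep {w : Fin d → ℤ} {I : Set (ℕ × ℕ)} (p : ℕ × ℕ) :
    ∀ ω ω' η η', head p.1 ω = head p.1 ω' → head p.2 η = head p.2 η' →
      (ω, η) ∈ FirstMatch A B w I p → (ω', η') ∈ FirstMatch A B w I p := by
  intro ω ω' η η' e1 e2 ⟨hm, hI, hmin⟩
  refine ⟨?_, hI, fun q hq h1 h2 hq' => hmin q hq h1 h2 ?_⟩
  · show A.S ω' p.1 = B.S η' p.2 + w
    rw [← A.S_congr le_rfl e1, ← B.S_congr le_rfl e2]; exact hm
  · show A.S ω q.1 = B.S η q.2 + w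
    rw [A.S_congr h1.le e1, B.S_congr h2.le e2]; exact hq'

lemma firstMatch_inter_shift {w : Fin d → ℤ} {I : Set (ℕ × ℕ)} {p q : ℕ × ℕ}
    {w' : Fin d → ℤ} {x : (ℕ → α) × (ℕ → β)} (hp : x ∈ FirstMatch A B w I p)
    (hq : shiftPair p x ∈ Match A B w' q) : x ∈ Match A B (w + w') (p + q) := by
  obtain ⟨i, j⟩ := p
  obtain ⟨a, b⟩ := q
  have h1 : A.S x.1 i = B.S x.2 j + w := hp.1
  have h2 : A.S (fun t => x.1 (i + t)) a = B.S (fun t => x.2 (j + t)) b + w' := hq
  show A.S x.1 (i + a) = B.S x.2 (j + b) + (w + w')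
  simp only [Side.S, Finset.sum_range_add] at h1 h2 ⊢
  rw [h1, h2]; abel

/-- Strong Markov property at the first meeting in `I`. -/
theorem cnt_ge (hA : Good L A) (hB : Good L B) (w : Fin d → ℤ) (I J K : Set (ℕ × ℕ))
    (hK : ∀ p ∈ I, ∀ q ∈ J, p + q ∈ K) :
    pairLaw A B (⋃ p ∈ I, Match A B w p) * cnt A B 0 J ≤ cnt A B w K := by
  classical
  have h1 : pairLaw A B (⋃ p ∈ I, Match A B w p) ≤ ∑' p, pairLaw A B (FirstMatch A B w I p) := by
    refine (measure_mono ?_).trans (measure_iUnion_le _)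
    intro x hx
    simp only [Set.mem_iUnion] at hx
    obtain ⟨p, hp, hm⟩ := hx
    exact Set.mem_iUnion.2 (exists_firstMatch ⟨p, hp, hm⟩)
  calc pairLaw A B (⋃ p ∈ I, Match A B w p) * cnt A B 0 J
      ≤ (∑' p, pairLaw A B (FirstMatch A B w I p)) * cnt A B 0 J := by gcongr
    _ = ∑' p, ∑' q : J, pairLaw A B (FirstMatch A B w I p ∩ shiftPair p ⁻¹' Match A B 0 q.1) := by
        rw [← ENNReal.tsum_mul_right]
        refine tsum_congr fun p => ?_
        rw [cnt, ← ENNReal.tsum_mul_left]
        exact tsum_congr fun q => (prob_shift A B p (measurableSet_firstMatch A B w I p)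
          (measurableSet_match A B 0 q.1) (firstMatch_dep p)).symm
    _ ≤ ∑' p, ∑' q : J, pairLaw A B
          (if p + q.1 ∈ K then FirstMatch A B w I p ∩ Match A B w (p + q.1) else ∅) := by
        refine ENNReal.tsum_le_tsum fun p => ENNReal.tsum_le_tsum fun q => measure_mono ?_
        intro x hx
        have hk : p + q.1 ∈ K := hK p hx.1.2.1 q.1 q.2
        rw [if_pos hk]
        exact ⟨hx.1, by simpa using firstMatch_inter_shift hx.1 hx.2⟩
    _ ≤ ∑' p, ∑' r : K, pairLaw A B (FirstMatch A B w I p ∩ Match A B w r.1) := by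
        refine ENNReal.tsum_le_tsum fun p => ?_
        by_cases hI : p ∈ I
        · let g : J → K := fun q => ⟨p + q.1, hK p hI q.1 q.2⟩
          have hg : Function.Injective g := fun a b h =>
            Subtype.ext (add_left_cancel (congrArg Subtype.val h : p + a.1 = p + b.1))
          refine le_trans (le_of_eq (tsum_congr fun q => ?_)) (ENNReal.tsum_comp_le_tsum_of_injective hg
            (fun r : K => pairLaw A B (FirstMatch A B w I p ∩ Match A B w r.1)))
          rw [if_pos (hK p hI q.1 q.2)]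
        · refine le_trans (le_of_eq ?_) bot_le
          have : ∀ r, pairLaw A B (FirstMatch A B w I p ∩ r) = 0 := fun r =>
            measure_mono_null (fun x hx => absurd hx.1.2.1 hI) measure_empty
          refine ENNReal.tsum_eq_zero.2 fun q => ?_
          split_ifs
          · exact this _
          · exact measure_empty
    _ = ∑' r : K, ∑' p, pairLaw A B (FirstMatch A B w I p ∩ Match A B w r.1) := ENNReal.tsum_comm
    _ ≤ cnt A B w K := by
        refine ENNReal.tsum_le_tsum fun r => ?_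
        rw [← measure_iUnion (fun p p' h => Set.disjoint_left.2 fun x hx hx' =>
          h (firstMatch_unique hA hB hx.1 hx'.1))
          (fun p => (measurableSet_firstMatch A B w I p).inter (measurableSet_match A B w r.1))]
        exact measure_mono (Set.iUnion_subset fun p => Set.inter_subset_right)

/-- The expected number of meetings is maximal at offset zero. -/
theorem cnt_univ_le_mul (hA : Good L A) (hB : Good L B) (w : Fin d → ℤ) :
    cnt A B w Set.univ ≤ pairLaw A B (⋃ p, Match A B w p) * cnt A B 0 Set.univ := by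
  classical
  have key : cnt A B w Set.univ ≤ ∑' p, ∑' q : (Set.univ : Set (ℕ × ℕ)),
      pairLaw A B (FirstMatch A B w Set.univ p) * pairLaw A B (Match A B 0 q.1) := by
    calc cnt A B w Set.univ
        ≤ ∑' r : (Set.univ : Set (ℕ × ℕ)), ∑' p,
            pairLaw A B (Match A B w r.1 ∩ FirstMatch A B w Set.univ p) := by
          refine ENNReal.tsum_le_tsum fun r => (measure_mono ?_).trans (measure_iUnion_le _)
          intro x hx
          obtain ⟨p, hp⟩ := exists_firstMatch (I := Set.univ) (A := A) (B := B) (w := w) (x := x)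
            ⟨r.1, trivial, hx⟩
          exact Set.mem_iUnion.2 ⟨p, hx, hp⟩
      _ = ∑' p, ∑' r : (Set.univ : Set (ℕ × ℕ)),
            pairLaw A B (Match A B w r.1 ∩ FirstMatch A B w Set.univ p) := ENNReal.tsum_comm
      _ ≤ _ := by
          refine ENNReal.tsum_le_tsum fun p => ?_
          simp only [← prob_shift A B p (measurableSet_firstMatch A B w Set.univ p)
            (measurableSet_match A B 0 _) (firstMatch_dep p)]
          let g : ↥(Set.univ : Set (ℕ × ℕ)) → ↥(Set.univ : Set (ℕ × ℕ)) :=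
            fun q => ⟨p + q.1, trivial⟩
          have hg : Function.Injective g := fun a b h =>
            Subtype.ext (add_left_cancel (congrArg Subtype.val h : p + a.1 = p + b.1))
          rw [← hg.tsum_eq (f := fun r : (Set.univ : Set (ℕ × ℕ)) =>
            pairLaw A B (Match A B w r.1 ∩ FirstMatch A B w Set.univ p))]
          · refine ENNReal.tsum_le_tsum fun q => measure_mono ?_
            intro x hx
            refine ⟨hx.2, ?_⟩
            have h1 : x ∈ Match A B w (p + q.1) := hx.1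
            have h2 : x ∈ Match A B w p := hx.2.1
            show A.S (fun t => x.1 (p.1 + t)) q.1.1 = B.S (fun t => x.2 (p.2 + t)) q.1.2 + 0
            simp only [Match, Set.mem_ofPred_eq, Prod.fst_add, Prod.snd_add, Side.S,
              Finset.sum_range_add] at h1 h2 ⊢
            rw [h2] at h1
            rw [add_zero]
            have := h1
            rw [add_right_comm, add_left_inj] at this
            exact add_left_cancel this
          · intro r hr
            simp only [Function.mem_support, ne_eq] at hr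
            by_contra hout
            refine hr (measure_mono_null (fun x hx => ?_) measure_empty)
            obtain ⟨hxr, hxp, -, hmin⟩ := hx
            have hlt : r.1.1 < p.1 ∨ p.1 ≤ r.1.1 := lt_or_ge _ _
            rcases hlt with h | h
            · exact absurd hxr (hmin r.1 trivial h ((match_mono hA hB hxr hxp).1 h))
            · have h2 : p.2 ≤ r.1.2 := by
                rcases h.lt_or_eq with h | h
                · exact ((match_mono hA hB hxp hxr).1 h).le
                · exact ((match_mono hA hB hxp hxr).2 h).le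
              exact absurd ⟨⟨(r.1.1 - p.1, r.1.2 - p.2), trivial⟩,
                Subtype.ext (Prod.ext (Nat.add_sub_cancel' h) (Nat.add_sub_cancel' h2))⟩ hout
  refine key.trans ?_
  simp only [ENNReal.tsum_mul_left, ENNReal.tsum_mul_right]
  refine mul_le_mul_left ?_ _
  rw [← measure_iUnion (fun p p' h => Set.disjoint_left.2 fun x hx hx' =>
      h (firstMatch_unique hA hB hx hx')) (fun p => measurableSet_firstMatch A B w Set.univ p)]
  exact measure_mono (Set.iUnion_mono fun p => fun x hx => hx.1)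

theorem cnt_univ_le (hA : Good L A) (hB : Good L B) (w : Fin d → ℤ) :
    cnt A B w Set.univ ≤ cnt A B 0 Set.univ :=
  (cnt_univ_le_mul hA hB w).trans (mul_le_of_le_one_left' prob_le_one)

end Vale.Agent.P147
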